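import Claimed.Agent.R252.S4C.PrepContract
import Claimed.Agent.R252.S4B.GuardEx

/-!
# ROW 252 (S0492), unit S4C (post BP-252-S4C, helper294), file 11: FROM THE RAW WINDOW PACKAGE TO THE GUARDED SAMPLES.      CONTRACT file: the `sorry`s are the leaves L-252-S4C-BR-*.

ROUTE OF `KpHubSam`:   `KpCrit`  --(`KpHubWin`, S4/Win.lean sec. 4, helper79 + helper269)-->  `W : KpWin v`, `W.Ok p η g δ`  --(THIS FILE)-->  eventually in `k`:  `R k := W.raw .. k : K4cRaw v`, `(R k).Ok p`, `(R k).Num τ`, `((R k).sam p).Guard p`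
--(`k4c_prep`, S4C/PrepContract)-->  `((R k).sam p).Ok p τ`  --(`k4b_sam_mono`)-->  `KpHubSam`.
THE PARAMETERS (`N₀ = W.F.R.N k`, `N = N₀^ε`, `ε = g.eps`):   widths `wg i = N^{-i t2}`, `I0 = ⌈16 U / τ⌉₊`, `t2 = U / I0 ≤ τ/16`, so `wg I0 = N^{-U} = W.F.a (ε U) k` (the mesh of `W.vb`) and `wg i = W.F.a (ε i t2) k`;
`K0 = Kc = Kf = Ka k` ONE actual subpower factor (slow diagonal `kb_slow`/`kb_subp_of_forall` over the finitely many requirements), `Kp = 4 Ka²`;   `K1 = N^{τ/8}` (dominates `N₀^{ζ + δ/2 + 3 τ₀}`, `ζ ≤ ε τ / 64`, `τ₀ = ε τ / 64`);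
`lo = N₀^{-f(L,0) - τ₀}`;   `θ = N^{-τ/2}`;   `Mt = N^τ`;   `σ = 1 / (8 (2 I0 + G + 5))`;   `ι = g.ι log N`;   `th = 2 ζ`, `thc = δ`;   `dep m = ρ m / ε`.
-/

set_option autoImplicit false
set_option linter.unusedVariables false

namespace Claimed.Agent.R252

open MeasureTheory Filter Topology
open Claimed.Agent.R255 (uf)
open scoped ENNReal BigOperators

noncomputable section

variable {v : KbVer}

/-- the two structural facts which `KpWin.Ok` will contain (helper79): `wd_up` for ALL `k m c`, nesting of the selections -/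
def KpWin.Str (W : KpWin v) : Prop := ∀ k m c, (W.Q k m).wd (W.up k m c) = (W.Q k (m + 1)).wd c

/-- the nodes of a raw window at the sample `k` -/
def KpWin.tree (W : KpWin v) (hwd : W.Str) (k : ℕ) : K4cTree (W.F.P k) := ⟨W.Q k, W.up k, hwd k⟩

/-- the index of the finest width -/
def k4cI0 (g : KpStg) (τ : ℝ) : ℕ := ⌈16 * g.U / τ⌉₊

/-- **the raw data at the sample `k`** -/
def KpWin.raw (W : KpWin v) (hwd : W.Str) (g : KpStg) (δ τ : ℝ) (Ka : ℕ → ℝ) (M0 : ℝ) (k : ℕ) : K4cRaw v where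
  F := W.F.P k
  T := W.tree hwd k
  G := W.G
  O := W.fri k
  Oi := W.fr k
  Pth := W.Pth k
  u :=
    { N0 := W.F.R.N k
      eps := g.eps
      Lr := W.F.L
      dep := fun m => W.ρ m / g.eps
      Kp := 4 * Ka k ^ 2
      n := g.n
      th := 2 * g.ζ
      thc := δ
      Mp := 5 * M0
      Mg := 2 ^ ((5 * M0 + g.n) ^ 2) }
  t2 := g.U / k4cI0 g τ
  I0 := k4cI0 g τ
  K0 := Ka k
  Kc := Ka k
  K1 := (W.F.R.N k ^ g.eps) ^ (τ / 8)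
  Kf := Ka k
  lo := W.F.R.N k ^ (-(W.f W.F.L 0) - g.eps * τ / 64)
  θ := (W.F.R.N k ^ g.eps) ^ (-(τ / 2))
  Mt := (W.F.R.N k ^ g.eps) ^ τ
  σ := 1 / (8 * (2 * (k4cI0 g τ : ℝ) + W.G + 5))
  ι := g.ι * (g.eps * Real.log (W.F.R.N k))
  nb := W.Mb k
  M0 := M0

theorem k4c_bridge_eqns_cite : True := by
  have := @KpWin.Str.eq_1
  have := @KpWin.tree.eq_1
  have := @k4cI0.eq_1
  have := @KpWin.raw.eq_1
  trivial

section

variable (W : KpWin v) (hwd : W.Str) (p : KpPrm) (η τ δ : ℝ) (g : KpStg)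

/-! ## BR-1 : widths (~80 l.) -/

theorem k4c_br_I0 (hτ : 0 < τ) (hg : g.Fit p η τ) : 0 < k4cI0 g τ ∧ g.U / k4cI0 g τ ≤ τ / 16 ∧ 0 < g.U / k4cI0 g τ := by
  have hU : 0 < g.U := by
    have h2 := hg.U_ge
    have h3 : 0 < 1 / τ := by positivity
    linarith
  have hx : 0 < 16 * g.U / τ := by positivity
  have h0 : 0 < k4cI0 g τ := Nat.ceil_pos.2 hx
  have h0' : (0 : ℝ) < (k4cI0 g τ : ℝ) := by exact_mod_cast h0
  have hle : 16 * g.U / τ ≤ (k4cI0 g τ : ℝ) := Nat.le_ceil _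
  refine ⟨h0, ?_, by positivity⟩
  rw [div_le_iff₀ h0']
  rw [div_le_iff₀ hτ] at hle
  linarith

/-- the widths are thicknesses of `W.F` -/
theorem k4c_br_wg (Ka : ℕ → ℝ) (M0 : ℝ) (k i : ℕ) : (W.raw hwd g δ τ Ka M0 k).wg i = W.F.a (g.eps * ((i : ℝ) * (g.U / k4cI0 g τ))) k := by
  show (W.F.R.N k ^ g.eps) ^ (-((i : ℝ) * (g.U / k4cI0 g τ))) = W.F.R.N k ^ (-(g.eps * ((i : ℝ) * (g.U / k4cI0 g τ))))
  rw [← Real.rpow_mul (kb_res_pos _ k).le]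
  congr 1
  ring

theorem k4c_br_wg_fine (hτ : 0 < τ) (hg : g.Fit p η τ) (Ka : ℕ → ℝ) (M0 : ℝ) (k : ℕ) :
    (W.raw hwd g δ τ Ka M0 k).wg (k4cI0 g τ) = W.F.a (g.eps * g.U) k ∧ (W.raw hwd g δ τ Ka M0 k).vb p (k4cI0 g τ) = W.vb p g k := by
  have h0 := (k4c_br_I0 p η τ g hτ hg).1
  have h0' : ((k4cI0 g τ : ℕ) : ℝ) ≠ 0 := by exact_mod_cast h0.ne'
  have h1 : (W.raw hwd g δ τ Ka M0 k).wg (k4cI0 g τ) = W.F.a (g.eps * g.U) k := by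
    rw [k4c_br_wg]
    congr 2
    field_simp
  refine ⟨h1, ?_⟩
  funext γ x i
  show kbBin ((W.raw hwd g δ τ Ka M0 k).wg (k4cI0 g τ)) _ = kbBin (W.F.a (g.eps * g.U) k) _
  rw [h1]
  rfl

/-! ## BR-2 : the ACTUAL slack (~350 l.; every requirement is `∀ τ' > 0, ∀ᶠ k, Φ (N^τ')` with `Φ` monotone: `kb_subp_of_forall` for the conjunction; finitely many nodes: `Filter.eventually_all_finset`) -/

/-- `v.j ≤ 2` -/
theorem k4c_br_j_le (v : KbVer) : v.j ≤ 2 := by cases v <;> decide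

theorem k4c_br_det_le (M : Matrix (Fin v.j) (Fin v.j) ℝ) {K : ℝ} (hK : 1 ≤ K) (h : kbMn M ≤ K) : |M.det| ≤ K ^ 2 :=
  calc |M.det| ≤ kbMn M ^ v.j := k2n_det_le M
    _ ≤ K ^ v.j := pow_le_pow_left₀ (k4c_kbMn_nonneg M) h _
    _ ≤ K ^ 2 := pow_le_pow_right₀ hK (k4c_br_j_le v)

/-- the one-scale facts with a slack -/
structure K4cBrAct (W : KpWin v) (p : KpPrm) (k : ℕ) (K : ℝ) : Prop where
  ntv : (W.F.P k).Ntv K
  geo : ∀ m ≤ W.G, (W.Q k m).Geo K (W.F.a (W.ρ m) k)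
  known : ∀ m ≤ W.G, (W.Q k m).Known (W.F.hid W.F.L k) K
  full : ∀ m ≤ W.G, ∀ c, (W.Q k m).q ≤ K * kbMn ((W.Q k m).ch c).D
  major : 0 < p.ell → ∀ m ≤ W.G, ∀ c,
    (W.Q k m).q ≤ K * ∑ i : Fin v.j, ∑ l : Fin v.j, if (i : ℕ) = 0 then |(W.fr k ((W.Q k m).wd c) * ((W.Q k m).ch c).D) i l| else 0
  fr : ∀ γ, kbMn (W.fr k γ) ≤ K ∧ kbMn (W.fri k γ) ≤ K
  mass : 1 ≤ ENNReal.ofReal K * (W.F.P k).mass (W.Pth k)

theorem k4c_br_all {P : ℕ → ℕ → Prop} (G : ℕ) (h : ∀ m ≤ G, ∀ᶠ k in uf, P k m) : ∀ᶠ k in uf, ∀ m ≤ G, P k m := by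
  have h1 : ∀ᶠ k in uf, ∀ m ∈ Finset.range (G + 1), P k m :=
    (Filter.eventually_all_finset _).2 fun m hm => h m (Nat.lt_succ_iff.1 (Finset.mem_range.1 hm))
  filter_upwards [h1] with k hk m hm
  exact hk m (Finset.mem_range.2 (Nat.lt_succ_of_le hm))

theorem k4c_br_act_ev (hW : W.Ok p η g δ) (τ' : ℝ) (hτ' : 0 < τ') : ∀ᶠ k in uf, K4cBrAct W p k (W.F.R.N k ^ τ') := by
  obtain ⟨d', -, hcap⟩ := hW.cap
  have e1 := hcap.ok.2.2 τ' hτ'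
  have e2 : ∀ᶠ k in uf, ∀ m ≤ W.G, (W.Q k m).Geo (W.F.R.N k ^ τ') (W.F.a (W.ρ m) k) :=
    k4c_br_all W.G fun m hm => ((hW.atl m hm).1.2.1 τ' hτ').mono fun k hk => hk.1
  have e3 : ∀ᶠ k in uf, ∀ m ≤ W.G, (W.Q k m).Known (W.F.hid W.F.L k) (W.F.R.N k ^ τ') :=
    k4c_br_all W.G fun m hm => (hW.atl m hm).2 τ' hτ'
  have e5 : ∀ᶠ k in uf, 0 < p.ell → ∀ m ≤ W.G, ∀ c,
      (W.Q k m).q ≤ W.F.R.N k ^ τ' * ∑ i : Fin v.j, ∑ l : Fin v.j, if (i : ℕ) = 0 then |(W.fr k ((W.Q k m).wd c) * ((W.Q k m).ch c).D) i l| else 0 := by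
    by_cases hl : 0 < p.ell
    · exact (hW.major hl τ' hτ').mono fun k hk _ => hk
    · exact Eventually.of_forall fun k h => absurd h hl
  filter_upwards [e1, e2, e3, hW.full τ' hτ', e5, hW.fr_bd τ' hτ', hW.dense.2 τ' hτ'] with k a1 a2 a3 a4 a5 a6 a7
  exact ⟨a1, a2, a3, a4, a5, a6, a7⟩

theorem k4c_br_sc_pow {N0 ε : ℝ} (hN : 0 < N0) (hε : 0 < ε) (x ρ : ℝ) : (N0 ^ ε) ^ (-x * (ρ / ε)) = N0 ^ (-(x * ρ)) := by
  rw [← Real.rpow_mul hN.le]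
  congr 1
  field_simp

theorem k4c_br_sc_q {N0 X τ0 δ h kρ q : ℝ} (hN : 1 ≤ N0) (h1 : N0 ^ (-h - τ0) ≤ q) (h2 : q ≤ N0 ^ (-h + τ0)) (h3 : N0 ^ (-h - δ / 2) ≤ q)
    (hh : |h - kρ| ≤ δ / 2) (hX : δ / 2 + τ0 ≤ X) :
    N0 ^ (-kρ) ≤ N0 ^ X * q ∧ q ≤ N0 ^ X * N0 ^ (-kρ) ∧ N0 ^ (-(kρ + δ)) ≤ q := by
  have hN0 : 0 < N0 := by linarith
  obtain ⟨a1, a2⟩ := abs_le.1 hh
  refine ⟨?_, ?_, ?_⟩
  · calc N0 ^ (-kρ) ≤ N0 ^ (X + (-h - τ0)) := Real.rpow_le_rpow_of_exponent_le hN (by linarith)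
      _ = N0 ^ X * N0 ^ (-h - τ0) := Real.rpow_add hN0 _ _
      _ ≤ N0 ^ X * q := mul_le_mul_of_nonneg_left h1 (Real.rpow_nonneg hN0.le _)
  · calc q ≤ N0 ^ (-h + τ0) := h2
      _ ≤ N0 ^ (X + -kρ) := Real.rpow_le_rpow_of_exponent_le hN (by linarith)
      _ = N0 ^ X * N0 ^ (-kρ) := Real.rpow_add hN0 _ _
  · exact le_trans (Real.rpow_le_rpow_of_exponent_le hN (by linarith)) h3

theorem k4c_br_sc_J2 {N0 X τ0 ζ x lρ q J : ℝ} (hN : 1 ≤ N0) (hq : 0 < q) (hJ : 0 ≤ J) (h1 : N0 ^ (x - τ0) ≤ q ^ 2 / J) (h2 : q ^ 2 / J ≤ N0 ^ (x + τ0))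
    (hh : |x - lρ| ≤ ζ) (hX : ζ + τ0 ≤ X) :
    q ^ 2 * N0 ^ (-lρ) ≤ N0 ^ X * J ∧ J ≤ N0 ^ X * (q ^ 2 * N0 ^ (-lρ)) := by
  have hN0 : 0 < N0 := by linarith
  obtain ⟨a1, a2⟩ := abs_le.1 hh
  have hJ0 : 0 < J := by
    rcases hJ.lt_or_eq with h | h
    · exact h
    · rw [← h, div_zero] at h1
      exact absurd h1 (not_le.2 (Real.rpow_pos_of_pos hN0 _))
  rw [le_div_iff₀ hJ0] at h1
  rw [div_le_iff₀ hJ0] at h2
  refine ⟨?_, ?_⟩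
  · calc q ^ 2 * N0 ^ (-lρ) ≤ (N0 ^ (x + τ0) * J) * N0 ^ (-lρ) := mul_le_mul_of_nonneg_right h2 (Real.rpow_nonneg hN0.le _)
      _ = (N0 ^ (x + τ0) * N0 ^ (-lρ)) * J := by ring
      _ = N0 ^ (x + τ0 + -lρ) * J := by rw [← Real.rpow_add hN0]
      _ ≤ N0 ^ X * J := mul_le_mul_of_nonneg_right (Real.rpow_le_rpow_of_exponent_le hN (by linarith)) hJ
  · calc J = N0 ^ (-(x - τ0)) * (N0 ^ (x - τ0) * J) := by
          rw [← mul_assoc, ← Real.rpow_add hN0, neg_add_cancel, Real.rpow_zero, one_mul]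
      _ ≤ N0 ^ (-(x - τ0)) * q ^ 2 := mul_le_mul_of_nonneg_left h1 (Real.rpow_nonneg hN0.le _)
      _ ≤ N0 ^ (X + -lρ) * q ^ 2 := mul_le_mul_of_nonneg_right (Real.rpow_le_rpow_of_exponent_le hN (by linarith)) (by positivity)
      _ = N0 ^ X * (q ^ 2 * N0 ^ (-lρ)) := by rw [Real.rpow_add hN0]; ring

theorem k4c_br_sc_det1 {m : ℕ} (hm : m = 1) (D : Matrix (Fin m) (Fin m) ℝ) : |D.det| = kbMn D := by
  subst hm
  simp [kbMn]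

theorem k4c_br_sc_J1 {N0 X τ0 q J : ℝ} (hN : 1 ≤ N0) (hq : 0 < q) (hJ : 0 ≤ J) (h1 : J ≤ q * N0 ^ τ0) (h2 : q ≤ N0 ^ τ0 * J) (hX : τ0 ≤ X) :
    q ≤ N0 ^ X * J ∧ J ≤ N0 ^ X * q := by
  have h3 : N0 ^ τ0 ≤ N0 ^ X := Real.rpow_le_rpow_of_exponent_le hN hX
  exact ⟨h2.trans (mul_le_mul_of_nonneg_right h3 hJ), h1.trans (by rw [mul_comm]; exact mul_le_mul_of_nonneg_right h3 hq.le)⟩

theorem k4c_br_sc_nu {N0 X τ0 ζ e dρ J : ℝ} {ν : ℝ≥0∞} (hN : 1 ≤ N0) (hJ : 0 ≤ J) (h1 : ν ≤ ENNReal.ofReal (N0 ^ τ0 * N0 ^ (-e) * J))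
    (h2 : ENNReal.ofReal (N0 ^ (-e) * J) ≤ ENNReal.ofReal (N0 ^ τ0) * ν) (hh : |e - dρ| ≤ ζ) (hX : ζ + τ0 ≤ X) :
    ENNReal.ofReal (N0 ^ (-dρ) * J) ≤ ENNReal.ofReal (N0 ^ X) * ν ∧ ν ≤ ENNReal.ofReal (N0 ^ X * (N0 ^ (-dρ) * J)) := by
  have hN0 : 0 < N0 := by linarith
  obtain ⟨a1, a2⟩ := abs_le.1 hh
  refine ⟨?_, ?_⟩
  · calc ENNReal.ofReal (N0 ^ (-dρ) * J) ≤ ENNReal.ofReal (N0 ^ (X - τ0) * (N0 ^ (-e) * J)) := by
          refine ENNReal.ofReal_le_ofReal ?_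
          rw [← mul_assoc, ← Real.rpow_add hN0]
          exact mul_le_mul_of_nonneg_right (Real.rpow_le_rpow_of_exponent_le hN (by linarith)) hJ
      _ = ENNReal.ofReal (N0 ^ (X - τ0)) * ENNReal.ofReal (N0 ^ (-e) * J) := ENNReal.ofReal_mul (Real.rpow_nonneg hN0.le _)
      _ ≤ ENNReal.ofReal (N0 ^ (X - τ0)) * (ENNReal.ofReal (N0 ^ τ0) * ν) := mul_le_mul' le_rfl h2
      _ = ENNReal.ofReal (N0 ^ X) * ν := by
          rw [← mul_assoc, ← ENNReal.ofReal_mul (Real.rpow_nonneg hN0.le _), ← Real.rpow_add hN0, sub_add_cancel]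
  · refine h1.trans (ENNReal.ofReal_le_ofReal ?_)
    rw [← mul_assoc, ← Real.rpow_add hN0, ← Real.rpow_add hN0]
    exact mul_le_mul_of_nonneg_right (Real.rpow_le_rpow_of_exponent_le hN (by linarith)) hJ

/-- the fields of `K4cRaw.Ok` with an actual slack.   `det`: `|det M| ≤ kbMn M ^ j`, `|det O| |det Oi| = 1`;   `ex_gd`: ALL labels are good (`W.Ok.full`, `major`; `kbMn D ≤ kbMn O * kbMn (Oi D)`), the sum is `0`. -/
theorem k4c_br_actual (hp : p.Ok) (hτ : 0 < τ) (hτ1 : τ ≤ 1) (hg : g.Fit p η τ) (hδ : 0 < δ) (hδζ : δ ≤ g.ζ) (hW : W.Ok p η g δ)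
    (hS : ∀ᶠ k in uf, ∀ m < W.G, ∀ c, (W.Q k (m + 1)).S c ⊆ (W.Q k m).S (W.up k m c)) :
    ∃ (Ka : ℕ → ℝ) (M0 : ℝ), KbSubP W.F.R Ka ∧ 1 ≤ M0 ∧ ∀ᶠ k in uf, 2 ≤ Ka k ∧ 8 * Ka k ^ 2 ≤ W.F.R.N k ^ M0 ∧
      (W.F.P k).WF ∧ (W.F.P k).Ntv (Ka k) ∧ (W.F.P k).Tmp (W.F.R.N k ^ M0) ∧
      (∀ γ, W.fri k γ * W.fr k γ = 1 ∧ kbMn (W.fri k γ) ≤ Ka k ∧ kbMn (W.fr k γ) ≤ Ka k ∧ |(W.fri k γ).det| ≤ Ka k ∧ 1 ≤ Ka k * |(W.fri k γ).det|) ∧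
      (∀ m ≤ W.G, (W.Q k m).WF ∧ (W.Q k m).Geo (Ka k) (W.F.R.N k ^ (-(g.eps * (W.ρ m / g.eps)))) ∧ (W.Q k m).Known ((W.F.P k).hid (W.F.R.N k ^ (-W.F.L))) (Ka k) ∧
        (W.Q k m).Tmp (W.F.R.N k ^ M0) ∧ ∀ c, c ∈ (W.raw hwd g δ τ Ka M0 k).gd p m) ∧
      1 ≤ ENNReal.ofReal (Ka k) * (W.F.P k).mass (W.Pth k) := by
  obtain ⟨d', -, hcap⟩ := hW.cap
  obtain ⟨ME, hME⟩ := hcap.ok.2.1
  have hMs : ∀ m, ∃ M : ℝ, m ≤ W.G → ∀ᶠ k in uf, (W.Q k m).WF ∧ (W.Q k m).Tmp (W.F.R.N k ^ M) := by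
    intro m
    by_cases hm : m ≤ W.G
    · obtain ⟨M, hM⟩ := (hW.atl m hm).1.1
      exact ⟨M, fun _ => hM⟩
    · exact ⟨0, fun h => absurd h hm⟩
  choose Ms hMs using hMs
  obtain ⟨M0, hM0d⟩ : ∃ M0 : ℝ, M0 = 1 + |ME| + ∑ m ∈ Finset.range (W.G + 1), |Ms m| := ⟨_, rfl⟩
  have hsum0 : 0 ≤ ∑ m ∈ Finset.range (W.G + 1), |Ms m| := Finset.sum_nonneg fun m _ => abs_nonneg _
  have hM01 : 1 ≤ M0 := by rw [hM0d]; linarith [abs_nonneg ME]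
  have hME0 : ME ≤ M0 := by rw [hM0d]; linarith [le_abs_self ME]
  have hMs0 : ∀ m ≤ W.G, Ms m ≤ M0 := by
    intro m hm
    have h1 : |Ms m| ≤ ∑ m ∈ Finset.range (W.G + 1), |Ms m| :=
      Finset.single_le_sum (f := fun m => |Ms m|) (fun m _ => abs_nonneg _) (Finset.mem_range.2 (Nat.lt_succ_of_le hm))
    rw [hM0d]
    linarith [le_abs_self (Ms m), abs_nonneg ME]
  obtain ⟨t, ht0, -, hsub, hact⟩ := kb_slow W.F.R (fun k τ' => K4cBrAct W p k (W.F.R.N k ^ τ')) (k4c_br_act_ev W p η δ g hW)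
  have hKa : KbSubP W.F.R fun k => 2 * (W.F.R.N k ^ t k * W.F.R.N k ^ t k) :=
    kb_subp_mul W.F.R (kb_subp_const W.F.R (C := 2) (by norm_num)) (kb_subp_mul W.F.R hsub hsub)
  refine ⟨fun k => 2 * (W.F.R.N k ^ t k * W.F.R.N k ^ t k), M0, hKa, hM01, ?_⟩
  have hsys : ∀ᶠ k in uf, ∀ m ≤ W.G, (W.Q k m).WF ∧ (W.Q k m).Tmp (W.F.R.N k ^ Ms m) := k4c_br_all W.G fun m hm => hMs m hm
  filter_upwards [hME, hsys, hact, hKa (1 / 4) (by norm_num), (kb_rpow_tendsto W.F.R (show (0 : ℝ) < 1 / 2 by norm_num)).eventually_ge_atTop 8]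
    with k a1 a2 a3 a4 a5
  obtain ⟨K, hKd⟩ : ∃ K : ℝ, K = W.F.R.N k ^ t k := ⟨_, rfl⟩
  have hN0 := kb_res_pos W.F.R k
  have hN1 := kb_res_one_le W.F.R k
  have hK1 : 1 ≤ K := by rw [hKd]; exact Real.one_le_rpow hN1 (ht0 k).le
  have hK0 : 0 ≤ K := by linarith
  simp only [← hKd] at a3 a4 ⊢
  have hKK : K ≤ K * K := by nlinarith
  have hKa2 : K * K ≤ 2 * (K * K) := by nlinarith
  have hKKa : K ≤ 2 * (K * K) := hKK.trans hKa2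
  have hwf := a1.1
  have hinv : ∀ γ, W.fri k γ * W.fr k γ = 1 := fun γ => mul_eq_one_comm.1 (hW.fr_inv k γ)
  refine ⟨by nlinarith, ?_, hwf, k4b_ntv_mono _ hwf a3.ntv hKKa, ?_, ?_, ?_, ?_⟩
  · have h1 : (2 * (K * K)) ^ 2 ≤ W.F.R.N k ^ (1 / 4 : ℝ) * W.F.R.N k ^ (1 / 4 : ℝ) := by
      rw [sq]
      exact mul_le_mul a4.2 a4.2 (by positivity) (Real.rpow_nonneg hN0.le _)
    have h2 : W.F.R.N k ^ (1 / 4 : ℝ) * W.F.R.N k ^ (1 / 4 : ℝ) = W.F.R.N k ^ (1 / 2 : ℝ) := by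
      rw [← Real.rpow_add hN0]; norm_num
    have h3 : W.F.R.N k ^ (1 / 2 : ℝ) * W.F.R.N k ^ (1 / 2 : ℝ) = W.F.R.N k ^ (1 : ℝ) := by
      rw [← Real.rpow_add hN0]; norm_num
    calc 8 * (2 * (K * K)) ^ 2 ≤ W.F.R.N k ^ (1 / 2 : ℝ) * W.F.R.N k ^ (1 / 2 : ℝ) :=
          mul_le_mul a5 (h1.trans h2.le) (by positivity) (Real.rpow_nonneg hN0.le _)
      _ = W.F.R.N k ^ (1 : ℝ) := h3
      _ ≤ W.F.R.N k ^ M0 := Real.rpow_le_rpow_of_exponent_le hN1 hM01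
  · exact k4c_PTmp_mono (fun γ => (hwf.B_pos γ).le) a1.2 (Real.rpow_le_rpow_of_exponent_le hN1 hME0)
  · intro γ
    obtain ⟨b1, b2⟩ := a3.fr γ
    have d1 := k4c_br_det_le (W.fri k γ) hK1 b2
    have d2 := k4c_br_det_le (W.fr k γ) hK1 b1
    have d3 : |(W.fri k γ).det| * |(W.fr k γ).det| = 1 := by
      rw [← abs_mul, ← Matrix.det_mul, hinv γ, Matrix.det_one, abs_one]
    refine ⟨hinv γ, b2.trans hKKa, b1.trans hKKa, ?_, ?_⟩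
    · calc |(W.fri k γ).det| ≤ K ^ 2 := d1
        _ = K * K := sq K
        _ ≤ _ := hKa2
    · have h5 : 1 ≤ K ^ 2 * |(W.fri k γ).det| := by
        calc (1 : ℝ) = |(W.fri k γ).det| * |(W.fr k γ).det| := d3.symm
          _ ≤ |(W.fri k γ).det| * K ^ 2 := mul_le_mul_of_nonneg_left d2 (abs_nonneg _)
          _ = K ^ 2 * |(W.fri k γ).det| := mul_comm _ _
      calc (1 : ℝ) ≤ K ^ 2 * |(W.fri k γ).det| := h5
        _ ≤ 2 * (K * K) * |(W.fri k γ).det| := mul_le_mul_of_nonneg_right (by nlinarith) (abs_nonneg _)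
  · intro m hm
    have e1 : g.eps * (W.ρ m / g.eps) = W.ρ m := mul_div_cancel₀ _ hg.eps_pos.ne'
    refine ⟨(a2 m hm).1, ?_, k2s_known_mono _ (a3.known m hm) hKKa, k2s_tmp_mono _ (a2 m hm).2 (Real.rpow_le_rpow_of_exponent_le hN1 (hMs0 m hm)), ?_⟩
    · rw [e1]
      exact k4b_geo_mono _ hwf (a3.geo m hm) hKKa (Real.rpow_nonneg hN0.le _)
    · intro c
      constructor
      · show (W.Q k m).q ≤ 2 * (W.F.R.N k ^ t k * W.F.R.N k ^ t k) * kbMn (W.fr k ((W.Q k m).wd c) * ((W.Q k m).ch c).D)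
        rw [← hKd]
        have h1 : ((W.Q k m).ch c).D = W.fri k ((W.Q k m).wd c) * (W.fr k ((W.Q k m).wd c) * ((W.Q k m).ch c).D) := by
          rw [← Matrix.mul_assoc, hinv, Matrix.one_mul]
        have h2 : kbMn ((W.Q k m).ch c).D ≤ K * kbMn (W.fr k ((W.Q k m).wd c) * ((W.Q k m).ch c).D) := by
          calc kbMn ((W.Q k m).ch c).D = kbMn (W.fri k ((W.Q k m).wd c) * (W.fr k ((W.Q k m).wd c) * ((W.Q k m).ch c).D)) := congrArg kbMn h1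
            _ ≤ kbMn (W.fri k ((W.Q k m).wd c)) * kbMn (W.fr k ((W.Q k m).wd c) * ((W.Q k m).ch c).D) := k4c_kbMn_mul _ _
            _ ≤ K * kbMn (W.fr k ((W.Q k m).wd c) * ((W.Q k m).ch c).D) := mul_le_mul_of_nonneg_right (a3.fr _).2 (k4c_kbMn_nonneg _)
        calc (W.Q k m).q ≤ K * kbMn ((W.Q k m).ch c).D := a3.full m hm c
          _ ≤ K * (K * kbMn (W.fr k ((W.Q k m).wd c) * ((W.Q k m).ch c).D)) := mul_le_mul_of_nonneg_left h2 hK0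
          _ = K * K * kbMn (W.fr k ((W.Q k m).wd c) * ((W.Q k m).ch c).D) := by ring
          _ ≤ 2 * (K * K) * kbMn (W.fr k ((W.Q k m).wd c) * ((W.Q k m).ch c).D) := mul_le_mul_of_nonneg_right hKa2 (k4c_kbMn_nonneg _)
      · intro hl
        show (W.Q k m).q ≤ 2 * (W.F.R.N k ^ t k * W.F.R.N k ^ t k) * ∑ i : Fin v.j, ∑ l : Fin v.j, if (i : ℕ) = 0 then |(W.fr k ((W.Q k m).wd c) * ((W.Q k m).ch c).D) i l| else 0
        rw [← hKd]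
        refine (a3.major hl m hm c).trans (mul_le_mul_of_nonneg_right hKKa ?_)
        refine Finset.sum_nonneg fun i _ => Finset.sum_nonneg fun l _ => ?_
        split_ifs
        · exact abs_nonneg _
        · exact le_rfl
  · exact a3.mass.trans (mul_le_mul_left (ENNReal.ofReal_le_ofReal hKKa) _)

/-! ## BR-3 : the scales of the nodes (~300 l.; `KbExp`, `IsSat`, `Narrow` with `τ' = ε τ / 64`; `N^x = N₀^{ε x}`; version 1: `J = kbMn D`, `Geo.size`, `full`) -/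

theorem k4c_br_scales (hp : p.Ok) (h1 : v = KbVer.one → p.ell = 0) (hτ : 0 < τ) (hτ1 : τ ≤ 1) (hg : g.Fit p η τ) (hδ : 0 < δ) (hδζ : δ ≤ g.ζ) (hW : W.Ok p η g δ) (Ka : ℕ → ℝ) (M0 : ℝ) :
    ∀ᶠ k in uf, ∀ m ≤ W.G,
      (W.raw hwd g δ τ Ka M0 k).N ^ (-p.k * (W.ρ m / g.eps)) ≤ (W.raw hwd g δ τ Ka M0 k).K1 * (W.Q k m).q ∧
      (W.Q k m).q ≤ (W.raw hwd g δ τ Ka M0 k).K1 * (W.raw hwd g δ τ Ka M0 k).N ^ (-p.k * (W.ρ m / g.eps)) ∧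
      W.F.R.N k ^ (-(p.k * (g.eps * (W.ρ m / g.eps)) + δ)) ≤ (W.Q k m).q ∧
      ∀ c, (W.Q k m).q ^ v.j * (W.raw hwd g δ τ Ka M0 k).N ^ (-p.ell * (W.ρ m / g.eps)) ≤ (W.raw hwd g δ τ Ka M0 k).K1 * ((W.Q k m).ch c).J ∧
        ((W.Q k m).ch c).J ≤ (W.raw hwd g δ τ Ka M0 k).K1 * ((W.Q k m).q ^ v.j * (W.raw hwd g δ τ Ka M0 k).N ^ (-p.ell * (W.ρ m / g.eps))) ∧
        ENNReal.ofReal ((W.raw hwd g δ τ Ka M0 k).N ^ (-p.d * (W.ρ m / g.eps)) * ((W.Q k m).ch c).J) ≤ ENNReal.ofReal (W.raw hwd g δ τ Ka M0 k).K1 * (W.Q k m).nuC c ∧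
        (W.Q k m).nuC c ≤ ENNReal.ofReal ((W.raw hwd g δ τ Ka M0 k).K1 * ((W.raw hwd g δ τ Ka M0 k).N ^ (-p.d * (W.ρ m / g.eps)) * ((W.Q k m).ch c).J)) := by
  have hε : 0 < g.eps := hg.eps_pos
  obtain ⟨τ0, hτ0d⟩ : ∃ τ0 : ℝ, τ0 = g.eps * τ / 64 := ⟨_, rfl⟩
  have hτ0 : 0 < τ0 := by rw [hτ0d]; positivity
  obtain ⟨X, hXd⟩ : ∃ X : ℝ, X = g.eps * (τ / 8) := ⟨_, rfl⟩
  have hζ : g.ζ ≤ τ0 := by rw [hτ0d]; exact hg.ζ_le
  have hX8 : X = 8 * τ0 := by rw [hXd, hτ0d]; ring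
  have eq1 : ∀ᶠ k in uf, ∀ m ≤ W.G, W.F.R.N k ^ (-W.h m - τ0) ≤ (W.Q k m).q ∧ (W.Q k m).q ≤ W.F.R.N k ^ (-W.h m + τ0) :=
    k4c_br_all W.G fun m hm => (hW.atl m hm).1.2.2 τ0 hτ0
  have eq2 : ∀ᶠ k in uf, ∀ m ≤ W.G, W.F.R.N k ^ (-W.h m - δ / 2) ≤ (W.Q k m).q ∧ (W.Q k m).q ≤ W.F.R.N k ^ (-W.h m + δ / 2) :=
    k4c_br_all W.G fun m hm => (hW.atl m hm).1.2.2 (δ / 2) (by positivity)
  have eg : ∀ᶠ k in uf, ∀ m ≤ W.G, (W.Q k m).Geo (W.F.R.N k ^ τ0) (W.F.a (W.ρ m) k) :=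
    k4c_br_all W.G fun m hm => ((hW.atl m hm).1.2.1 τ0 hτ0).mono fun k hk => hk.1
  have es : ∀ᶠ k in uf, ∀ m ≤ W.G, (W.Q k m).Sat (W.F.R.N k ^ τ0) (W.F.R.N k ^ (-W.e m)) :=
    k4c_br_all W.G fun m hm => hW.sat m hm τ0 hτ0
  have en : ∀ᶠ k in uf, v = KbVer.two → ∀ m ≤ W.G, ∀ c, W.F.R.N k ^ (- -W.x m - τ0) ≤ (W.Q k m).q ^ 2 / ((W.Q k m).ch c).J ∧
      (W.Q k m).q ^ 2 / ((W.Q k m).ch c).J ≤ W.F.R.N k ^ (- -W.x m + τ0) := by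
    by_cases hv : v = KbVer.two
    · exact (k4c_br_all W.G fun m hm => hW.nar hv m hm τ0 hτ0).mono fun k hk _ => hk
    · exact Eventually.of_forall fun k h => absurd h hv
  filter_upwards [eq1, eq2, eg, es, en, hW.full τ0 hτ0] with k a1 a2 a3 a4 a5 a6 m hm
  have hN0 := kb_res_pos W.F.R k
  have hN1 := kb_res_one_le W.F.R k
  have eN : (W.raw hwd g δ τ Ka M0 k).N = W.F.R.N k ^ g.eps := rfl
  have eK : (W.raw hwd g δ τ Ka M0 k).K1 = W.F.R.N k ^ X := by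
    show (W.F.R.N k ^ g.eps) ^ (τ / 8) = _
    rw [← Real.rpow_mul hN0.le, hXd]
  have eρ : g.eps * (W.ρ m / g.eps) = W.ρ m := mul_div_cancel₀ _ hε.ne'
  rw [eN, eK, eρ, k4c_br_sc_pow hN0 hε, k4c_br_sc_pow hN0 hε, k4c_br_sc_pow hN0 hε]
  have hq0 : 0 < (W.Q k m).q := by unfold KbSys.q kbQ; positivity
  obtain ⟨b1, b2, b3⟩ := k4c_br_sc_q (X := X) hN1 (a1 m hm).1 (a1 m hm).2 (a2 m hm).1 (hW.h_near m hm) (by linarith)
  refine ⟨b1, b2, b3, fun c => ?_⟩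
  have hJ0 : 0 ≤ ((W.Q k m).ch c).J := abs_nonneg _
  obtain ⟨s1, s2, s3⟩ := a4 m hm c
  obtain ⟨n1, n2⟩ := k4c_br_sc_nu (X := X) hN1 hJ0 s2 s3 (hW.e_near m hm) (by linarith)
  have hJ : (W.Q k m).q ^ v.j * W.F.R.N k ^ (-(p.ell * W.ρ m)) ≤ W.F.R.N k ^ X * ((W.Q k m).ch c).J ∧
      ((W.Q k m).ch c).J ≤ W.F.R.N k ^ X * ((W.Q k m).q ^ v.j * W.F.R.N k ^ (-(p.ell * W.ρ m))) := by
    rcases (by cases v <;> simp : v = KbVer.one ∨ v = KbVer.two) with hv | hv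
    · have hj : v.j = 1 := by rw [hv]; rfl
      have e1 : (W.Q k m).q ^ v.j = (W.Q k m).q := by rw [hj, pow_one]
      have e2 : ((W.Q k m).ch c).J = kbMn ((W.Q k m).ch c).D := k4c_br_sc_det1 hj _
      rw [e1, h1 hv, zero_mul, neg_zero, Real.rpow_zero, mul_one]
      refine k4c_br_sc_J1 (τ0 := τ0) hN1 hq0 hJ0 ?_ ?_ (by linarith)
      · rw [e2]; exact (a3 m hm).size c
      · rw [e2]; exact a6 m hm c
    · have hj : v.j = 2 := by rw [hv]; rfl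
      have e1 : (W.Q k m).q ^ v.j = (W.Q k m).q ^ 2 := by rw [hj]
      rw [e1]
      obtain ⟨c1, c2⟩ := a5 hv m hm c
      rw [neg_neg] at c1 c2
      exact k4c_br_sc_J2 (ζ := g.ζ) hN1 hq0 hJ0 c1 c2 (hW.x_near hv m hm) (by linarith)
  exact ⟨hJ.1, hJ.2, n1, n2⟩

/-! ## BR-4 : the exceptional masses (~350 l.) -/

/-- power-small masses are small relative to the path (`W.Ok.dense`, `kb_pow_neg`-type argument; `massOf` is a `toReal`: masses are `≤ 1`, `k2a_tot_le`) -/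
theorem k4c_br_small (hW : W.Ok p η g δ) (S : W.F.Sel) (hS : KbPow W.F.R (W.F.massOf S)) (σ : ℝ) (hσ : 0 < σ) :
    ∀ᶠ k in uf, (W.F.P k).mass (S k) ≤ ENNReal.ofReal σ * (W.F.P k).mass (W.Pth k) := by
  obtain ⟨c, hc, hSc⟩ := hS
  obtain ⟨d', -, hcap⟩ := hW.cap
  obtain ⟨-, ⟨M, hM⟩, -⟩ := hcap.ok
  filter_upwards [hSc, hM, hW.dense.2 (c / 2) (by positivity), kb_L3_rpow_neg_le W.F.R (half_pos hc) hσ] with k h1 h2 h3 h4
  have hN := kb_res_pos W.F.R k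
  have hfin : (W.F.P k).mass (S k) ≠ ⊤ := by
    have : (W.F.P k).mass (S k) ≤ 1 := (k2a_mass_mono (fun γ => Set.subset_univ _)).trans (k2a_tot_le h2.1)
    exact ne_top_of_le_ne_top ENNReal.one_ne_top this
  have h5 : (W.F.P k).mass (S k) ≤ ENNReal.ofReal (W.F.R.N k ^ (-c)) := by
    rw [← ENNReal.ofReal_toReal hfin]
    exact ENNReal.ofReal_le_ofReal h1
  have e : W.F.R.N k ^ (-c) = W.F.R.N k ^ (-(c / 2)) * W.F.R.N k ^ (-(c / 2)) := by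
    rw [← Real.rpow_add hN]
    congr 1
    ring
  have e2 : ENNReal.ofReal (W.F.R.N k ^ (-(c / 2))) * ENNReal.ofReal (W.F.R.N k ^ (c / 2)) = 1 := by
    rw [← ENNReal.ofReal_mul (by positivity), ← Real.rpow_add hN]
    simp
  calc (W.F.P k).mass (S k) ≤ ENNReal.ofReal (W.F.R.N k ^ (-c)) := h5
    _ = ENNReal.ofReal (W.F.R.N k ^ (-(c / 2))) * (ENNReal.ofReal (W.F.R.N k ^ (-(c / 2))) * 1) := by
        rw [e, ENNReal.ofReal_mul (by positivity), mul_one]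
    _ ≤ ENNReal.ofReal (W.F.R.N k ^ (-(c / 2))) * (ENNReal.ofReal (W.F.R.N k ^ (-(c / 2))) * (ENNReal.ofReal (W.F.R.N k ^ (c / 2)) * (W.F.P k).mass (W.Pth k))) := by
        gcongr
    _ = ENNReal.ofReal (W.F.R.N k ^ (-(c / 2))) * (W.F.P k).mass (W.Pth k) := by
        rw [← mul_assoc (ENNReal.ofReal (W.F.R.N k ^ (-(c / 2)))) (ENNReal.ofReal (W.F.R.N k ^ (c / 2))), e2, one_mul]
    _ ≤ ENNReal.ofReal σ * (W.F.P k).mass (W.Pth k) := by gcongr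

/-- a typical upper bound, with a larger threshold -/
theorem k4c_br_up (hW : W.Ok p η g δ) {D : Type} (ℓ : W.F.Lab D) (f τ0 : ℝ) (hτ0 : 0 < τ0) (hT : W.F.TypUp ℓ f) (hi : ℕ → ℝ) (hhi : ∀ k, W.F.R.N k ^ (-f + τ0) ≤ hi k)
    (σ : ℝ) (hσ : 0 < σ) : ∀ᶠ k in uf, (W.F.P k).mass ((W.F.P k).above (ℓ k) (hi k)) ≤ ENNReal.ofReal σ * (W.F.P k).mass (W.Pth k) := by
  filter_upwards [k4c_br_small W p η δ g hW _ (hT τ0 hτ0) σ hσ] with k hk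
  exact (k2a_mass_mono (fun γ x hx => lt_of_le_of_lt (ENNReal.ofReal_le_ofReal (hhi k)) hx)).trans hk

/-- `ex_w`: `TypUp (hid r) (f r 0)` (`cap.hom.pure`, `r = ε i t2 ≤ ε U ≤ L`), `f r 0 ≥ d r - ζ` (`prof`): the threshold `hiW i = N^{τ/8} wg^d ≥ N₀^{-f(r,0) + τ₀}`; `above` is antitone in the threshold.
`ex_lo`: `TypLo (hid L) (f L 0)`.      `ex_v`: `W.Ok.ang` at `u = ε i t2` for `i ≥ 1`; for `i = 0`: `dn (lpair ..) ≤ dn (hid L)` a.e. (`k2a_lpair_le`) and `TypUp (hid L) (f L 0)`. -/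
theorem k4c_br_exc (hp : p.Ok) (hτ : 0 < τ) (hτ1 : τ ≤ 1) (hg : g.Fit p η τ) (hδ : 0 < δ) (hδζ : δ ≤ g.ζ) (hW : W.Ok p η g δ) (Ka : ℕ → ℝ) (M0 : ℝ) :
    ∀ᶠ k in uf,
      (∀ i ≤ k4cI0 g τ, (W.F.P k).mass ((W.F.P k).above ((W.F.P k).hid ((W.raw hwd g δ τ Ka M0 k).wg i)) ((W.raw hwd g δ τ Ka M0 k).hiW p i))
        ≤ ENNReal.ofReal (W.raw hwd g δ τ Ka M0 k).σ * (W.F.P k).mass (W.Pth k)) ∧
      (W.F.P k).mass ((W.F.P k).below ((W.F.P k).hid (W.raw hwd g δ τ Ka M0 k).aL) (W.raw hwd g δ τ Ka M0 k).lo) ≤ ENNReal.ofReal (W.raw hwd g δ τ Ka M0 k).σ * (W.F.P k).mass (W.Pth k) ∧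
      ∀ i ≤ k4cI0 g τ, (W.F.P k).mass ((W.F.P k).above ((W.F.P k).lpair ((W.F.P k).hid (W.raw hwd g δ τ Ka M0 k).aL) ((W.raw hwd g δ τ Ka M0 k).vb p i)) ((W.raw hwd g δ τ Ka M0 k).hiV p i))
        ≤ ENNReal.ofReal (W.raw hwd g δ τ Ka M0 k).σ * (W.F.P k).mass (W.Pth k) := by
  obtain ⟨hI0, ht2, ht2p⟩ := k4c_br_I0 p η τ g hτ hg
  obtain ⟨d', -, hcap⟩ := hW.cap
  obtain ⟨-, ⟨M, hM⟩, -⟩ := hcap.ok
  have hε := hg.eps_pos
  obtain ⟨σ0, hσ0⟩ : ∃ σ0 : ℝ, σ0 = 1 / (8 * (2 * (k4cI0 g τ : ℝ) + W.G + 5)) := ⟨_, rfl⟩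
  have hσp : 0 < σ0 := by rw [hσ0]; positivity
  have hσe : ∀ k, (W.raw hwd g δ τ Ka M0 k).σ = σ0 := fun k => hσ0.symm
  obtain ⟨τ0, hτ0⟩ : ∃ τ0 : ℝ, τ0 = g.eps * τ / 64 := ⟨_, rfl⟩
  have hτ0p : 0 < τ0 := by rw [hτ0]; positivity
  have hU : 0 < g.U := by
    have := hg.U_ge
    have h1 : 0 < 1 / τ := by positivity
    linarith
  have hσG : 0 ≤ g.σ g.G := by
    have := hg.σ_end
    have h1 : 0 < 1 / τ := by positivity
    linarith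
  have hεU : g.eps * g.U ≤ W.F.L := by
    have h1 := hg.deep
    have h2 := hW.L_lo
    nlinarith
  have hL0 : 0 ≤ W.F.L := by linarith [hW.L_lo]
  obtain ⟨r, hr⟩ : ∃ r : ℕ → ℝ, ∀ i, r i = g.eps * ((i : ℝ) * (g.U / k4cI0 g τ)) := ⟨_, fun _ => rfl⟩
  have hr0 : ∀ i, 0 ≤ r i := fun i => by rw [hr]; positivity
  have hrU : ∀ i ≤ k4cI0 g τ, r i ≤ g.eps * g.U := by
    intro i hi
    rw [hr]
    refine mul_le_mul_of_nonneg_left ?_ hε.le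
    have h1 : (i : ℝ) ≤ (k4cI0 g τ : ℝ) := by exact_mod_cast hi
    have h2 : (0 : ℝ) < (k4cI0 g τ : ℝ) := by exact_mod_cast hI0
    calc (i : ℝ) * (g.U / k4cI0 g τ) ≤ (k4cI0 g τ : ℝ) * (g.U / k4cI0 g τ) := by gcongr
      _ = g.U := by field_simp
  have hwg : ∀ k i, (W.raw hwd g δ τ Ka M0 k).wg i = W.F.R.N k ^ (-(r i)) := fun k i => by
    rw [k4c_br_wg, hr]
    rfl
  have hN := fun k => kb_res_pos W.F.R k
  have hN1 := fun k => kb_res_one_le W.F.R k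
  have hK1 : ∀ k, (W.raw hwd g δ τ Ka M0 k).K1 = W.F.R.N k ^ (8 * τ0) := fun k => by
    show (W.F.R.N k ^ g.eps) ^ (τ / 8) = _
    rw [← Real.rpow_mul (hN k).le, hτ0]
    congr 1
    ring
  have hlo : ∀ k, (W.raw hwd g δ τ Ka M0 k).lo = W.F.R.N k ^ (-(W.f W.F.L 0) - τ0) := fun k => by
    rw [hτ0]
    rfl
  have haL : ∀ k, (W.raw hwd g δ τ Ka M0 k).aL = W.F.a W.F.L k := fun k => rfl
  have hhiW : ∀ k i, (W.raw hwd g δ τ Ka M0 k).hiW p i = W.F.R.N k ^ (8 * τ0 - p.d * r i) := fun k i => by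
    unfold K4cRaw.hiW
    rw [hK1, hwg, ← Real.rpow_mul (hN k).le, ← Real.rpow_add (hN k)]
    congr 1
    ring
  have hhiV : ∀ k i, (W.raw hwd g δ τ Ka M0 k).hiV p i = W.F.R.N k ^ (7 * τ0 - p.S * r i - W.f W.F.L 0) := fun k i => by
    unfold K4cRaw.hiV
    rw [hK1, hwg, hlo, ← Real.rpow_mul (hN k).le, ← Real.rpow_add (hN k), ← Real.rpow_add (hN k)]
    congr 1
    ring
  have hLmem : W.F.L ∈ Set.Icc 0 W.F.L := ⟨hL0, le_rfl⟩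
  -- part 1
  have P1 : ∀ i ∈ Finset.range (k4cI0 g τ + 1), ∀ᶠ k in uf,
      (W.F.P k).mass ((W.F.P k).above ((W.F.P k).hid ((W.raw hwd g δ τ Ka M0 k).wg i)) ((W.raw hwd g δ τ Ka M0 k).hiW p i)) ≤ ENNReal.ofReal σ0 * (W.F.P k).mass (W.Pth k) := by
    intro i hi
    have hi' : i ≤ k4cI0 g τ := Nat.lt_succ_iff.1 (Finset.mem_range.1 hi)
    have hmem : r i ∈ Set.Icc 0 W.F.L := ⟨hr0 i, (hrU i hi').trans hεU⟩
    have h1 := k4c_br_up W p η δ g hW (W.F.hid (r i)) (W.f (r i) 0) τ0 hτ0p (hcap.hom.pure (r i) hmem).1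
      (fun k => (W.raw hwd g δ τ Ka M0 k).hiW p i) (fun k => by
        rw [hhiW]
        refine Real.rpow_le_rpow_of_exponent_le (hN1 k) ?_
        have h2 := (abs_le.1 (hW.prof (r i) hmem)).1
        have h3 := hg.ζ_le
        rw [← hτ0] at h3
        linarith) σ0 hσp
    filter_upwards [h1] with k hk
    have e : (W.F.P k).hid ((W.raw hwd g δ τ Ka M0 k).wg i) = W.F.hid (r i) k := by
      rw [hwg]
      rfl
    rw [e]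
    exact hk
  -- part 2
  have P2 : ∀ᶠ k in uf, (W.F.P k).mass ((W.F.P k).below ((W.F.P k).hid (W.raw hwd g δ τ Ka M0 k).aL) (W.raw hwd g δ τ Ka M0 k).lo) ≤ ENNReal.ofReal σ0 * (W.F.P k).mass (W.Pth k) := by
    filter_upwards [k4c_br_small W p η δ g hW _ ((hcap.hom.pure W.F.L hLmem).2 τ0 hτ0p) σ0 hσp] with k hk
    rw [hlo, haL]
    exact hk
  -- part 3
  have P3 : ∀ i ∈ Finset.range (k4cI0 g τ + 1), ∀ᶠ k in uf,
      (W.F.P k).mass ((W.F.P k).above ((W.F.P k).lpair ((W.F.P k).hid (W.raw hwd g δ τ Ka M0 k).aL) ((W.raw hwd g δ τ Ka M0 k).vb p i)) ((W.raw hwd g δ τ Ka M0 k).hiV p i))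
        ≤ ENNReal.ofReal σ0 * (W.F.P k).mass (W.Pth k) := by
    intro i hi
    have hi' : i ≤ k4cI0 g τ := Nat.lt_succ_iff.1 (Finset.mem_range.1 hi)
    rcases Nat.eq_zero_or_pos i with rfl | hipos
    · have hr00 : r 0 = 0 := by rw [hr]; simp
      have h1 := k4c_br_up W p η δ g hW (W.F.hid W.F.L) (W.f W.F.L 0) τ0 hτ0p (hcap.hom.pure W.F.L hLmem).1
        (fun k => (W.raw hwd g δ τ Ka M0 k).hiV p 0) (fun k => by
          rw [hhiV, hr00]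
          refine Real.rpow_le_rpow_of_exponent_le (hN1 k) ?_
          linarith) σ0 hσp
      filter_upwards [h1, hM] with k hk hk2
      refine le_trans (k2a_mass_mono_ae fun γ => ?_) hk
      filter_upwards [k2a_lpair_le hk2.1 ((W.F.P k).hid (W.raw hwd g δ τ Ka M0 k).aL) ((W.raw hwd g δ τ Ka M0 k).vb p 0) γ] with x hx hx2
      exact lt_of_lt_of_le hx2 hx
    · have hrp : 0 < r i := by
        rw [hr]
        have : (0 : ℝ) < i := by exact_mod_cast hipos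
        positivity
      have h1 := k4c_br_up W p η δ g hW _ (W.f W.F.L 0 + p.S * r i) τ0 hτ0p (hW.ang (r i) hrp ((hrU i hi').trans (by nlinarith)))
        (fun k => (W.raw hwd g δ τ Ka M0 k).hiV p i) (fun k => by
          rw [hhiV]
          refine Real.rpow_le_rpow_of_exponent_le (hN1 k) ?_
          linarith) σ0 hσp
      filter_upwards [h1] with k hk
      have e : (W.raw hwd g δ τ Ka M0 k).vb p i = kpVb (W.F.P k) p (W.fr k) (W.F.a (r i) k) := by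
        have e0 : (W.raw hwd g δ τ Ka M0 k).vb p i = kpVb (W.F.P k) p (W.fr k) ((W.raw hwd g δ τ Ka M0 k).wg i) := rfl
        rw [e0, hwg]
        rfl
      rw [e, haL]
      exact hk
  filter_upwards [(Filter.eventually_all_finset _).2 P1, P2, (Filter.eventually_all_finset _).2 P3] with k h1 h2 h3
  rw [hσe]
  exact ⟨fun i hi => h1 i (Finset.mem_range.2 (Nat.lt_succ_iff.2 hi)), h2, fun i hi => h3 i (Finset.mem_range.2 (Nat.lt_succ_iff.2 hi))⟩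

/-! ## BR-5 : the numerical requirements (~350 l.; each line: a fixed power of `N₀` beats a subpower factor / a constant; `k4b_diag_ev`, `k4b_log_tendsto`, `kb_rpow_tendsto`, `g.Fit`) -/

/-- powers of `x ≥ 1` -/
theorem k4c_br_pw {x : ℝ} (hx : 1 ≤ x) {a b : ℕ} (h : a ≤ b) : x ^ a ≤ x ^ b := pow_le_pow_right₀ hx h

/-- the polynomial inequalities of `Num` in the variable `x = N^{τ/64}` -/
theorem k4c_br_poly {x K y σ : ℝ} (hx : 32 ≤ x) (hσ : 0 < σ) (hxσ : 1 / σ ≤ x) (hK1 : 1 ≤ K) (hK : K ≤ x) (hy1 : 1 ≤ y) (hy : y ≤ x ^ 4) :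
    4 * K ^ 2 ≤ x ^ 64 ∧ K * x ^ 8 ≤ x ^ 64 ∧ 3 * (2 * K * y + 3) * x ^ 8 * K ≤ x ^ 64 ∧ (2 * y + 3) ^ 2 * x ^ 8 ≤ (x ^ 32)⁻¹ * x ^ 64 ∧
      K * (x ^ 32)⁻¹ ≤ σ ∧ 2 ≤ (x ^ 32)⁻¹ * x ^ 64 ∧ 1 < x ^ 64 ∧ 32 * K ^ 2 ≤ x ^ 3 := by
  have hx1 : 1 ≤ x := by linarith
  have hx0 : 0 < x := by linarith
  have hK0 : 0 ≤ K := by linarith
  have e32 : (x ^ 32)⁻¹ * x ^ 64 = x ^ 32 := by
    have : x ^ 64 = x ^ 32 * x ^ 32 := by ring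
    rw [this, ← mul_assoc, inv_mul_cancel₀ (by positivity), one_mul]
  have hK2 : K ^ 2 ≤ x ^ 2 := pow_le_pow_left₀ hK0 hK 2
  have h3 : 32 * K ^ 2 ≤ x ^ 3 := by
    calc 32 * K ^ 2 ≤ x * x ^ 2 := mul_le_mul hx hK2 (by positivity) hx0.le
      _ = x ^ 3 := by ring
  have hx5 : (1 : ℝ) ≤ x ^ 5 := one_le_pow₀ hx1
  have hx4 : (1 : ℝ) ≤ x ^ 4 := one_le_pow₀ hx1
  refine ⟨?_, ?_, ?_, ?_, ?_, ?_, ?_, h3⟩
  · calc 4 * K ^ 2 ≤ 32 * K ^ 2 := by nlinarith [sq_nonneg K]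
      _ ≤ x ^ 3 := h3
      _ ≤ x ^ 64 := k4c_br_pw hx1 (by norm_num)
  · calc K * x ^ 8 ≤ x * x ^ 8 := mul_le_mul_of_nonneg_right hK (by positivity)
      _ = x ^ 9 := by ring
      _ ≤ x ^ 64 := k4c_br_pw hx1 (by norm_num)
  · have a1 : 2 * K * y + 3 ≤ 5 * x ^ 5 := by
      have : K * y ≤ x * x ^ 4 := mul_le_mul hK hy (by linarith) hx0.le
      have e : x * x ^ 4 = x ^ 5 := by ring
      nlinarith
    calc 3 * (2 * K * y + 3) * x ^ 8 * K ≤ 3 * (5 * x ^ 5) * x ^ 8 * x := by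
          have b1 : 0 ≤ 2 * K * y + 3 := by positivity
          gcongr
      _ = 15 * x ^ 14 := by ring
      _ ≤ x * x ^ 14 := mul_le_mul_of_nonneg_right (by linarith) (by positivity)
      _ = x ^ 15 := by ring
      _ ≤ x ^ 64 := k4c_br_pw hx1 (by norm_num)
  · rw [e32]
    have a1 : 2 * y + 3 ≤ 5 * x ^ 4 := by linarith
    calc (2 * y + 3) ^ 2 * x ^ 8 ≤ (5 * x ^ 4) ^ 2 * x ^ 8 := by
          have b1 : 0 ≤ 2 * y + 3 := by positivity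
          gcongr
      _ = 25 * x ^ 16 := by ring
      _ ≤ x * x ^ 16 := mul_le_mul_of_nonneg_right (by linarith) (by positivity)
      _ = x ^ 17 := by ring
      _ ≤ x ^ 32 := k4c_br_pw hx1 (by norm_num)
  · have a1 : K * (x ^ 32)⁻¹ ≤ x⁻¹ := by
      rw [← div_eq_mul_inv, div_le_iff₀ (by positivity)]
      have e : x⁻¹ * x ^ 32 = x ^ 31 := by
        have : x ^ 32 = x * x ^ 31 := by ring
        rw [this, ← mul_assoc, inv_mul_cancel₀ hx0.ne', one_mul]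
      rw [e]
      calc K ≤ x := hK
        _ = x ^ 1 := (pow_one x).symm
        _ ≤ x ^ 31 := k4c_br_pw hx1 (by norm_num)
    refine a1.trans ?_
    rw [inv_le_comm₀ hx0 hσ, ← one_div]
    exact hxσ
  · rw [e32]
    calc (2 : ℝ) ≤ x := by linarith
      _ = x ^ 1 := (pow_one x).symm
      _ ≤ x ^ 32 := k4c_br_pw hx1 (by norm_num)
  · calc (1 : ℝ) < x := by linarith
      _ = x ^ 1 := (pow_one x).symm
      _ ≤ x ^ 64 := k4c_br_pw hx1 (by norm_num)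

/-- the tangent depths of the nodes -/
theorem k4c_br_dep (hτ : 0 < τ) (hg : g.Fit p η τ) (hW : W.Ok p η g δ) (m : ℕ) (hm : m ≤ W.G) : |W.ρ m / g.eps - g.σ m| ≤ τ / 64 := by
  have he := hg.eps_pos
  have h1 := (hW.ρ_near m hm).trans hg.ζ_le
  have e : W.ρ m / g.eps - g.σ m = (W.ρ m - g.eps * g.σ m) / g.eps := by
    field_simp
  rw [e, abs_div, abs_of_pos he, div_le_iff₀ he]
  linarith

/-- a stage record over `W`, only to quote `k4b_diag_ev` -/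
def k4cBrPre (W : KpWin v) (g : KpStg) (Ka : ℕ → ℝ) : K4bPre v where
  F := W.F
  eps := g.eps
  G := W.G
  dep := fun _ => 0
  Q := W.Q
  up := W.up
  pal := fun _ _ => 0
  ref := fun _ _ => 0
  Kp := fun k => 4 * Ka k ^ 2
  n := g.n
  th := 0
  thc := 0
  Mp := 0
  Mg := 0

theorem k4cBrPre_eqns_cite : True := by have := @k4cBrPre.eq_1; trivial

theorem k4c_br_subp_Kp (R : KbRes) {Ka : ℕ → ℝ} (hKa : KbSubP R Ka) : KbSubP R fun k => 4 * Ka k ^ 2 := by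
  have h := kb_subp_mul R (kb_subp_const R (C := 4) (by norm_num)) (kb_subp_mul R hKa hKa)
  have e : (fun k => 4 * Ka k ^ 2) = fun k => 4 * (Ka k * Ka k) := by
    funext k
    ring
  rw [e]
  exact h

theorem k4c_br_num (hp : p.Ok) (hτ : 0 < τ) (hτ1 : τ ≤ 1) (hg : g.Fit p η τ) (hδ : 0 < δ) (hδζ : δ ≤ g.ζ) (hW : W.Ok p η g δ) (Ka : ℕ → ℝ) (M0 : ℝ) (hKa : KbSubP W.F.R Ka)
    (hM0 : 1 ≤ M0) (h2 : ∀ᶠ k in uf, 2 ≤ Ka k ∧ 8 * Ka k ^ 2 ≤ W.F.R.N k ^ M0) : ∀ᶠ k in uf, (W.raw hwd g δ τ Ka M0 k).Num τ := by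
  have he := hg.eps_pos
  obtain ⟨hI0, ht2, ht2'⟩ := k4c_br_I0 p η τ g hτ hg
  have hI0' : (0 : ℝ) < (k4cI0 g τ : ℝ) := by exact_mod_cast hI0
  have hκ : 0 < g.eps * τ / 64 := by positivity
  obtain ⟨σ, hσd⟩ : ∃ σ : ℝ, σ = 1 / (8 * (2 * (k4cI0 g τ : ℝ) + W.G + 5)) := ⟨_, rfl⟩
  have hden : (0 : ℝ) < 2 * (k4cI0 g τ : ℝ) + W.G + 5 := by positivity
  have hσ : 0 < σ := by rw [hσd]; positivity
  have hUτ : 1 / τ ≤ g.U := by linarith [hg.U_ge]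
  have hτi : 0 < 1 / τ := by positivity
  have hσG : 0 < g.σ g.G := by linarith [hg.σ_end]
  have hG : W.G = g.G := hW.G_eq
  have dp := k4c_br_dep W p η τ δ g hτ hg hW
  have hετ : g.eps * τ ≤ τ := by nlinarith [hg.eps_le]
  have hετ1 : g.eps * τ ≤ 1 := hετ.trans hτ1
  have c_zero : 0 < W.ρ 0 / g.eps ∧ W.ρ 0 / g.eps ≤ τ := by
    have h3 := abs_le.1 (dp 0 (Nat.zero_le _))
    have h4 := hg.σ_zero
    constructor <;> linarith [h3.1, h3.2, h4.1, h4.2]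
  have c_step : ∀ m < W.G, W.ρ m / g.eps < W.ρ (m + 1) / g.eps ∧ W.ρ (m + 1) / g.eps ≤ W.ρ m / g.eps + τ := by
    intro m hm'
    have h3 := abs_le.1 (dp m hm'.le)
    have h4 := abs_le.1 (dp (m + 1) hm')
    have h5 := hg.σ_step m (hG ▸ hm')
    constructor <;> linarith [h3.1, h3.2, h4.1, h4.2, h5.1, h5.2]
  have c_end : 1 / τ ≤ W.ρ W.G / g.eps := by
    have h3 := abs_le.1 (dp W.G le_rfl)
    have h4 := hg.σ_end
    rw [← hG] at h4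
    linarith [h3.1]
  have c_win : g.eps * (W.ρ W.G / g.eps) ≤ τ := by
    rw [mul_div_cancel₀ _ he.ne']
    have h3 := abs_le.1 (hW.ρ_near W.G le_rfl)
    have h4 := hg.deep
    have h5 := hg.ζ_le
    rw [← hG] at h4
    have h7 : 0 ≤ g.eps * (g.U + 4) := by
      have : 0 ≤ g.U + 4 := by linarith
      positivity
    have h8 : g.eps * (g.σ W.G + g.U + 4) = g.eps * g.σ W.G + g.eps * (g.U + 4) := by ring
    linarith [h3.2]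
  have c_th : 2 * g.ζ ≤ τ * g.eps := by
    have := hg.ζ_le
    have h0 : 0 ≤ g.eps * τ := by positivity
    linarith
  have c_thc : δ ≤ τ * g.eps := by
    have := hg.ζ_le
    have h0 : 0 ≤ g.eps * τ := by positivity
    linarith
  have c_mesh : g.eps * τ / 64 * 3 + -W.F.L ≤ g.eps * (-1 / τ) := by
    have h4 := hg.deep
    have h5 := hW.L_lo
    have h6 : g.eps * (1 / τ) ≤ g.eps * g.U := mul_le_mul_of_nonneg_left hUτ he.le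
    have h7 : g.eps * (-1 / τ) = -(g.eps * (1 / τ)) := by ring
    have h9 : 0 ≤ g.eps * (g.σ g.G + 4) := by positivity
    have h10 : g.eps * (g.σ g.G + g.U + 4) = g.eps * g.U + g.eps * (g.σ g.G + 4) := by ring
    rw [h7]
    linarith
  have c_x : g.eps * τ / 64 ≤ g.eps := by nlinarith
  filter_upwards [hKa (g.eps * τ / 64) hκ, h2, (kb_rpow_tendsto W.F.R hκ).eventually_ge_atTop (max 32 (1 / σ)),
    k4b_diag_ev (k4cBrPre W g Ka) (k4c_br_subp_Kp W.F.R hKa) he τ hτ,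
    (k4b_log_tendsto W.F.R).eventually_ge_atTop (max 1 (64 / (τ * g.eps)))] with k a1 a2 a3 a4 a5
  obtain ⟨N0, hN0d⟩ : ∃ N0 : ℝ, N0 = W.F.R.N k := ⟨_, rfl⟩
  rw [← hN0d] at a1 a2 a3 a5
  have hN0 : 0 < N0 := by rw [hN0d]; exact kb_res_pos W.F.R k
  have hN01 : 1 ≤ N0 := by rw [hN0d]; exact kb_res_one_le W.F.R k
  obtain ⟨x, hxd⟩ : ∃ x : ℝ, x = N0 ^ (g.eps * τ / 64) := ⟨_, rfl⟩
  rw [← hxd] at a1 a3
  have hx32 : 32 ≤ x := (le_max_left _ _).trans a3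
  have hxσ : 1 / σ ≤ x := (le_max_right _ _).trans a3
  have hx1 : 1 ≤ x := by linarith only [hx32]
  have hx0 : 0 < x := by linarith only [hx32]
  -- powers of the tangent resolution
  have hNn1 : 1 ≤ N0 ^ g.eps := Real.one_le_rpow hN01 he.le
  have hNn0 : 0 < N0 ^ g.eps := by linarith only [hNn1]
  have pw : ∀ (n : ℕ) (t : ℝ), t = τ / 64 * n → (N0 ^ g.eps) ^ t = x ^ n := by
    intro n t ht
    rw [hxd, ← Real.rpow_natCast, ← Real.rpow_mul hN0.le, ← Real.rpow_mul hN0.le, ht]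
    congr 1
    ring
  have p64 : (N0 ^ g.eps) ^ τ = x ^ 64 := pw 64 τ (by push_cast; ring)
  have p8 : (N0 ^ g.eps) ^ (τ / 8) = x ^ 8 := pw 8 _ (by push_cast; ring)
  have p32 : (N0 ^ g.eps) ^ (-(τ / 2)) = (x ^ 32)⁻¹ := by
    rw [Real.rpow_neg hNn0.le, pw 32 _ (by push_cast; ring)]
  have p4 : (N0 ^ g.eps) ^ (g.U / k4cI0 g τ) ≤ x ^ 4 := by
    rw [← pw 4 (τ / 16) (by push_cast; ring)]
    exact Real.rpow_le_rpow_of_exponent_le hNn1 ht2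
  have py1 : 1 ≤ (N0 ^ g.eps) ^ (g.U / k4cI0 g τ) := Real.one_le_rpow hNn1 ht2'.le
  obtain ⟨q1, q2, q3, q4, q5, q6, q7, q8⟩ := k4c_br_poly hx32 hσ hxσ a1.1 a1.2 py1 p4
  have hlog1 : 1 ≤ Real.log N0 := (le_max_left _ _).trans a5
  have hlog2 : 64 / (τ * g.eps) ≤ Real.log N0 := (le_max_right _ _).trans a5
  refine
    { tau_pos := hτ
      N0_two := W.F.R.two_le k
      N_two := ?_
      eps_pos := he
      eps_le := hg.eps_le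
      Lr_lo := hW.L_lo
      Lr_hi := hW.L_hi
      dep_zero := c_zero
      dep_step := c_step
      dep_end := c_end
      win := c_win
      t2_pos := ht2'
      I0_ge := ?_
      K0_two := a2.1
      Kc_one := a1.1
      K1_one := ?_
      Kf_one := a1.1
      lo_pos := Real.rpow_pos_of_pos (kb_res_pos W.F.R k) _
      Kp_ge := ?_
      Kp_ge' := ?_
      Kp_le := ?_
      K1_le := ?_
      cap_le := ?_
      pal_le := ?_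
      θ_pos := Real.rpow_pos_of_pos (Real.rpow_pos_of_pos (kb_res_pos W.F.R k) _) _
      θ_le := ?_
      θ_ge := ?_
      Mt_one := ?_
      Mt_le := le_rfl
      σ_pos := ?_
      σ_le := ?_
      ι_le := ?_
      th_pos := ?_
      th_le := c_th
      thc_pos := hδ
      thc_le := c_thc
      stage := hg.stage
      slack := a4.1
      nodes := a4.2.1
      small := a4.2.2
      log_one := ?_
      mesh := ?_
      M0_one := hM0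
      Mp_ge := le_rfl
      Mg_ge := le_rfl
      Kc_le := ?_ }
  · show 2 ≤ W.F.R.N k ^ g.eps
    rw [← hN0d]
    have h3 : x ≤ N0 ^ g.eps := by
      rw [hxd]
      exact Real.rpow_le_rpow_of_exponent_le hN01 c_x
    linarith only [h3, hx32]
  · show 1 / τ ≤ (k4cI0 g τ : ℝ) * (g.U / k4cI0 g τ)
    rw [mul_div_cancel₀ _ hI0'.ne']
    exact hUτ
  · show 1 ≤ (W.F.R.N k ^ g.eps) ^ (τ / 8)
    rw [← hN0d]
    exact Real.one_le_rpow hNn1 (by positivity)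
  · show 4 * Ka k * Ka k ≤ 4 * Ka k ^ 2
    exact le_of_eq (by ring)
  · show Ka k ≤ 4 * Ka k ^ 2
    have h3 := a1.1
    nlinarith only [h3]
  · show 4 * Ka k ^ 2 ≤ (W.F.R.N k ^ g.eps) ^ τ
    rw [← hN0d, p64]
    exact q1
  · show Ka k * (W.F.R.N k ^ g.eps) ^ (τ / 8) ≤ (W.F.R.N k ^ g.eps) ^ τ
    rw [← hN0d, p64, p8]
    exact q2
  · show 3 * (2 * Ka k * (W.F.R.N k ^ g.eps) ^ (g.U / k4cI0 g τ) + 3) * (W.F.R.N k ^ g.eps) ^ (τ / 8) * Ka k ≤ (W.F.R.N k ^ g.eps) ^ τ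
    rw [← hN0d, p64, p8]
    exact q3
  · show (2 * (W.F.R.N k ^ g.eps) ^ (g.U / k4cI0 g τ) + 3) ^ 2 * (W.F.R.N k ^ g.eps) ^ (τ / 8) ≤ (W.F.R.N k ^ g.eps) ^ (-(τ / 2)) * (W.F.R.N k ^ g.eps) ^ τ
    rw [← hN0d, p64, p8, p32]
    exact q4
  · show Ka k * (W.F.R.N k ^ g.eps) ^ (-(τ / 2)) ≤ 1 / (8 * (2 * (k4cI0 g τ : ℝ) + W.G + 5))
    rw [← hN0d, p32, ← hσd]
    exact q5
  · show 2 ≤ (W.F.R.N k ^ g.eps) ^ (-(τ / 2)) * (W.F.R.N k ^ g.eps) ^ τ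
    rw [← hN0d, p64, p32]
    exact q6
  · show 1 < (W.F.R.N k ^ g.eps) ^ τ
    rw [← hN0d, p64]
    exact q7
  · show 0 < 1 / (8 * (2 * (k4cI0 g τ : ℝ) + W.G + 5))
    positivity
  · show (2 * (k4cI0 g τ : ℝ) + W.G + 5) * (1 / (8 * (2 * (k4cI0 g τ : ℝ) + W.G + 5))) ≤ 1 / 8
    refine le_of_eq ?_
    field_simp
  · show 2 * (g.ι * (g.eps * Real.log (W.F.R.N k)) + Real.log 2 + 1) ≤ Real.log ((W.F.R.N k ^ g.eps) ^ τ) / 8
    rw [← hN0d, Real.log_rpow hNn0, Real.log_rpow hN0]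
    have h3 : Real.log 2 ≤ 1 := by
      have := Real.log_two_lt_d9
      linarith only [this]
    have h4 : 64 ≤ Real.log N0 * (τ * g.eps) := by
      rwa [div_le_iff₀ (by positivity)] at hlog2
    have h5 : g.ι * (g.eps * Real.log N0) ≤ τ / 64 * (g.eps * Real.log N0) :=
      mul_le_mul_of_nonneg_right hg.ι_le (by positivity)
    linarith only [h3, h4, h5]
  · show 0 < 2 * g.ζ
    have := hg.ζ_pos
    linarith only [this]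
  · show 1 ≤ Real.log (W.F.R.N k)
    rw [← hN0d]
    exact hlog1
  · show 8 * (4 * Ka k ^ 2) * W.F.R.N k ^ (-W.F.L) ≤ (W.F.R.N k ^ g.eps) ^ (-1 / τ)
    rw [← hN0d, ← Real.rpow_mul hN0.le]
    have h3 : x ^ 3 = N0 ^ (g.eps * τ / 64 * 3) := by
      rw [hxd, ← Real.rpow_natCast, ← Real.rpow_mul hN0.le]
      norm_num
    calc 8 * (4 * Ka k ^ 2) * N0 ^ (-W.F.L) = (32 * Ka k ^ 2) * N0 ^ (-W.F.L) := by ring
      _ ≤ N0 ^ (g.eps * τ / 64 * 3) * N0 ^ (-W.F.L) := mul_le_mul_of_nonneg_right (q8.trans h3.le) (Real.rpow_nonneg hN0.le _)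
      _ = N0 ^ (g.eps * τ / 64 * 3 + -W.F.L) := (Real.rpow_add hN0 _ _).symm
      _ ≤ N0 ^ (g.eps * (-1 / τ)) := by
          exact Real.rpow_le_rpow_of_exponent_le hN01 c_mesh
  · show 8 * Ka k ^ 2 ≤ W.F.R.N k ^ M0
    rw [← hN0d]
    exact a2.2

/-! ## BR-6 : assembly of `K4cRaw.Ok` (~150 l., from BR-1..4 and the fields `nest`, `dense`, `pth`, `rng`, `info` of `W.Ok`) -/

theorem k4c_bridge_ok (hp : p.Ok) (h1 : v = KbVer.one → p.ell = 0) (hτ : 0 < τ) (hτ1 : τ ≤ 1) (hg : g.Fit p η τ) (hδ : 0 < δ) (hδζ : δ ≤ g.ζ) (hW : W.Ok p η g δ)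
    (hS : ∀ᶠ k in uf, ∀ m < W.G, ∀ c, (W.Q k (m + 1)).S c ⊆ (W.Q k m).S (W.up k m c)) :
    ∃ (Ka : ℕ → ℝ) (M0 : ℝ), KbSubP W.F.R Ka ∧ ∀ᶠ k in uf, (W.raw hwd g δ τ Ka M0 k).Ok p ∧ (W.raw hwd g δ τ Ka M0 k).Num τ := by
  obtain ⟨Ka, M0, hKa, hM0, hact⟩ := k4c_br_actual W hwd p η τ δ g hp hτ hτ1 hg hδ hδζ hW hS
  refine ⟨Ka, M0, hKa, ?_⟩
  have hnum := k4c_br_num W hwd p η τ δ g hp hτ hτ1 hg hδ hδζ hW Ka M0 hKa hM0 (hact.mono fun k hk => ⟨hk.1, hk.2.1⟩)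
  filter_upwards [hact, k4c_br_scales W hwd p η τ δ g hp h1 hτ hτ1 hg hδ hδζ hW Ka M0, k4c_br_exc W hwd p η τ δ g hp hτ hτ1 hg hδ hδζ hW Ka M0, hnum,
    hW.nest, hS, hW.dense.1, hW.pth, hW.rng, hW.info] with k a1 a2 a3 a4 a5 a6 a7 a8 a9 a10
  obtain ⟨-, -, b1, b2, b3, b4, b5, b6⟩ := a1
  obtain ⟨f1, f2⟩ := k4c_br_wg_fine W hwd p η τ δ g hτ hg Ka M0 k
  have e : (W.raw hwd g δ τ Ka M0 k).vbc p = fun γ x i => kpClamp (W.Mb k) (W.vb p g k γ x i) := by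
    show (fun γ x j => kpClamp (W.Mb k) ((W.raw hwd g δ τ Ka M0 k).vb p (k4cI0 g τ) γ x j)) = _
    rw [f2]
    rfl
  refine ⟨?_, a4⟩
  exact
  { wf := b1
    ntv := b2
    tmp := b3
    inv := fun γ => (b4 γ).1
    O_le := fun γ => (b4 γ).2.1
    Oi_le := fun γ => (b4 γ).2.2.1
    det_le := fun γ => (b4 γ).2.2.2.1
    det_ge := fun γ => (b4 γ).2.2.2.2
    sys_wf := fun m hm => (b5 m hm).1
    geo := fun m hm => (b5 m hm).2.1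
    known := fun m hm => (b5 m hm).2.2.1
    sys_tmp := fun m hm => (b5 m hm).2.2.2.1
    q_lo := fun m hm => (a2 m hm).1
    q_hi := fun m hm => (a2 m hm).2.1
    J_lo := fun m hm c => ((a2 m hm).2.2.2 c).1
    J_hi := fun m hm c => ((a2 m hm).2.2.2 c).2.1
    nu_lo := fun m hm c => ((a2 m hm).2.2.2 c).2.2.1
    nu_hi := fun m hm c => ((a2 m hm).2.2.2 c).2.2.2
    cheap := fun m hm => (a2 m hm).2.2.1
    nest := fun m hm c => ⟨(a5 m hm c).2.1, (a5 m hm c).2.2, a6 m hm c⟩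
    pth_meas := a7
    pth_sub := a8
    pth_mass := b6
    ex_w := a3.1
    ex_lo := a3.2.1
    ex_v := a3.2.2
    ex_gd := fun m hm => by
      rw [Finset.sum_eq_zero fun c _ => if_pos ((b5 m hm).2.2.2.2 c)]
      exact zero_le
    rng := fun γ x hx j => by
      have h := a9 γ x hx j
      rw [← f2] at h
      exact h
    info := by
      show k4Info (kpWt (W.F.P k) (W.Pth k)) (kpJt (W.F.P k) (W.Pth k) (W.Q k W.G) ((W.raw hwd g δ τ Ka M0 k).vbc p)) ≤ _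
      rw [e]
      exact a10 }

end

/-! ## BR-7 : the guard (~250 l.) -/

/-- **the guard passes from `F` to the prepared problem** (one scale).   PROOF.  `Y' : KbSys (R.sam p).P`, `(R.sam p).Atl Y' r`;  `Y := Y'.k4cBack`;  `k4c_par_ok`;  `k4c_back_WF`, `k4c_back_Geo` (slack `4 Kc Ks_s ≤ Ks`), `k4c_back_Known`, `k4c_back_Tmp` (`Kc N₀^{Mg} ≤ N₀^{M}`),
`k4c_back_mass` + `Atl.mass` + `k4c_tot_F`: `1 ≤ 2 K0 Zw tot ≤ 2 K0 log N₀ * (Zw * Y'.mass)`.   `Y.q = Y'.q`;  `k4c_back_J`: `q² / J' = |det O| q² / J ≤ Kc q² / J < Kc N₀^{ell r + th'} ≤ N₀^{ell r + th}`. -/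
theorem k4c_guard_back (R : K4cRaw v) (p : KpPrm) {τ : ℝ} (hR : R.Ok p) (hN : R.Num τ) (Ks M th' : ℝ) (hKs : 4 * R.Kc * (R.u.Kp * Real.log R.u.N0) ^ R.u.n ≤ Ks)
    (hKs' : 2 * R.K0 * Real.log R.u.N0 ≤ Ks) (hM : R.Kc * R.u.N0 ^ R.u.Mg ≤ R.u.N0 ^ M) (hth : R.Kc * R.u.N0 ^ th' ≤ R.u.N0 ^ R.u.th) (hth' : th' ≤ R.u.th)
    (hF : ∀ (Y : KbSys R.F) (r : ℝ), 0 ≤ r → r ≤ R.u.Lr / 2 → Y.WF → Y.Geo Ks (R.u.N0 ^ (-r)) → Y.Known (R.F.hid (R.u.N0 ^ (-R.u.Lr))) Ks → Y.Tmp (R.u.N0 ^ M) →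
      1 ≤ ENNReal.ofReal Ks * Y.mass →
        Y.q < R.u.N0 ^ (-(p.k * r - th')) ∧ (v = KbVer.two → R.u.N0 ^ (-(p.k * r + R.u.thc)) ≤ Y.q → ∃ c, Y.q ^ 2 / (Y.ch c).J < R.u.N0 ^ (p.ell * r + th'))) :
    (R.sam p).Guard p := by
  intro Y' r hr hr2 hA
  have hπ := k4c_par_ok R p hR hN
  have hN0 : (1 : ℝ) < R.u.N0 := by linarith [hN.N0_two]
  have hN0p : (0 : ℝ) < R.u.N0 := by linarith
  have hKc := hN.Kc_one
  have hKp : 1 ≤ R.u.Kp := by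
    have h1 := hN.Kp_ge
    have h2 := hN.K0_two
    nlinarith
  have hKl : 1 ≤ R.u.Kp * Real.log R.u.N0 := by
    have := hN.log_one
    nlinarith
  have hKss : 1 ≤ (R.u.Kp * Real.log R.u.N0) ^ R.u.n := one_le_pow₀ hKl
  have hKs1 : (R.u.Kp * Real.log R.u.N0) ^ R.u.n ≤ Ks := by nlinarith
  have hMg : 0 ≤ R.u.Mg := le_trans (by positivity) hN.Mg_ge
  have hQ1 : 1 ≤ R.u.N0 ^ R.u.Mg := Real.one_le_rpow hN0.le hMg
  have hwf : Y'.k4cBack.WF := k4c_back_WF Y' hπ hA.wf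
  have hgeo : Y'.k4cBack.Geo Ks (R.u.N0 ^ (-r)) :=
    k4c_Geo_mono (fun γ => (hR.wf.B_pos γ).le) (Real.rpow_pos_of_pos hN0p _).le (k4c_back_Geo Y' hπ hKc hKss hA.wf hA.geo) hKs
  have hkn : Y'.k4cBack.Known (R.F.hid (R.u.N0 ^ (-R.u.Lr))) Ks :=
    k4c_Known_mono (k4c_back_Known Y' hπ (le_trans zero_le_one hKss) hA.known) hKs1
  have htmp : Y'.k4cBack.Tmp (R.u.N0 ^ M) := k4c_STmp_mono (k4c_back_Tmp Y' hπ hKc hQ1 hA.tmp) hM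
  have hmass : 1 ≤ ENNReal.ofReal Ks * Y'.k4cBack.mass := by
    rw [k4c_back_mass Y' hR.wf hπ hA.wf]
    calc (1 : ℝ≥0∞) ≤ ENNReal.ofReal (2 * R.K0) * ((R.par p).Zw * (R.sam p).P.tot) := k4c_tot_F R p hR hN
      _ ≤ ENNReal.ofReal (2 * R.K0) * ((R.par p).Zw * (ENNReal.ofReal (Real.log R.u.N0) * Y'.mass)) := by
          gcongr
          exact hA.mass
      _ = ENNReal.ofReal (2 * R.K0 * Real.log R.u.N0) * ((R.par p).Zw * Y'.mass) := by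
          rw [ENNReal.ofReal_mul (show (0 : ℝ) ≤ 2 * R.K0 by linarith [hN.K0_two])]
          ring
      _ ≤ ENNReal.ofReal Ks * ((R.par p).Zw * Y'.mass) := by
          gcongr
  obtain ⟨g1, g2⟩ := hF Y'.k4cBack r hr hr2 hwf hgeo hkn htmp hmass
  refine ⟨?_, ?_⟩
  · refine lt_of_lt_of_le g1 ?_
    exact Real.rpow_le_rpow_of_exponent_le hN0.le (by show -(p.k * r - th') ≤ -(p.k * r - R.u.th); linarith)
  · intro hv hq
    obtain ⟨c, hc⟩ := g2 hv hq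
    refine ⟨c, ?_⟩
    have hJ : (Y'.k4cBack.ch c).J = |((R.par p).O (Y'.wd c).1).det| * (Y'.ch c).J := k4c_back_J Y' c
    have hd1 : |((R.par p).O (Y'.wd c).1).det| ≤ R.Kc := hπ.det_le _
    have hd2 : 1 ≤ R.Kc * |((R.par p).O (Y'.wd c).1).det| := hπ.det_ge _
    have hd0 : 0 < |((R.par p).O (Y'.wd c).1).det| := by
      rcases (abs_nonneg ((R.par p).O (Y'.wd c).1).det).eq_or_lt with h | h
      · rw [← h] at hd2
        norm_num at hd2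
      · exact h
    have hq' : Y'.k4cBack.q = Y'.q := rfl
    rw [hJ, hq'] at hc
    have hJ0 : 0 ≤ (Y'.ch c).J := abs_nonneg _
    have e1 : Y'.q ^ 2 / (Y'.ch c).J = |((R.par p).O (Y'.wd c).1).det| * (Y'.q ^ 2 / (|((R.par p).O (Y'.wd c).1).det| * (Y'.ch c).J)) := by
      rw [div_mul_eq_div_div_swap, mul_div_assoc']
      field_simp
    have h0 : 0 ≤ Y'.q ^ 2 / (|((R.par p).O (Y'.wd c).1).det| * (Y'.ch c).J) := by positivity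
    calc Y'.q ^ 2 / (Y'.ch c).J = |((R.par p).O (Y'.wd c).1).det| * (Y'.q ^ 2 / (|((R.par p).O (Y'.wd c).1).det| * (Y'.ch c).J)) := e1
      _ ≤ R.Kc * (Y'.q ^ 2 / (|((R.par p).O (Y'.wd c).1).det| * (Y'.ch c).J)) := mul_le_mul_of_nonneg_right hd1 h0
      _ < R.Kc * R.u.N0 ^ (p.ell * r + th') := mul_lt_mul_of_pos_left hc (by linarith)
      _ = R.u.N0 ^ (p.ell * r) * (R.Kc * R.u.N0 ^ th') := by
          rw [Real.rpow_add hN0p]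
          ring
      _ ≤ R.u.N0 ^ (p.ell * r) * R.u.N0 ^ R.u.th := mul_le_mul_of_nonneg_left hth (Real.rpow_pos_of_pos hN0p _).le
      _ = R.u.N0 ^ (p.ell * r + R.u.th) := (Real.rpow_add hN0p _ _).symm

/-- the guard eventually: `k4b_guard_ex` for `W.F` with `z = ζ`, `th' = 3 ζ / 2`, `thc = dl = δ`, `M = Mg + M0`, `Ks k = max (4 Ka (4 Ka² log N₀)^n) (2 Ka log N₀)` (subpower: `k4b_subp_Ks`, `kb_subp_mul`, `kb_subp_max`), `Ka ≤ N₀^{ζ/2}` eventually -/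
theorem k4c_bridge_guard (W : KpWin v) (hwd : W.Str) (p : KpPrm) (η τ δ : ℝ) (g : KpStg) (hp : p.Ok) (hτ : 0 < τ) (hτ1 : τ ≤ 1) (hg : g.Fit p η τ) (hδ : 0 < δ) (hδζ : δ ≤ g.ζ)
    (hW : W.Ok p η g δ) (Ka : ℕ → ℝ) (M0 : ℝ) (hKa : KbSubP W.F.R Ka) (hok : ∀ᶠ k in uf, (W.raw hwd g δ τ Ka M0 k).Ok p ∧ (W.raw hwd g δ τ Ka M0 k).Num τ) :
    ∀ᶠ k in uf, ((W.raw hwd g δ τ Ka M0 k).sam p).Guard p := by
  obtain ⟨d', -, hcap⟩ := hW.cap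
  have hζ := hg.ζ_pos
  have h4 : KbSubP W.F.R fun k => 4 * Ka k := kb_subp_mul W.F.R (kb_subp_const W.F.R (by norm_num : (1 : ℝ) ≤ 4)) hKa
  have h42 : KbSubP W.F.R fun k => 4 * Ka k ^ 2 := by
    have := kb_subp_mul W.F.R h4 hKa
    have e : (fun k => 4 * Ka k ^ 2) = fun k => 4 * Ka k * Ka k := by
      funext k
      ring
    rw [e]
    exact this
  have hKs : KbSubP W.F.R fun k => 4 * Ka k * max ((4 * Ka k ^ 2 * Real.log (W.F.R.N k)) ^ g.n) (Real.log (W.F.R.N k)) :=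
    kb_subp_mul W.F.R h4 (k4b_subp_Ks W.F.R _ h42 g.n)
  have hgu := k4b_guard_ex W.F hcap.ok p.k p.ell g.ζ δ (3 * g.ζ / 2) δ (2 ^ ((5 * M0 + g.n) ^ 2) + M0) hp.ell_nonneg hW.ex1 hW.ex2 _ hKs (by linarith) le_rfl
  filter_upwards [hok, hgu, hKa (g.ζ / 2) (by linarith)] with k a1 a2 a3
  have hN := a1.2
  have hN0p : (0 : ℝ) < W.F.R.N k := kb_L3_pos W.F.R k
  have hlog : 1 ≤ Real.log (W.F.R.N k) := hN.log_one
  have hKa1 : 1 ≤ Ka k := a3.1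
  refine k4c_guard_back _ p a1.1 hN _ (2 ^ ((5 * M0 + g.n) ^ 2) + M0) (3 * g.ζ / 2) ?_ ?_ ?_ ?_ ?_ a2
  · show 4 * Ka k * (4 * Ka k ^ 2 * Real.log (W.F.R.N k)) ^ g.n ≤ 4 * Ka k * max ((4 * Ka k ^ 2 * Real.log (W.F.R.N k)) ^ g.n) (Real.log (W.F.R.N k))
    exact mul_le_mul_of_nonneg_left (le_max_left _ _) (by linarith)
  · show 2 * Ka k * Real.log (W.F.R.N k) ≤ 4 * Ka k * max ((4 * Ka k ^ 2 * Real.log (W.F.R.N k)) ^ g.n) (Real.log (W.F.R.N k))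
    have h1 : Real.log (W.F.R.N k) ≤ max ((4 * Ka k ^ 2 * Real.log (W.F.R.N k)) ^ g.n) (Real.log (W.F.R.N k)) := le_max_right _ _
    calc 2 * Ka k * Real.log (W.F.R.N k) ≤ 4 * Ka k * Real.log (W.F.R.N k) := by nlinarith
      _ ≤ _ := mul_le_mul_of_nonneg_left h1 (by linarith)
  · show Ka k * W.F.R.N k ^ ((2 : ℝ) ^ ((5 * M0 + g.n) ^ 2)) ≤ W.F.R.N k ^ ((2 : ℝ) ^ ((5 * M0 + g.n) ^ 2) + M0)
    have h1 : 8 * Ka k ^ 2 ≤ W.F.R.N k ^ M0 := hN.Kc_le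
    have h2 : Ka k ≤ W.F.R.N k ^ M0 := by nlinarith
    rw [Real.rpow_add hN0p, mul_comm]
    exact mul_le_mul_of_nonneg_left h2 (Real.rpow_pos_of_pos hN0p _).le
  · show Ka k * W.F.R.N k ^ (3 * g.ζ / 2) ≤ W.F.R.N k ^ (2 * g.ζ)
    have e : (2 * g.ζ) = g.ζ / 2 + 3 * g.ζ / 2 := by ring
    rw [e, Real.rpow_add hN0p]
    exact mul_le_mul_of_nonneg_right a3.2 (Real.rpow_pos_of_pos hN0p _).le
  · show 3 * g.ζ / 2 ≤ 2 * g.ζ
    linarith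

/-! ## BR-8 : the exit -/

/-- `KpHubWin` with the two structural additions -/
def K4cHubWin : Prop :=
  ∀ (v : KbVer) (S η τ : ℝ) (p : KpPrm) (g : KpStg), 0 < η → p.Ok → p.S = S → (v = KbVer.one → p.ell = 0) → KpCrit v S η p → 0 < τ → τ ≤ 1 → g.Fit p η τ →
    ∃ (δ : ℝ) (W : KpWin v), 0 < δ ∧ δ ≤ g.ζ ∧ W.Ok p η g δ ∧ W.Str ∧ ∀ᶠ k in uf, ∀ m < W.G, ∀ c, (W.Q k (m + 1)).S c ⊆ (W.Q k m).S (W.up k m c)

/-- one stage -/
theorem k4c_stage (hW : K4cHubWin) (v : KbVer) (S η : ℝ) (p : KpPrm) (hη : 0 < η) (hp : p.Ok) (hpS : p.S = S) (h1 : v = KbVer.one → p.ell = 0) (hc : KpCrit v S η p)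
    (τ : ℝ) (hτ : 0 < τ) (hτ1 : τ ≤ 1) (n : ℕ) : ∃ s : KpSam v, s.Ok p τ ∧ (n : ℝ) ≤ s.N0 ^ s.eps := by
  have := Claimed.Agent.R255.uf_neBot
  obtain ⟨g, hg⟩ := kp_stage_ex p η τ hη hτ hτ1
  obtain ⟨δ, W, hδ, hδζ, hWo, hwd, hS⟩ := hW v S η τ p g hη hp hpS h1 hc hτ hτ1 hg
  obtain ⟨Ka, M0, hKa, hok⟩ := k4c_bridge_ok W hwd p η τ δ g hp h1 hτ hτ1 hg hδ hδζ hWo hS
  have hgu := k4c_bridge_guard W hwd p η τ δ g hp hτ hτ1 hg hδ hδζ hWo Ka M0 hKa hok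
  have e3 : ∀ᶠ k in uf, (n : ℝ) ≤ W.F.R.N k ^ g.eps := (kb_rpow_tendsto W.F.R hg.eps_pos).eventually_ge_atTop _
  obtain ⟨k, hk⟩ := (hok.and (hgu.and e3)).exists
  exact ⟨(W.raw hwd g δ τ Ka M0 k).sam p, k4c_prep _ p hp hk.1.1 hk.1.2 hk.2.1, hk.2.2⟩

/-- **EXIT of S4B + S4C**: the conclusion of `KpHubSam` (with the hypothesis `v = one → ell = 0`) -/
theorem k4c_hub_sam (hW : K4cHubWin) (v : KbVer) (S η : ℝ) (p : KpPrm) (hη : 0 < η) (hp : p.Ok) (hpS : p.S = S) (h1 : v = KbVer.one → p.ell = 0) (hc : KpCrit v S η p) :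
    ∃ (R : KbRes) (s : ℕ → KpSam v), KpSamSeqOk R s p := by
  have hst : ∀ n : ℕ, ∃ s : KpSam v, s.Ok p (1 / ((n : ℝ) + 1)) ∧ (n : ℝ) ≤ s.N0 ^ s.eps := fun n =>
    k4c_stage hW v S η p hη hp hpS h1 hc _ (by positivity) (by
      rw [div_le_one (by positivity)]
      have : (0 : ℝ) ≤ n := Nat.cast_nonneg n
      linarith) n
  choose s hs hN using hst
  refine ⟨⟨fun n => (s n).N0 ^ (s n).eps, fun n => (hs n).tan.N_two, tendsto_atTop_mono hN k4b_nat_tendsto⟩, s, fun n => rfl, fun τ hτ => ?_⟩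
  filter_upwards [k4b_inv_tendsto.eventually (eventually_le_nhds hτ)] with n hn
  exact k4b_sam_mono (s n) p _ _ (by positivity) hn (hs n)

end

end Claimed.Agent.R252
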