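import Claimed.Agent.R252.State.KsState

/-!
# ROW 252 (S0492), unit S4C (post BP-252-S4C, helper294), file 1: INTEGRATED CEILINGS AND MASKS.      CONTRACT file: the `sorry`s are the leaves L-252-S4C-CEIL-*.

Paper: 04 l.533-590 (masks at every potential parent), l.690-716 (packet base cap); 02 `a01:density-operations`, `a01:angular-coarsening`, `lem:quadratic-sublevel`.      ONE scale, `ℝ≥0∞`, Mathlib + `KsState` only.
## Vocabulary
* `Ω` incidences, `μ` an unnormalised incidence law, `bs : Ω → X` the exact base, `vol` the reference measure `dt dy`, `ℓ : Ω → D` a discrete label.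
* `k4cPart`, `k4cDen`, `k4cDn` = `KbPb.part`, `KbPb.den`, `KbPb.dn` of `Base/Pb` (equal by `rfl`).
* `K4cCeil μ vol bs ℓ c` : INTEGRATED joint base-density ceiling  `μ {ℓ = d, bs ∈ U} ≤ c vol U`.   No Radon-Nikodym derivative: it passes to every restriction (`k4c_ceil_mono`), to other base coordinates (`k4c_ceil_map`),
  to coarser / other labels covered by short lists (`k4c_ceil_cover`), to intervals about an arbitrary measurable offset (`k4c_ceil_offset`), to the small-value set of a quadratic test (`k4c_ceil_test`).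
## The rules of the paper
 M1 `k4c_ceil_mask`   : removing the high-density exceptions gives the ceiling (04 l.556 "Remove the original high-density exceptions").
 M2 `k4c_ceil_offset` : `capw` of `KsRef.Ok`.      M3 `k4c_ceil_test` : `capX` and `capQ` of `KsRef.Ok` ("The native derivative and curvature bounds give the same ceiling for X-bins"; (a03:packet-base-cap)).
 M4 `k4c_ratio`       : the angular numerator against the refined terminal denominator (04 l.572-588).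
 M5 `k4c_half_loss`   : labels which lose half of their witness (04 l.836-845).
-/

set_option autoImplicit false

namespace Claimed.Agent.R252

open MeasureTheory
open scoped ENNReal BigOperators

noncomputable section

variable {Ω X : Type*} [MeasurableSpace Ω] [MeasurableSpace X]

/-! ## 1. Definitions -/

/-- the base measure of the part of `μ` with label `d` -/
def k4cPart {D : Type*} (μ : Measure Ω) (bs : Ω → X) (ℓ : Ω → D) (d : D) : Measure X := (μ.restrict (ℓ ⁻¹' {d})).map bs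

/-- density of the observation `(bs, ℓ)` -/
def k4cDen {D : Type*} (μ : Measure Ω) (vol : Measure X) (bs : Ω → X) (ℓ : Ω → D) (d : D) (o : X) : ℝ≥0∞ := (k4cPart μ bs ℓ d).rnDeriv vol o

/-- the same at the sampled incidence -/
def k4cDn {D : Type*} (μ : Measure Ω) (vol : Measure X) (bs : Ω → X) (ℓ : Ω → D) (x : Ω) : ℝ≥0∞ := k4cDen μ vol bs ℓ (ℓ x) (bs x)

/-- **integrated joint base-density ceiling** -/
def K4cCeil {D : Type*} (μ : Measure Ω) (vol : Measure X) (bs : Ω → X) (ℓ : Ω → D) (c : ℝ≥0∞) : Prop :=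
  ∀ d (U : Set X), MeasurableSet U → μ (ℓ ⁻¹' {d} ∩ bs ⁻¹' U) ≤ c * vol U

/-- the three centres of a quadratic `A w² + B w + C` : the two roots (both equal to the critical centre if the discriminant is negative), the root of the linear equation -/
def k4cCen (A B C : ℝ) : Fin 3 → ℝ :=
  ![(-B + Real.sqrt (max (B ^ 2 - 4 * A * C) 0)) / (2 * A), (-B - Real.sqrt (max (B ^ 2 - 4 * A * C) 0)) / (2 * A), -C / B]

/-! ## 2. Elementary rules (proved) -/

section basic

variable {D : Type*} {μ μ' : Measure Ω} {vol : Measure X} {bs : Ω → X} {ℓ : Ω → D} {c c' : ℝ≥0∞}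

/-- ceilings persist under all later deletions -/
theorem k4c_ceil_mono (h : K4cCeil μ vol bs ℓ c) (hμ : μ' ≤ μ) (hc : c ≤ c') : K4cCeil μ' vol bs ℓ c' := fun d U hU =>
  (hμ _).trans ((h d U hU).trans (mul_le_mul' hc le_rfl))

/-- normalisation of the law -/
theorem k4c_ceil_smul (h : K4cCeil μ vol bs ℓ c) (r : ℝ≥0∞) : K4cCeil (r • μ) vol bs ℓ (r * c) := fun d U hU => by
  rw [Measure.smul_apply, smul_eq_mul, mul_assoc]
  exact mul_le_mul' le_rfl (h d U hU)

/-- change of base coordinates: `Jac` = volume factor of `e⁻¹` -/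
theorem k4c_ceil_map {X' : Type*} [MeasurableSpace X'] {vol' : Measure X'} {e : X → X'} (he : Measurable e) {Jac : ℝ≥0∞}
    (hJ : ∀ U', MeasurableSet U' → vol (e ⁻¹' U') ≤ Jac * vol' U') (h : K4cCeil μ vol bs ℓ c) : K4cCeil μ vol' (e ∘ bs) ℓ (c * Jac) := fun d U hU => by
  rw [Set.preimage_comp, mul_assoc]
  exact (h d _ (he hU)).trans (mul_le_mul' le_rfl (hJ U hU))

/-- a function of the label is a coarser... FINER labels inherit the ceiling -/
theorem k4c_ceil_fine {D' : Type*} {ℓ' : Ω → D'} (g : D' → D) (hg : ∀ x, ℓ x = g (ℓ' x)) (h : K4cCeil μ vol bs ℓ c) : K4cCeil μ vol bs ℓ' c := fun d U hU =>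
  (measure_mono (Set.inter_subset_inter_left _ fun x hx => by
    have h1 : ℓ' x = d := hx
    show ℓ x = g d
    rw [hg, h1])).trans (h (g d) U hU)

end basic

/-! ## 3. The leaves -/

/-- **LEAF L-252-S4C-CEIL-1** (M1, ~40 l.).  Removing the incidences where the density of the observation `(bs, ℓ)` exceeds `hi` leaves a law with the integrated ceiling `hi`.
PROOF.  `T := ℓ⁻¹{d} ∩ bs⁻¹ U` is measurable, `Measure.restrict_apply`; `T ∩ {Dn ≤ hi} = ℓ⁻¹{d} ∩ bs⁻¹ W`, `W := U ∩ {o | k4cDen .. d o ≤ hi}` (measurable: `Measure.measurable_rnDeriv`);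
`μ (ℓ⁻¹{d} ∩ bs⁻¹ W) = k4cPart μ bs ℓ d W` (`Measure.map_apply`, `Measure.restrict_apply`) `= ∫⁻ o in W, den ∂vol` (`Measure.withDensity_rnDeriv_eq _ _ (hac d)`, `withDensity_apply`) `≤ hi * vol W` (`setLIntegral_mono`-type bound, `lintegral_const`). -/
theorem k4c_ceil_mask {D : Type*} (μ : Measure Ω) [IsFiniteMeasure μ] (vol : Measure X) [SigmaFinite vol] {bs : Ω → X} (hbs : Measurable bs)
    {ℓ : Ω → D} (hℓ : KsLab ℓ) (hac : ∀ d, k4cPart μ bs ℓ d ≪ vol) (hi : ℝ≥0∞) :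
    K4cCeil (μ.restrict {x | k4cDn μ vol bs ℓ x ≤ hi}) vol bs ℓ hi := by
  intro d U hU
  have hT : MeasurableSet (ℓ ⁻¹' {d} ∩ bs ⁻¹' U) := (hℓ d).inter (hbs hU)
  set W : Set X := U ∩ {o | k4cDen μ vol bs ℓ d o ≤ hi} with hW
  have hWm : MeasurableSet W := hU.inter (measurableSet_le (Measure.measurable_rnDeriv _ _) measurable_const)
  have e : ℓ ⁻¹' {d} ∩ bs ⁻¹' U ∩ {x | k4cDn μ vol bs ℓ x ≤ hi} = bs ⁻¹' W ∩ ℓ ⁻¹' {d} := by
    ext x
    constructor
    · rintro ⟨⟨h1, h2⟩, h3⟩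
      have h1' : ℓ x = d := h1
      refine ⟨⟨h2, ?_⟩, h1⟩
      change k4cDen μ vol bs ℓ d (bs x) ≤ hi
      rw [← h1']
      exact h3
    · rintro ⟨⟨h2, h3⟩, h1⟩
      have h1' : ℓ x = d := h1
      refine ⟨⟨h1, h2⟩, ?_⟩
      change k4cDen μ vol bs ℓ (ℓ x) (bs x) ≤ hi
      rw [h1']
      exact h3
  have hfin : IsFiniteMeasure (k4cPart μ bs ℓ d) := by unfold k4cPart; infer_instance
  have hpart : μ (bs ⁻¹' W ∩ ℓ ⁻¹' {d}) = k4cPart μ bs ℓ d W := by
    rw [k4cPart, Measure.map_apply hbs hWm, Measure.restrict_apply (hbs hWm)]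
  rw [Measure.restrict_apply hT, e, hpart, ← Measure.withDensity_rnDeriv_eq _ _ (hac d), withDensity_apply _ hWm]
  calc ∫⁻ o in W, (k4cPart μ bs ℓ d).rnDeriv vol o ∂vol ≤ ∫⁻ _ in W, hi ∂vol :=
        setLIntegral_mono measurable_const fun o ho => ho.2
    _ = hi * vol W := setLIntegral_const _ _
    _ ≤ hi * vol U := mul_le_mul' le_rfl (measure_mono Set.inter_subset_left)

/-- **LEAF L-252-S4C-CEIL-2** (~70 l.).  One-way upper bound: sum the good measure over the covering entries (02 l.247-252).  On `G` the label `ℓ` belongs to a list of size `≤ n` which depends only on the new label and on the exact base.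
PROOF.  The set is contained in `⋃ d, ℓ⁻¹{d} ∩ bs⁻¹ (U ∩ W d)`, `W d := {o | d ∈ L d' o}`; `measure_iUnion_le`; `h d _ _`; `ENNReal.tsum_mul_left`;
`∑' d, vol (U ∩ W d) = ∫⁻ o in U, ∑' d, indicator (W d) 1 o` (`lintegral_tsum`, `lintegral_indicator`) and `∑' d, indicator (W d) 1 o = (L d' o).card ≤ n` (`tsum_eq_sum` on `L d' o`). -/
theorem k4c_ceil_cover {D D' : Type*} [Countable D] {μ : Measure Ω} {vol : Measure X} {bs : Ω → X} {ℓ : Ω → D} {ℓ' : Ω → D'} {c : ℝ≥0∞}
    (h : K4cCeil μ vol bs ℓ c) (n : ℕ) (L : D' → X → Finset D) (hL : ∀ d' o, (L d' o).card ≤ n) (hLm : ∀ d' d, MeasurableSet {o | d ∈ L d' o})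
    (G : Set Ω) (hG : ∀ x ∈ G, ℓ x ∈ L (ℓ' x) (bs x)) (d' : D') (U : Set X) (hU : MeasurableSet U) :
    μ (G ∩ ℓ' ⁻¹' {d'} ∩ bs ⁻¹' U) ≤ n * c * vol U := by
  classical
  set W : D → Set X := fun d => {o | d ∈ L d' o} with hW
  have hsub : G ∩ ℓ' ⁻¹' {d'} ∩ bs ⁻¹' U ⊆ ⋃ d, ℓ ⁻¹' {d} ∩ bs ⁻¹' (U ∩ W d) := by
    rintro x ⟨⟨hxG, hx'⟩, hxU⟩
    have hx'' : ℓ' x = d' := hx'
    refine Set.mem_iUnion.2 ⟨ℓ x, rfl, hxU, ?_⟩
    have := hG x hxG
    rw [hx''] at this
    exact this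
  have hsum : ∑' d, vol (U ∩ W d) ≤ n * vol U := by
    have h1 : ∀ d, vol (U ∩ W d) = ∫⁻ o in U, (W d).indicator 1 o ∂vol := fun d => by
      rw [lintegral_indicator_one (hLm d' d), Measure.restrict_apply (hLm d' d), Set.inter_comm]
    simp_rw [h1]
    rw [← lintegral_tsum fun d => (measurable_one.indicator (hLm d' d)).aemeasurable]
    calc ∫⁻ o in U, ∑' d, (W d).indicator 1 o ∂vol ≤ ∫⁻ _ in U, (n : ℝ≥0∞) ∂vol := by
          refine lintegral_mono fun o => ?_
          rw [tsum_eq_sum (s := L d' o)]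
          · calc ∑ d ∈ L d' o, (W d).indicator (1 : X → ℝ≥0∞) o = ∑ d ∈ L d' o, 1 :=
                  Finset.sum_congr rfl fun d hd => Set.indicator_of_mem (s := W d) hd _
              _ = ((L d' o).card : ℝ≥0∞) := by simp
              _ ≤ n := by exact_mod_cast hL d' o
          · intro d hd
            exact Set.indicator_of_notMem (s := W d) hd _
      _ = n * vol U := setLIntegral_const _ _
  calc μ (G ∩ ℓ' ⁻¹' {d'} ∩ bs ⁻¹' U) ≤ μ (⋃ d, ℓ ⁻¹' {d} ∩ bs ⁻¹' (U ∩ W d)) := measure_mono hsub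
    _ ≤ ∑' d, μ (ℓ ⁻¹' {d} ∩ bs ⁻¹' (U ∩ W d)) := measure_iUnion_le _
    _ ≤ ∑' d, c * vol (U ∩ W d) := ENNReal.tsum_le_tsum fun d => h d _ (hU.inter (hLm d' d))
    _ = c * ∑' d, vol (U ∩ W d) := ENNReal.tsum_mul_left
    _ ≤ c * (n * vol U) := mul_le_mul' le_rfl hsum
    _ = n * c * vol U := by ring

/-- the number of bins of width `δ` which meet an interval of radius `p` -/
theorem k4c_card_Icc_le {δ p : ℝ} (_hδ : 0 < δ) {n : ℕ} (hn : 2 * p / δ + 2 ≤ n) (y : ℝ) :
    (Finset.Icc ⌊(y - p) / δ⌋ ⌊(y + p) / δ⌋).card ≤ n := by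
  rw [Int.card_Icc, Int.toNat_le]
  have h1 : (⌊(y + p) / δ⌋ : ℝ) ≤ (y + p) / δ := Int.floor_le _
  have h2 : (y - p) / δ < ⌊(y - p) / δ⌋ + 1 := Int.lt_floor_add_one _
  have h3 : (y + p) / δ - (y - p) / δ = 2 * p / δ := by ring
  have h4 : ((⌊(y + p) / δ⌋ + 1 - ⌊(y - p) / δ⌋ : ℤ) : ℝ) < ((n : ℤ) : ℝ) := by
    push_cast
    linarith
  exact le_of_lt (by exact_mod_cast h4)

/-- **LEAF L-252-S4C-CEIL-3** (M2, ~60 l.).  From bins of width `δ` to an interval of radius `p` about an ARBITRARY measurable offset.  (= `capw` of `KsRef.Ok`; also: new hidden bins of version 1 against old ones.)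
PROOF.  `k4c_ceil_cover` with `D' := Unit`, `G :=` the set, `L _ o := Finset.Icc ⌊(f o - p)/δ⌋ ⌊(f o + p)/δ⌋`; `Int.card_Icc`, `Int.floor_le`, `Int.lt_floor_add_one`: card `< 2p/δ + 2`; measurability: `Int.measurable_floor`/`Measurable.floor`, `measurableSet_le`. -/
theorem k4c_ceil_offset {μ : Measure Ω} {vol : Measure X} {bs : Ω → X} {x : Ω → ℝ} {δ : ℝ} (hδ : 0 < δ) {c : ℝ≥0∞}
    (h : K4cCeil μ vol bs (fun ω => ⌊x ω / δ⌋) c) {f : X → ℝ} (hf : Measurable f) {p : ℝ} {n : ℕ} (hn : 2 * p / δ + 2 ≤ n)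
    {U : Set X} (hU : MeasurableSet U) :
    μ {ω | bs ω ∈ U ∧ |x ω - f (bs ω)| ≤ p} ≤ n * c * vol U := by
  have key := k4c_ceil_cover (ℓ' := fun _ : Ω => ()) h n
    (fun _ o => Finset.Icc ⌊(f o - p) / δ⌋ ⌊(f o + p) / δ⌋) (fun _ o => k4c_card_Icc_le hδ hn (f o))
    (fun _ d => by
      have e : {o | d ∈ Finset.Icc ⌊(f o - p) / δ⌋ ⌊(f o + p) / δ⌋}
          = {o | ⌊(f o - p) / δ⌋ ≤ d} ∩ {o | d ≤ ⌊(f o + p) / δ⌋} := by
        ext o
        simp [Finset.mem_Icc]
      rw [e]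
      exact (measurableSet_le (by fun_prop) measurable_const).inter (measurableSet_le measurable_const (by fun_prop)))
    {ω | bs ω ∈ U ∧ |x ω - f (bs ω)| ≤ p}
    (fun ω hω => by
      have h2 := abs_le.1 hω.2
      refine Finset.mem_Icc.2 ⟨Int.floor_le_floor ?_, Int.floor_le_floor ?_⟩
      · exact div_le_div_of_nonneg_right (by linarith) hδ.le
      · exact div_le_div_of_nonneg_right (by linarith) hδ.le) () U hU
  refine (measure_mono fun ω hω => ?_).trans key
  exact ⟨⟨hω, rfl⟩, hω.1⟩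

/-- **LEAF L-252-S4C-CEIL-4** (~70 l., pure algebra) = `lem:quadratic-sublevel` + (a02:nearest-quadratic-root) + (a02:critical-center) in ONE statement with explicit centres: small value and large derivative put `w` within `2 ε / b` of one of three
explicit points.   PROOF.  `P := A w² + B w + C`, `Pw := 2 A w + B`, `𝒟 := B² - 4 A C = Pw² - 4 A P`.
`A = 0`: `w - (-C/B) = P / B`.   `A ≠ 0`, `𝒟 ≥ 0`, `s := √𝒟`: if `Pw > 0`, `w - (-B + s)/(2A) = (Pw - s)/(2A) = 2 P / (Pw + s)`; if `Pw < 0`, `w - (-B - s)/(2A) = 2 P / (Pw - s)`.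
`A ≠ 0`, `𝒟 < 0`: `max 𝒟 0 = 0`, `w - (-B)/(2A) = Pw/(2A)` and `Pw² < 4 A P ≤ 4 |A| ε`, hence `|Pw / (2A)| < 2 ε / |Pw|`. -/
theorem k4c_cen {A B C w ε b : ℝ} (hb : 0 < b) (h1 : |A * w ^ 2 + B * w + C| ≤ ε) (h2 : b ≤ |2 * A * w + B|) :
    ∃ i, |w - k4cCen A B C i| ≤ 2 * ε / b := by
  have hε : 0 ≤ ε := (abs_nonneg _).trans h1
  set P : ℝ := A * w ^ 2 + B * w + C with hP
  set Pw : ℝ := 2 * A * w + B with hPw
  have hPw0 : 0 < |Pw| := hb.trans_le h2
  have hPwne : Pw ≠ 0 := abs_pos.1 hPw0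
  have hD : B ^ 2 - 4 * A * C = Pw ^ 2 - 4 * A * P := by rw [hP, hPw]; ring
  -- a general bound `|2 P / z| ≤ 2 ε / b` for `b ≤ |z|`
  have hq : ∀ z : ℝ, b ≤ |z| → |2 * P / z| ≤ 2 * ε / b := fun z hz => by
    rw [abs_div, abs_mul, abs_two]
    exact div_le_div₀ (by positivity) (by linarith) hb hz
  by_cases hA : A = 0
  · refine ⟨2, ?_⟩
    have hB : B = Pw := by rw [hPw, hA]; ring
    have hBne : B ≠ 0 := hB ▸ hPwne
    have e : w - k4cCen A B C 2 = P / B := by
      have : k4cCen A B C 2 = -C / B := rfl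
      rw [this, hP, hA]
      field_simp
      ring
    rw [e, abs_div]
    calc |P| / |B| ≤ ε / b := div_le_div₀ hε h1 hb (hB ▸ h2)
      _ ≤ 2 * ε / b := by gcongr; linarith
  · by_cases hDs : 0 ≤ B ^ 2 - 4 * A * C
    · set s : ℝ := Real.sqrt (max (B ^ 2 - 4 * A * C) 0) with hs
      have hs0 : 0 ≤ s := Real.sqrt_nonneg _
      have hs2 : s ^ 2 = Pw ^ 2 - 4 * A * P := by
        rw [hs, max_eq_left hDs, Real.sq_sqrt hDs, hD]
      rcases lt_or_gt_of_ne hPwne with hneg | hpos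
      · refine ⟨1, ?_⟩
        have hz : Pw - s ≠ 0 := by linarith
        have e : w - k4cCen A B C 1 = 2 * P / (Pw - s) := by
          have : k4cCen A B C 1 = (-B - s) / (2 * A) := rfl
          rw [this, eq_div_iff hz]
          field_simp
          have : (w * (2 * A) - (-B - s)) = Pw + s := by rw [hPw]; ring
          nlinarith [hs2]
        rw [e]
        refine hq _ ?_
        rw [abs_of_neg (by linarith)]
        rw [abs_of_neg hneg] at h2
        linarith
      · refine ⟨0, ?_⟩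
        have hz : Pw + s ≠ 0 := by linarith
        have e : w - k4cCen A B C 0 = 2 * P / (Pw + s) := by
          have : k4cCen A B C 0 = (-B + s) / (2 * A) := rfl
          rw [this, eq_div_iff hz]
          field_simp
          nlinarith [hs2]
        rw [e]
        refine hq _ ?_
        rw [abs_of_pos (by linarith)]
        rw [abs_of_pos hpos] at h2
        linarith
    · refine ⟨0, ?_⟩
      push Not at hDs
      have e : w - k4cCen A B C 0 = Pw / (2 * A) := by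
        have : k4cCen A B C 0 = (-B + Real.sqrt (max (B ^ 2 - 4 * A * C) 0)) / (2 * A) := rfl
        rw [this, max_eq_right hDs.le, Real.sqrt_zero, hPw]
        field_simp
        ring
      have hA0 : 0 < |A| := abs_pos.2 hA
      have h3 : |Pw| ^ 2 < 4 * |A| * ε := by
        rw [sq_abs]
        have h4 : A * P ≤ |A| * ε := by
          calc A * P ≤ |A * P| := le_abs_self _
            _ = |A| * |P| := abs_mul _ _
            _ ≤ |A| * ε := by gcongr
        rw [hD] at hDs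
        linarith
      rw [e, abs_div, abs_mul, abs_two, div_le_div_iff₀ (by positivity) hb]
      nlinarith [mul_le_mul_of_nonneg_left h2 hPw0.le]

/-- **LEAF L-252-S4C-CEIL-5** (M3, ~50 l.).  The small-value set of a quadratic test (coefficients = measurable functions of the exact base) has base density `≤ 3 n c`.
Uses: `capQ` (test of the label, `ε = K a`, `b = 1/K`, `δ ∼ a`), `capX` (`C := C_* - f`, `ε = p`, `b = 1/K`, `δ ∼ p`).
PROOF.  By `k4c_cen` the set is contained in the union over `i : Fin 3` of `{bs ∈ U, |w - k4cCen (A (bs)) (B (bs)) (C (bs)) i| ≤ 2ε/b}`; `measure_iUnion_fintype_le`/`measure_union_le`; `k4c_ceil_offset` with `p := 2ε/b`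
(`2 p / δ = 4 ε / (b δ)`); the three centres are measurable functions of the base (`Measurable.sqrt`, `Measurable.div`, `Measurable.max`; `fin_cases i`). -/
theorem k4c_ceil_test {μ : Measure Ω} {vol : Measure X} {bs : Ω → X} {w : Ω → ℝ} {δ : ℝ} (hδ : 0 < δ) {c : ℝ≥0∞}
    (h : K4cCeil μ vol bs (fun ω => ⌊w ω / δ⌋) c) {A B C : X → ℝ} (hA : Measurable A) (hB : Measurable B) (hC : Measurable C)
    {ε b : ℝ} (hb : 0 < b) {n : ℕ} (hn : 4 * ε / (b * δ) + 2 ≤ n) {U : Set X} (hU : MeasurableSet U) :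
    μ {ω | bs ω ∈ U ∧ |A (bs ω) * w ω ^ 2 + B (bs ω) * w ω + C (bs ω)| ≤ ε ∧ b ≤ |2 * A (bs ω) * w ω + B (bs ω)|} ≤ 3 * n * c * vol U := by
  have hn' : 2 * (2 * ε / b) / δ + 2 ≤ n := by
    have : 2 * (2 * ε / b) / δ = 4 * ε / (b * δ) := by
      field_simp
      ring
    rw [this]
    exact hn
  have hcm : ∀ i : Fin 3, Measurable fun o => k4cCen (A o) (B o) (C o) i := by
    intro i
    fin_cases i
    · change Measurable fun o => (-B o + Real.sqrt (max (B o ^ 2 - 4 * A o * C o) 0)) / (2 * A o)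
      fun_prop
    · change Measurable fun o => (-B o - Real.sqrt (max (B o ^ 2 - 4 * A o * C o) 0)) / (2 * A o)
      fun_prop
    · change Measurable fun o => -C o / B o
      fun_prop
  have hsub : {ω | bs ω ∈ U ∧ |A (bs ω) * w ω ^ 2 + B (bs ω) * w ω + C (bs ω)| ≤ ε ∧ b ≤ |2 * A (bs ω) * w ω + B (bs ω)|}
      ⊆ ⋃ i : Fin 3, {ω | bs ω ∈ U ∧ |w ω - k4cCen (A (bs ω)) (B (bs ω)) (C (bs ω)) i| ≤ 2 * ε / b} := by
    rintro ω ⟨hU', h1, h2⟩
    obtain ⟨i, hi⟩ := k4c_cen hb h1 h2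
    exact Set.mem_iUnion.2 ⟨i, hU', hi⟩
  calc μ _ ≤ μ (⋃ i : Fin 3, {ω | bs ω ∈ U ∧ |w ω - k4cCen (A (bs ω)) (B (bs ω)) (C (bs ω)) i| ≤ 2 * ε / b}) := measure_mono hsub
    _ ≤ ∑ i : Fin 3, μ {ω | bs ω ∈ U ∧ |w ω - k4cCen (A (bs ω)) (B (bs ω)) (C (bs ω)) i| ≤ 2 * ε / b} := measure_iUnion_fintype_le _ _
    _ ≤ ∑ _i : Fin 3, n * c * vol U := Finset.sum_le_sum fun i _ => k4c_ceil_offset hδ h (hcm i) hn' hU
    _ = 3 * n * c * vol U := by
        rw [Finset.sum_const, Finset.card_univ, Fintype.card_fin, nsmul_eq_mul]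
        push_cast
        ring

/-- **LEAF L-252-S4C-CEIL-6** (M4, ~90 l.).  The angular numerator against the refined terminal denominator.  `h` = terminal hidden bin, `A` = parent label, `β` = old velocity bin; on `G` (old joint angular exceptions removed) the observation
`(bs, h, β)` has the ceiling `hi`; the second mask keeps the incidences where the density of `(bs, h, A)` under `μ` is at least `lo`.  Then the masked mass of `{A = A0, β = β0}` is at most `(hi / lo) μ {A = A0}` (the PRE-mask parent mass).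
PROOF.  `U h0 := {o | lo ≤ k4cDen μ vol bs (ksPair h A) (h0, A0) o}` (measurable).  The set is contained in `⋃ h0, G ∩ (h,β)⁻¹{(h0,β0)} ∩ bs⁻¹ (U h0)`; `measure_iUnion_le`, `hceil`: `≤ ∑' h0, hi * vol (U h0)`.
`lo * vol (U h0) ≤ ∫⁻ o in U h0, den ≤ k4cPart μ bs (ksPair h A) (h0, A0) (U h0)` (`Measure.setLIntegral_rnDeriv_le`) `≤ μ (h⁻¹{h0} ∩ A⁻¹{A0})`; these sets are disjoint and measurable: `∑' = μ (⋃ ..) ≤ μ (A⁻¹{A0})` (`measure_iUnion`). -/
theorem k4c_ratio {H 𝒜 𝒱 : Type*} [Countable H] (μ : Measure Ω) [IsFiniteMeasure μ] (vol : Measure X) [SigmaFinite vol] {bs : Ω → X} (hbs : Measurable bs)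
    {h : Ω → H} {A : Ω → 𝒜} {β : Ω → 𝒱} (hh : KsLab h) (hA : KsLab A) (G : Set Ω) {hi lo : ℝ≥0∞}
    (hceil : ∀ d (U : Set X), MeasurableSet U → μ (G ∩ ksPair h β ⁻¹' {d} ∩ bs ⁻¹' U) ≤ hi * vol U) (A0 : 𝒜) (β0 : 𝒱) :
    lo * μ (G ∩ {x | lo ≤ k4cDn μ vol bs (ksPair h A) x} ∩ A ⁻¹' {A0} ∩ β ⁻¹' {β0}) ≤ hi * μ (A ⁻¹' {A0}) := by
  set U : H → Set X := fun h0 => {o | lo ≤ k4cDen μ vol bs (ksPair h A) (h0, A0) o} with hU
  have hUm : ∀ h0, MeasurableSet (U h0) := fun h0 => measurableSet_le measurable_const (Measure.measurable_rnDeriv _ _)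
  have hsub : G ∩ {x | lo ≤ k4cDn μ vol bs (ksPair h A) x} ∩ A ⁻¹' {A0} ∩ β ⁻¹' {β0}
      ⊆ ⋃ h0, G ∩ ksPair h β ⁻¹' {(h0, β0)} ∩ bs ⁻¹' (U h0) := by
    rintro x ⟨⟨⟨hG, hd⟩, hxA⟩, hxβ⟩
    have hxA' : A x = A0 := hxA
    have hxβ' : β x = β0 := hxβ
    refine Set.mem_iUnion.2 ⟨h x, ⟨hG, ?_⟩, ?_⟩
    · change (h x, β x) = (h x, β0)
      rw [hxβ']
    · change lo ≤ k4cDen μ vol bs (ksPair h A) (h x, A0) (bs x)
      rw [← hxA']
      exact hd
  have hlow : ∀ h0, lo * vol (U h0) ≤ μ (h ⁻¹' {h0} ∩ A ⁻¹' {A0}) := fun h0 => by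
    have hpm : MeasurableSet (ksPair h A ⁻¹' {(h0, A0)}) := by
      have e : ksPair h A ⁻¹' {(h0, A0)} = h ⁻¹' {h0} ∩ A ⁻¹' {A0} := by
        ext x
        simp [ksPair, Prod.ext_iff]
      rw [e]
      exact (hh h0).inter (hA A0)
    calc lo * vol (U h0) = ∫⁻ _ in U h0, lo ∂vol := (setLIntegral_const _ _).symm
      _ ≤ ∫⁻ o in U h0, (k4cPart μ bs (ksPair h A) (h0, A0)).rnDeriv vol o ∂vol :=
          setLIntegral_mono (Measure.measurable_rnDeriv _ _) fun o ho => ho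
      _ ≤ k4cPart μ bs (ksPair h A) (h0, A0) (U h0) := Measure.setLIntegral_rnDeriv_le _
      _ ≤ k4cPart μ bs (ksPair h A) (h0, A0) Set.univ := measure_mono (Set.subset_univ _)
      _ = μ (h ⁻¹' {h0} ∩ A ⁻¹' {A0}) := by
          rw [k4cPart, Measure.map_apply hbs MeasurableSet.univ, Set.preimage_univ, Measure.restrict_apply MeasurableSet.univ,
            Set.univ_inter]
          congr 1
          ext x
          simp [ksPair, Prod.ext_iff]
  have hdisj : ∑' h0, μ (h ⁻¹' {h0} ∩ A ⁻¹' {A0}) ≤ μ (A ⁻¹' {A0}) := by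
    rw [← measure_iUnion (fun i j hij => ?_) fun h0 => (hh h0).inter (hA A0)]
    · exact measure_mono (Set.iUnion_subset fun h0 => Set.inter_subset_right)
    · refine Set.disjoint_left.2 fun x hx hx' => hij ?_
      have h1 : h x = i := hx.1
      have h2 : h x = j := hx'.1
      rw [← h1, h2]
  calc lo * μ (G ∩ {x | lo ≤ k4cDn μ vol bs (ksPair h A) x} ∩ A ⁻¹' {A0} ∩ β ⁻¹' {β0})
      ≤ lo * μ (⋃ h0, G ∩ ksPair h β ⁻¹' {(h0, β0)} ∩ bs ⁻¹' (U h0)) := mul_le_mul' le_rfl (measure_mono hsub)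
    _ ≤ lo * ∑' h0, μ (G ∩ ksPair h β ⁻¹' {(h0, β0)} ∩ bs ⁻¹' (U h0)) := mul_le_mul' le_rfl (measure_iUnion_le _)
    _ ≤ lo * ∑' h0, hi * vol (U h0) := mul_le_mul' le_rfl (ENNReal.tsum_le_tsum fun h0 => hceil _ _ (hUm h0))
    _ = hi * ∑' h0, lo * vol (U h0) := by
        rw [ENNReal.tsum_mul_left, ENNReal.tsum_mul_left]
        ring
    _ ≤ hi * ∑' h0, μ (h ⁻¹' {h0} ∩ A ⁻¹' {A0}) := mul_le_mul' le_rfl (ENNReal.tsum_le_tsum hlow)
    _ ≤ hi * μ (A ⁻¹' {A0}) := mul_le_mul' le_rfl hdisj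

/-- **LEAF L-252-S4C-CEIL-7** (~40 l.).  Bins which meet a cube: the bin vector of a point of the cube of radius `r` about `x0` lies in an explicit list of size `≤ n ^ j`.
PROOF.  `Fintype.mem_piFinset`, `Finset.mem_Icc`, `Int.floor_le_floor` (monotone); `Fintype.card_piFinset`, `Finset.prod_le_pow_card`-type bound, `Int.card_Icc` as in CEIL-3. -/
theorem k4c_bins_cube {j : ℕ} {δ r : ℝ} (hδ : 0 < δ) {n : ℕ} (hn : 2 * r / δ + 2 ≤ n) (x0 : Fin j → ℝ) :
    (∀ x : Fin j → ℝ, (∀ i, |x i - x0 i| ≤ r) → (fun i => ⌊x i / δ⌋) ∈ Fintype.piFinset fun i => Finset.Icc ⌊(x0 i - r) / δ⌋ ⌊(x0 i + r) / δ⌋) ∧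
      (Fintype.piFinset fun i => Finset.Icc ⌊(x0 i - r) / δ⌋ ⌊(x0 i + r) / δ⌋).card ≤ n ^ j := by
  constructor
  · intro x hx
    refine Fintype.mem_piFinset.2 fun i => ?_
    have h2 := abs_le.1 (hx i)
    refine Finset.mem_Icc.2 ⟨Int.floor_le_floor ?_, Int.floor_le_floor ?_⟩
    · exact div_le_div_of_nonneg_right (by linarith) hδ.le
    · exact div_le_div_of_nonneg_right (by linarith) hδ.le
  · rw [Fintype.card_piFinset]
    calc ∏ i : Fin j, (Finset.Icc ⌊(x0 i - r) / δ⌋ ⌊(x0 i + r) / δ⌋).card ≤ ∏ _i : Fin j, n :=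
          Finset.prod_le_prod' fun i _ => k4c_card_Icc_le hδ hn (x0 i)
      _ = n ^ j := by simp

open Classical in
/-- **LEAF L-252-S4C-CEIL-8** (M5, ~40 l.).  Labels which lose at least half of their stored incidence witness: `m` witness masses, `m'` after the cap masks, `bud = q ν_c` the budget (saturation: `bud ≤ K m`), `pth ≤ bud` the final path mass of the label.
Dropping all these labels from the final path costs at most `2 K` times the removed witness mass.
PROOF.  Termwise: `2 m' < m` gives `m ≤ 2 (m - m')` (`ENNReal`: `m = m' + (m - m')`, `m' < ⊤`), so `om * pth ≤ om * bud ≤ om * K * m ≤ 2 K (om * (m - m'))`; `Finset.sum_le_sum`, `Finset.sum_le_univ_sum_of_nonneg`-type inclusion, `Finset.mul_sum`. -/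
theorem k4c_half_loss {C : Type*} [Fintype C] (om m m' bud pth : C → ℝ≥0∞) (K : ℝ≥0∞) (hm : ∀ c, m' c ≤ m c) (hsat : ∀ c, bud c ≤ K * m c)
    (hp : ∀ c, pth c ≤ bud c) :
    ∑ c ∈ Finset.univ.filter (fun c => 2 * m' c < m c), om c * pth c ≤ 2 * K * ∑ c, om c * (m c - m' c) := by
  have hterm : ∀ c, 2 * m' c < m c → om c * pth c ≤ 2 * K * (om c * (m c - m' c)) := fun c hc => by
    have h1 : m c ≤ 2 * (m c - m' c) := by
      have hfin : m' c ≠ ⊤ := by
        intro htop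
        rw [htop] at hc
        simp at hc
      have h2 : m c = m' c + (m c - m' c) := (add_tsub_cancel_of_le (hm c)).symm
      have h3 : m' c ≤ m c - m' c := by
        refine ENNReal.le_sub_of_add_le_left hfin ?_
        rw [← two_mul]
        exact hc.le
      calc m c = m' c + (m c - m' c) := h2
        _ ≤ (m c - m' c) + (m c - m' c) := by gcongr
        _ = 2 * (m c - m' c) := (two_mul _).symm
    calc om c * pth c ≤ om c * (K * m c) := mul_le_mul' le_rfl ((hp c).trans (hsat c))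
      _ ≤ om c * (K * (2 * (m c - m' c))) := by gcongr
      _ = 2 * K * (om c * (m c - m' c)) := by ring
  calc ∑ c ∈ Finset.univ.filter (fun c => 2 * m' c < m c), om c * pth c
      ≤ ∑ c ∈ Finset.univ.filter (fun c => 2 * m' c < m c), 2 * K * (om c * (m c - m' c)) :=
        Finset.sum_le_sum fun c hc => hterm c (Finset.mem_filter.1 hc).2
    _ ≤ ∑ c, 2 * K * (om c * (m c - m' c)) := Finset.sum_le_sum_of_subset (Finset.filter_subset _ _)
    _ = 2 * K * ∑ c, om c * (m c - m' c) := (Finset.mul_sum _ _ _).symm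

/-- Stores the on-demand equation lemmas of the definitions above in THIS module (rule 6 hygiene). -/
theorem k4c_ceil_eqns_cite : True := by
  have := @k4cPart.eq_1.{0, 0, 0}
  have := @k4cDen.eq_1.{0, 0, 0}
  have := @k4cDn.eq_1.{0, 0, 0}
  have := @K4cCeil.eq_1.{0, 0, 0}
  have := @k4cCen.eq_1
  trivial

end

end Claimed.Agent.R252
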