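import Claimed.Agent.R252.S4C.ChainDefs
import Claimed.Agent.R252.Norm.Seq

/-!
# ROW 252 (S0492), unit S4C (post BP-252-S4C, helper294), file 8: FACTS ABOUT CHAINS.      CONTRACT file: the `sorry`s are the leaves L-252-S4C-CH-*.

Paper: 04 l.232-262 (nested true systems, lifting through true parents, composition of list knowledge, products of time lengths and Jacobians).   Paper-free: all proofs are INDUCTIONS ON THE CHAIN
(`induction c generalizing ..` / structural recursion as in `K4cCh.wd_up`; after `cases` on the chain and on the index everything reduces by `rfl`/`simp only [K4cCh.sys, ..]`), the step is ONE lemma of helper22 (`Norm/*.lean`, prefix `k2n_`).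
-/

set_option autoImplicit false
set_option linter.unusedVariables false

namespace Claimed.Agent.R252

open MeasureTheory Filter Topology
open Claimed.Agent.R255 (uf)
open scoped ENNReal BigOperators

noncomputable section

variable {v : KbVer}

/-! ## CH-1 : generalities, the chain of a path (~200 l.) -/

theorem k4c_all_mono {E : KbEx v} (c : K4cCh v E) (Φ Ψ : ℕ → ∀ E : KbEx v, E.Sys → ℝ → Prop) (h : ∀ i E Y r, Φ i E Y r → Ψ i E Y r) (hc : c.All Φ) : c.All Ψ := by
  induction c generalizing Φ Ψ with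
  | nil E => trivial
  | cons E Y r t ih => exact ⟨h _ _ _ _ hc.1, ih _ _ (fun i => h (i + 1)) hc.2⟩

theorem k4c_all_drop {E : KbEx v} (c : K4cCh v E) (Φ : ℕ → ∀ E : KbEx v, E.Sys → ℝ → Prop) (hc : c.All Φ) (m : ℕ) : (c.drop m).All fun i => Φ (i + m) := by
  induction c generalizing Φ m with
  | nil E => trivial
  | cons E Y r t ih =>
    cases m with
    | zero => exact hc
    | succ m =>
      have := ih (fun i => Φ (i + 1)) hc.2 m
      exact this

theorem k4c_len_drop {E : KbEx v} (c : K4cCh v E) (m : ℕ) : (c.drop m).len = c.len - m := by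
  induction c generalizing m with
  | nil E => simp [K4cCh.drop, K4cCh.len]
  | cons E Y r t ih =>
    cases m with
    | zero => rfl
    | succ m =>
      have h1 : (t.drop m).len = t.len - m := ih m
      show (t.drop m).len = t.len + 1 - (m + 1)
      omega

/-- finitely many eventual properties hold eventually at all steps -/
theorem k4c_all_ev {E : KbEx v} (c : K4cCh v E) (Φ : ℕ → ℕ → ∀ E : KbEx v, E.Sys → ℝ → Prop) (hc : c.All fun i E Y r => ∀ᶠ k in uf, Φ k i E Y r) :
    ∀ᶠ k in uf, c.All (Φ k) := by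
  induction c generalizing Φ with
  | nil E => exact Eventually.of_forall fun _ => trivial
  | cons E Y r t ih =>
    have h2 := ih (fun k i => Φ k (i + 1)) hc.2
    filter_upwards [hc.1, h2] with k a b
    exact ⟨a, b⟩

theorem k4c_cast_prob {E E' : KbEx v} (h : E' = E) (c : K4cCh v E') (m : ℕ) : (k4cCast h c).prob m = c.prob m := by
  subst h
  rfl

theorem k4c_ofPath_len (π : KpPath v) (d' S η : ℝ) (hπ : π.Ok d' S η) (n g : ℕ) (hg : g + n ≤ π.G) : (k4cOfPath π n g).len = n := by
  induction n generalizing g with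
  | zero => rfl
  | succ n ih =>
    have hs := hπ.step g (by omega)
    rw [k4cOfPath, dif_pos hs]
    simp only [K4cCh.len]
    rw [(k4c_cast_iff (fun E c => c.len = n) hs _).2 (ih (g + 1) (by omega))]

theorem k4c_ofPath_prob (π : KpPath v) (d' S η : ℝ) (hπ : π.Ok d' S η) (n g : ℕ) (hg : g + n ≤ π.G) (m : ℕ) (hm : m ≤ n) : (k4cOfPath π n g).prob m = π.E (g + m) := by
  induction n generalizing g m with
  | zero =>
    have : m = 0 := by omega
    subst this
    rfl
  | succ n ih =>
    have hs := hπ.step g (by omega)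
    rw [k4cOfPath, dif_pos hs]
    cases m with
    | zero => rfl
    | succ m =>
      simp only [K4cCh.prob]
      rw [k4c_cast_prob, ih (g + 1) (by omega) m (by omega)]
      congr 1
      omega

theorem k4c_ofPath_ok (π : KpPath v) (d' S η : ℝ) (hπ : π.Ok d' S η) (n g : ℕ) (hg : g + n ≤ π.G) :
    (k4cOfPath π n g).Ok d' S η (fun i => π.f (g + i)) (fun i => π.r (g + i)) (fun i => π.h (g + i)) fun i => π.nar (g + i) := by
  induction n generalizing g with
  | zero => trivial
  | succ n ih =>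
    have hs := hπ.step g (by omega)
    rw [k4cOfPath, dif_pos hs]
    refine ⟨⟨rfl, hπ.cap g (by omega), hπ.r_pos g (by omega), hπ.r_lt g (by omega), hπ.sys g (by omega), hπ.sat g (by omega), hπ.own g (by omega),
      fun hv => hπ.nar hv g (by omega)⟩, ?_⟩
    have h1 := ih (g + 1) (by omega)
    have e : ∀ i : ℕ, g + 1 + i = g + (i + 1) := fun i => by omega
    simp only [e] at h1
    exact (k4c_cast_iff (fun E c => c.All fun i E Y r' => K4cStep d' S η (π.f (g + (i + 1))) (π.r (g + (i + 1))) (π.h (g + (i + 1))) (π.nar (g + (i + 1))) E Y r') hs _).2 h1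

/-! ## CH-2 : depths, lengths, resolutions (~120 l.) -/

section

variable {E : KbEx v} (c : K4cCh v E) {d' S η : ℝ} {f : ℕ → ℝ → ℝ → ℝ} {r h nar : ℕ → ℝ}

theorem k4c_ch_dp (hc : c.Ok d' S η f r h nar) (m : ℕ) (hm : m < c.len) : c.dp m = ∑ i ∈ Finset.range (m + 1), r i := by
  induction c generalizing f r h nar m with
  | nil E => exact absurd hm (by simp [K4cCh.len])
  | cons E Y r' t ih =>
    have h0 : r' = r 0 := hc.1.r_eq
    cases m with
    | zero => simp [K4cCh.dp, h0]
    | succ m =>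
      have := ih (f := fun i => f (i + 1)) (r := fun i => r (i + 1)) (h := fun i => h (i + 1)) (nar := fun i => nar (i + 1)) hc.2 m (by simpa [K4cCh.len] using hm)
      simp only [K4cCh.dp]
      rw [this, Finset.sum_range_succ' _ (m + 1), h0]
      ring

theorem k4c_ch_R (m : ℕ) : (c.prob m).R = E.R := by
  induction c generalizing m with
  | nil E => rfl
  | cons E Y r' t ih =>
    cases m with
    | zero => rfl
    | succ m => exact ih m

theorem k4c_ch_L (hc : c.Ok d' S η f r h nar) (m : ℕ) (hm : m ≤ c.len) : (c.prob m).L = E.L - ∑ i ∈ Finset.range m, r i := by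
  induction c generalizing f r h nar m with
  | nil E =>
    have : m = 0 := by simpa [K4cCh.len] using hm
    subst this
    simp [K4cCh.prob]
  | cons E Y r' t ih =>
    have h0 : r' = r 0 := hc.1.r_eq
    cases m with
    | zero => simp [K4cCh.prob]
    | succ m =>
      have := ih (f := fun i => f (i + 1)) (r := fun i => r (i + 1)) (h := fun i => h (i + 1)) (nar := fun i => nar (i + 1)) hc.2 m (by simpa [K4cCh.len] using hm)
      simp only [K4cCh.prob]
      rw [this, Finset.sum_range_succ' _ m, ← h0]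
      show E.L - r' - _ = _
      ring

/-- the depths stay below the length -/
theorem k4c_ch_dp_lt (hc : c.Ok d' S η f r h nar) (m : ℕ) (hm : m < c.len) : 0 < c.dp m ∧ c.dp m < E.L := by
  induction c generalizing f r h nar m with
  | nil E => exact absurd hm (by simp [K4cCh.len])
  | cons E Y r' t ih =>
    cases m with
    | zero => exact ⟨hc.1.r_pos, hc.1.r_lt⟩
    | succ m =>
      have := ih (f := fun i => f (i + 1)) (r := fun i => r (i + 1)) (h := fun i => h (i + 1)) (nar := fun i => nar (i + 1)) hc.2 m (by simpa [K4cCh.len] using hm)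
      have hL : (E.norm Y r').L = E.L - r' := rfl
      simp only [K4cCh.dp]
      rw [hL] at this
      exact ⟨by linarith [hc.1.r_pos, this.1], by linarith [this.2]⟩

/-- the problem after `m < len` steps is in the cap class with the profile `f m` -/
theorem k4c_ch_cap (hc : c.Ok d' S η f r h nar) (m : ℕ) (hm : m < c.len) : (c.prob m).Cap d' S η (f m) := by
  induction c generalizing f r h nar m with
  | nil E => exact absurd hm (by simp [K4cCh.len])
  | cons E Y r' t ih =>
    cases m with
    | zero => exact hc.1.cap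
    | succ m =>
      exact ih (f := fun i => f (i + 1)) (r := fun i => r (i + 1)) (h := fun i => h (i + 1)) (nar := fun i => nar (i + 1)) hc.2 m (by simpa [K4cCh.len] using hm)

/-! ## CH-3 : the nodes are prepared true systems of `E` (~350 l.; `k2n_lift_sys`, `k2n_lift_sat`, `k2n_lift_known`, `k2n_hub_narrow_add`, `k2n_profile`, `k2s_hub_known_mono`) -/

/-- saturation gives the exponent of `J_c / ν_c` -/
theorem k4c_sat_XJ (E : KbEx v) (hE : E.Ok) (Y : E.Sys) (r₀ h₀ e : ℝ) (hY : E.IsSys Y r₀ h₀) (hs : E.IsSat Y e) : E.ChExp Y (E.k2nXJ Y) (-e) := by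
  intro τ hτ
  obtain ⟨⟨M, hM⟩, -, -⟩ := hY
  filter_upwards [hM, hs τ hτ] with k h1 h2 c
  obtain ⟨-, a2, a3⟩ := h2 c
  have hN0 := kb_res_pos E.R k
  have hK : 0 < E.R.N k ^ τ := Real.rpow_pos_of_pos hN0 _
  have hn : 0 < E.R.N k ^ (-e) := Real.rpow_pos_of_pos hN0 _
  have hJ : 0 < ((Y k).ch c).J := by
    have := h1.2.J_low c
    have hQ : 0 < E.R.N k ^ M := Real.rpow_pos_of_pos hN0 _
    by_contra hcon
    push Not at hcon
    have : E.R.N k ^ M * ((Y k).ch c).J ≤ 0 := mul_nonpos_of_nonneg_of_nonpos hQ.le hcon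
    linarith
  have hnt : (Y k).nuC c ≠ ⊤ := ne_top_of_le_ne_top ENNReal.ofReal_ne_top a2
  have b2 : ((Y k).nuC c).toReal ≤ E.R.N k ^ τ * E.R.N k ^ (-e) * ((Y k).ch c).J := by
    have := ENNReal.toReal_mono ENNReal.ofReal_ne_top a2
    rwa [ENNReal.toReal_ofReal (by positivity)] at this
  have b3 : E.R.N k ^ (-e) * ((Y k).ch c).J ≤ E.R.N k ^ τ * ((Y k).nuC c).toReal := by
    have := ENNReal.toReal_mono (ENNReal.mul_ne_top ENNReal.ofReal_ne_top hnt) a3
    rwa [ENNReal.toReal_ofReal (by positivity), ENNReal.toReal_mul, ENNReal.toReal_ofReal hK.le] at this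
  have hν : 0 < ((Y k).nuC c).toReal := by
    by_contra hcon
    push Not at hcon
    have h4 : E.R.N k ^ τ * ((Y k).nuC c).toReal ≤ 0 := mul_nonpos_of_nonneg_of_nonpos hK.le hcon
    have h5 : 0 < E.R.N k ^ (-e) * ((Y k).ch c).J := by positivity
    linarith
  have e1 : E.R.N k ^ (- -e - τ) * (E.R.N k ^ τ * E.R.N k ^ (-e)) = 1 := by
    rw [← Real.rpow_add hN0, ← Real.rpow_add hN0]
    have : - -e - τ + (τ + -e) = 0 := by ring
    rw [this, Real.rpow_zero]
  have e2 : E.R.N k ^ (- -e + τ) * E.R.N k ^ (-e) = E.R.N k ^ τ := by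
    rw [← Real.rpow_add hN0]
    congr 1
    ring
  have p1 : 0 < E.R.N k ^ (- -e - τ) := Real.rpow_pos_of_pos hN0 _
  have p2 : 0 < E.R.N k ^ (- -e + τ) := Real.rpow_pos_of_pos hN0 _
  constructor
  · show _ ≤ ((Y k).ch c).J / ((Y k).nuC c).toReal
    rw [le_div_iff₀ hν]
    calc E.R.N k ^ (- -e - τ) * ((Y k).nuC c).toReal ≤ E.R.N k ^ (- -e - τ) * (E.R.N k ^ τ * E.R.N k ^ (-e) * ((Y k).ch c).J) := mul_le_mul_of_nonneg_left b2 p1.le
      _ = (E.R.N k ^ (- -e - τ) * (E.R.N k ^ τ * E.R.N k ^ (-e))) * ((Y k).ch c).J := by ring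
      _ = ((Y k).ch c).J := by rw [e1, one_mul]
  · show ((Y k).ch c).J / ((Y k).nuC c).toReal ≤ _
    rw [div_le_iff₀ hν]
    have h6 : E.R.N k ^ (-e) * ((Y k).ch c).J ≤ E.R.N k ^ (-e) * (E.R.N k ^ (- -e + τ) * ((Y k).nuC c).toReal) := by
      calc E.R.N k ^ (-e) * ((Y k).ch c).J ≤ E.R.N k ^ τ * ((Y k).nuC c).toReal := b3
        _ = E.R.N k ^ (-e) * (E.R.N k ^ (- -e + τ) * ((Y k).nuC c).toReal) := by rw [← e2]; ring
    exact le_of_mul_le_mul_left h6 hn

/-- one step: the profile of the remaining problem (`k2n_profile`, last clause, `e = - f r 0`) -/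
theorem k4c_step_profile (E : KbEx v) (Y : E.Sys) (d' S η : ℝ) (f f' : ℝ → ℝ → ℝ) (r₀ h₀ nar₀ r' : ℝ) (hs : K4cStep d' S η f r₀ h₀ nar₀ E Y r')
    (hf' : (E.norm Y r').Cap d' S η f') (s : ℝ) (hs0 : 0 ≤ s) (hsL : s ≤ E.L - r') : f' s 0 = f (r' + s) 0 - f r' 0 := by
  have hE := hs.cap.ok
  have hK : E.IsKnown Y E.L := k2s_hub_known_mono E hE Y r' E.L hs.r_lt.le hs.own
  have := (E.k2n_profile hE f f' hs.cap.hom Y r' h₀ (-(f r' 0)) hs.r_pos.le hs.r_lt ⟨hs.sys.1, hK⟩ (k4c_sat_XJ E hE Y r' h₀ _ hs.sys.1 hs.sat) hf'.ok hf'.hom).2.2.2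
    hs.own s hs0 hsL
  rw [this]
  ring

theorem k4c_prob_zero {E : KbEx v} (c : K4cCh v E) : c.prob 0 = E := by
  cases c <;> rfl

theorem k4c_ch_sys (hc : c.Ok d' S η f r h nar) (m : ℕ) (hm : m < c.len) : E.IsSys (c.sys m) (c.dp m) (∑ i ∈ Finset.range (m + 1), h i) := by
  induction c generalizing f r h nar m with
  | nil E => exact absurd hm (by simp [K4cCh.len])
  | cons E Y r' t ih =>
    cases m with
    | zero =>
      simp only [K4cCh.sys, K4cCh.dp, zero_add, Finset.sum_range_one]
      exact hc.1.sys.1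
    | succ m =>
      have := ih (f := fun i => f (i + 1)) (r := fun i => r (i + 1)) (h := fun i => h (i + 1)) (nar := fun i => nar (i + 1)) hc.2 m (by simpa [K4cCh.len] using hm)
      simp only [K4cCh.sys, K4cCh.dp]
      rw [Finset.sum_range_succ' _ (m + 1), add_comm _ (h 0)]
      exact E.k2n_lift_sys hc.1.cap.ok Y r' (h 0) hc.1.sys.1 _ _ _ this

theorem k4c_ch_sat (hc : c.Ok d' S η f r h nar) (m : ℕ) (hm : m < c.len) : E.IsSat (c.sys m) (f 0 (c.dp m) 0) := by
  induction c generalizing f r h nar m with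
  | nil E => exact absurd hm (by simp [K4cCh.len])
  | cons E Y r' t ih =>
    cases m with
    | zero =>
      simp only [K4cCh.sys, K4cCh.dp]
      exact hc.1.sat
    | succ m =>
      have hm' : m < t.len := by simpa [K4cCh.len] using hm
      have h1 := ih (f := fun i => f (i + 1)) (r := fun i => r (i + 1)) (h := fun i => h (i + 1)) (nar := fun i => nar (i + 1)) hc.2 m hm'
      have h2 := k4c_ch_sys t (f := fun i => f (i + 1)) (r := fun i => r (i + 1)) (h := fun i => h (i + 1)) (nar := fun i => nar (i + 1)) hc.2 m hm'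
      have h3 := k4c_ch_dp_lt t (f := fun i => f (i + 1)) (r := fun i => r (i + 1)) (h := fun i => h (i + 1)) (nar := fun i => nar (i + 1)) hc.2 m hm'
      have h4 := k4c_ch_cap t (f := fun i => f (i + 1)) (r := fun i => r (i + 1)) (h := fun i => h (i + 1)) (nar := fun i => nar (i + 1)) hc.2 0 (by omega)
      rw [k4c_prob_zero] at h4
      have h5 := k4c_step_profile E Y d' S η (f 0) (f 1) _ _ _ r' hc.1 h4 (t.dp m) h3.1.le h3.2.le
      simp only [K4cCh.sys, K4cCh.dp]
      refine E.k2n_lift_sat hc.1.cap.ok Y r' (h 0) (-(f 0 r' 0)) hc.1.sys.1 (k4c_sat_XJ E hc.1.cap.ok Y r' (h 0) _ hc.1.sys.1 hc.1.sat) _ _ _ _ h2 ?_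
      have e : f 0 (r' + t.dp m) 0 + -(f 0 r' 0) = f 1 (t.dp m) 0 := by rw [h5]; ring
      rw [e]
      exact h1

theorem k4c_ch_known (hc : c.Ok d' S η f r h nar) (m : ℕ) (hm : m < c.len) : E.IsKnown (c.sys m) E.L := by
  induction c generalizing f r h nar m with
  | nil E => exact absurd hm (by simp [K4cCh.len])
  | cons E Y r' t ih =>
    have hK : E.IsKnown Y E.L := k2s_hub_known_mono E hc.1.cap.ok Y r' E.L hc.1.r_lt.le hc.1.own
    cases m with
    | zero => exact hK
    | succ m =>
      have hm' : m < t.len := by simpa [K4cCh.len] using hm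
      have h1 := ih (f := fun i => f (i + 1)) (r := fun i => r (i + 1)) (h := fun i => h (i + 1)) (nar := fun i => nar (i + 1)) hc.2 m hm'
      have h2 := k4c_ch_sys t (f := fun i => f (i + 1)) (r := fun i => r (i + 1)) (h := fun i => h (i + 1)) (nar := fun i => nar (i + 1)) hc.2 m hm'
      have h3 := E.k2n_lift_known hc.1.cap.ok Y r' (h 0) hc.1.sys.1 (E.L - r') (by rw [add_sub_cancel]; exact hK) (t.sys m) _ _ h2 h1
      rw [add_sub_cancel] at h3
      exact h3

theorem k4c_ch_narrow (hv : v = KbVer.two) (hc : c.Ok d' S η f r h nar) (m : ℕ) (hm : m < c.len) : E.Narrow (c.sys m) (∑ i ∈ Finset.range (m + 1), nar i) := by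
  induction c generalizing f r h nar m with
  | nil E => exact absurd hm (by simp [K4cCh.len])
  | cons E Y r' t ih =>
    cases m with
    | zero =>
      simp only [K4cCh.sys, zero_add, Finset.sum_range_one]
      exact hc.1.nar hv
    | succ m =>
      have := ih (f := fun i => f (i + 1)) (r := fun i => r (i + 1)) (h := fun i => h (i + 1)) (nar := fun i => nar (i + 1)) hc.2 m (by simpa [K4cCh.len] using hm)
      simp only [K4cCh.sys]
      rw [Finset.sum_range_succ' _ (m + 1), add_comm _ (nar 0)]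
      exact k2n_hub_narrow_add E Y r' _ _ _ (hc.1.nar hv) this

/-- the structural requirements hold eventually (`IsSys`, `Cap.ok`, `IsSat`: `ν_c ≠ 0`; `Big`: `Z ≠ 0`) -/
theorem k4c_ch_wfat (hc : c.Ok d' S η f r h nar) : ∀ᶠ k in uf, c.WFat k := by
  refine k4c_all_ev c (fun k _ E Y _ => (E.P k).WF ∧ (Y k).WF ∧ (Y k).Z ≠ 0 ∧ ∀ c', (Y k).nuC c' ≠ 0) ?_
  refine k4c_all_mono c _ _ ?_ hc
  intro i E Y r' hs
  have hE := hs.cap.ok
  obtain ⟨-, ⟨M0, hP⟩, -⟩ := hs.cap.ok
  obtain ⟨⟨M, hM⟩, -, -⟩ := hs.sys.1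
  filter_upwards [hP, hM, E.k2n_Z_bounds hE Y r' _ hs.sys.1 1 one_pos, E.k2n_XJ_bounds hE Y _ (k4c_sat_XJ E hE Y r' _ _ hs.sys.1 hs.sat) 1 one_pos] with k a1 a2 a3 a4
  exact ⟨a1.1, a2.1, a3.1, fun c' => (a4 c').1⟩

end

/-! ## CH-4 : structure at one sample (~300 l.) -/

section

variable {E : KbEx v} (c : K4cCh v E) (k : ℕ)

theorem k4c_ch_WF (hc : c.WFat k) (m : ℕ) (hm : m < c.len) : (c.sys m k).WF := by
  induction c generalizing m with
  | nil E => exact absurd hm (by simp [K4cCh.len])
  | cons E Y r t ih =>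
    cases m with
    | zero => exact hc.1.2.1
    | succ m =>
      have h1 : (t.sys m k).WF := ih hc.2 m (by simpa [K4cCh.len] using hm)
      exact KbSys.k2n_lift_WF (Y k) (E.a r k) (t.sys m k) hc.1.2.1 (kb_L3_rpow_pos _ _ _) h1

/-- nesting of intervals, assignments, selections  (`t ∈ kbI (n+n') (i 2^{n'} + i') ↔ (t - i q)/q ∈ kbI n' i'`; `k2n_lift_S_sub`) -/
theorem k4c_ch_nest (hc : c.WFat k) (m : ℕ) (hm : m + 1 < c.len) (d : (c.sys (m + 1) k).C) :
    (c.sys (m + 1) k).I d ⊆ (c.sys m k).I (c.up k m d) ∧ (c.sys (m + 1) k).A d ⊆ (c.sys m k).A (c.up k m d) ∧ (c.sys (m + 1) k).S d ⊆ (c.sys m k).S (c.up k m d) := by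
  induction c generalizing m with
  | nil E => exact absurd hm (by simp [K4cCh.len])
  | cons E Y r t ih =>
    cases m with
    | zero =>
      have hW : (t.sys 0 k).WF := k4c_ch_WF t k hc.2 0 (by simpa [K4cCh.len] using hm)
      refine ⟨?_, ?_, ?_⟩
      · intro x hx
        have h1 : (Y k).tauOf ((t.sys 0 k).wd d) x ∈ (t.sys 0 k).I d := ((Y k).k2n_lift_I (E.a r k) (t.sys 0 k) d x).1 hx
        have h2 := (t.sys 0 k).k2n_I_sub d (hW.iv_lt d) h1
        have h3 := ((Y k).k2n_tOf_mem_I ((t.sys 0 k).wd d) _).2 h2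
        have e : (Y k).tOf ((t.sys 0 k).wd d) ((Y k).tauOf ((t.sys 0 k).wd d) x) = x := (Y k).k2n_tOf_tauOf _ x
        rw [e] at h3
        exact h3
      · exact Set.inter_subset_left
      · exact (Y k).k2n_lift_S_sub (E.a r k) (t.sys 0 k) hW d
    | succ m =>
      obtain ⟨h1, h2, h3⟩ := ih hc.2 m (by simpa [K4cCh.len] using hm) d
      have hw : (t.sys m k).wd (t.up k m d) = (t.sys (m + 1) k).wd d := t.wd_up k m d
      refine ⟨?_, ?_, ?_⟩
      · intro x hx
        have h4 : (Y k).tauOf ((t.sys (m + 1) k).wd d) x ∈ (t.sys (m + 1) k).I d := ((Y k).k2n_lift_I (E.a r k) (t.sys (m + 1) k) d x).1 hx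
        refine ((Y k).k2n_lift_I (E.a r k) (t.sys m k) (t.up k m d) x).2 ?_
        rw [hw]
        exact h1 h4
      · intro x hx
        have hx' : x ∈ (Y k).A ((t.sys (m + 1) k).wd d) ∩ (t.sys (m + 1) k).A d := hx
        show x ∈ (Y k).A ((t.sys m k).wd (t.up k m d)) ∩ (t.sys m k).A (t.up k m d)
        rw [hw]
        exact ⟨hx'.1, h2 hx'.2⟩
      · intro x hx
        have hx' : (x.1, (Y k).tauOf ((t.sys (m + 1) k).wd d) x.2) ∈ (t.sys (m + 1) k).S d := hx
        show (x.1, (Y k).tauOf ((t.sys m k).wd (t.up k m d)) x.2) ∈ (t.sys m k).S (t.up k m d)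
        rw [hw]
        exact h3 hx'

theorem k4c_ch_pth_meas (hc : c.WFat k) (Gd : Set (c.last.P k).W) (γ : (E.P k).W) : MeasurableSet (c.pth k Gd γ) := by
  induction c with
  | nil E => exact MeasurableSet.const _
  | cons E Y r t ih =>
    refine MeasurableSet.iUnion fun c' => MeasurableSet.iUnion fun _ => ?_
    exact ((Y k).k2n_back_meas c' (ih hc.2 Gd c')).inter (hc.1.2.1.S_meas c')

theorem k4c_ch_pth_mono (Gd Gd' : Set (c.last.P k).W) (h : Gd ⊆ Gd') (γ : (E.P k).W) : c.pth k Gd γ ⊆ c.pth k Gd' γ := by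
  induction c with
  | nil E => exact fun x hx => h hx
  | cons E Y r t ih =>
    refine Set.iUnion_mono fun c' => Set.iUnion_mono fun _ => ?_
    exact Set.inter_subset_inter_left _ (Set.preimage_mono (ih Gd Gd' h c'))

/-- the final path has a label at every node -/
theorem k4c_ch_pth_sub (hc : c.WFat k) (Gd : Set (c.last.P k).W) (m : ℕ) (hm : m < c.len) (γ : (E.P k).W) : c.pth k Gd γ ⊆ (c.sys m k).sel γ := by
  induction c generalizing m with
  | nil E => exact absurd hm (by simp [K4cCh.len])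
  | cons E Y r t ih =>
    intro x hx
    obtain ⟨c', hx⟩ := Set.mem_iUnion.1 hx
    obtain ⟨hw, hx⟩ := Set.mem_iUnion.1 hx
    cases m with
    | zero => exact Set.mem_iUnion.2 ⟨c', Set.mem_iUnion.2 ⟨hw, hx.2⟩⟩
    | succ m =>
      have h1 := ih hc.2 Gd m (by simpa [K4cCh.len] using hm) c' hx.1
      obtain ⟨d, h1⟩ := Set.mem_iUnion.1 h1
      obtain ⟨hd, h1⟩ := Set.mem_iUnion.1 h1
      refine Set.mem_iUnion.2 ⟨d, Set.mem_iUnion.2 ⟨?_, ?_⟩⟩
      · show (Y k).wd ((t.sys m k).wd d) = γ
        rw [hd, hw]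
      · show (x.1, (Y k).tauOf ((t.sys m k).wd d) x.2) ∈ (t.sys m k).S d
        rw [hd]
        exact h1

theorem k4c_ch_lam_meas : Measurable (c.lam k) := by
  induction c with
  | nil E => exact measurable_id
  | cons E Y r t ih => exact ih

theorem k4c_ch_inc_meas (d : (c.last.P k).W) : Measurable (c.inc k d) := by
  induction c with
  | nil E => exact measurable_id
  | cons E Y r t ih => exact ((Y k).k2n_inc_meas (t.anc k d)).comp (ih d)

theorem k4c_ch_inc_fst (d : (c.last.P k).W) (x : (c.last.P k).Lam × ℝ) : (c.inc k d x).1 = c.lam k x.1 := by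
  induction c with
  | nil E => rfl
  | cons E Y r t ih => exact ih d x

theorem k4c_ch_lab_wd (m : ℕ) (d : (c.last.P k).W) : (c.sys m k).wd (c.lab k m d) = c.anc k d := by
  induction c generalizing m with
  | nil E => rfl
  | cons E Y r t ih =>
    cases m with
    | zero => rfl
    | succ m => exact congrArg (Y k).wd (ih m d)

theorem k4c_ch_lab_up (m : ℕ) (d : (c.last.P k).W) : c.up k m (c.lab k (m + 1) d) = c.lab k m d := by
  induction c generalizing m with
  | nil E => rfl
  | cons E Y r t ih =>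
    cases m with
    | zero => exact k4c_ch_lab_wd t k 0 d
    | succ m => exact ih m d

/-- an incidence of the deepest problem is an incidence of `E` in the world of its ancestor -/
theorem k4c_ch_inc_Ev (hc : c.WFat k) (d : (c.last.P k).W) (x : (c.last.P k).Lam × ℝ) (hx : x ∈ (c.last.P k).Ev d) :
    c.inc k d x ∈ (E.P k).Ev (c.anc k d) := by
  induction c with
  | nil E => exact hx
  | cons E Y r t ih =>
    have h1 : (Y k).incOf (t.anc k d) (t.inc k d x) ∈ (Y k).S (t.anc k d) := ih hc.2 d x hx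
    exact (hc.1.2.1.S_sub _ h1).1

/-- an incidence of the deepest problem lies in the selections of its labels -/
theorem k4c_ch_lab_S (hc : c.WFat k) (m : ℕ) (hm : m < c.len) (d : (c.last.P k).W) (x : (c.last.P k).Lam × ℝ) (hx : x ∈ (c.last.P k).Ev d) :
    c.inc k d x ∈ (c.sys m k).S (c.lab k m d) := by
  induction c generalizing m with
  | nil E => exact absurd hm (by simp [K4cCh.len])
  | cons E Y r t ih =>
    cases m with
    | zero => exact k4c_ch_inc_Ev t k hc.2 d x hx
    | succ m =>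
      have h1 := ih hc.2 m (by simpa [K4cCh.len] using hm) d x hx
      show (Y k).k2nBack ((t.sys m k).wd (t.lab k m d)) ((Y k).incOf (t.anc k d) (t.inc k d x)) ∈ (t.sys m k).S (t.lab k m d)
      have e : (Y k).k2nBack (t.anc k d) ((Y k).incOf (t.anc k d) (t.inc k d x)) = t.inc k d x := (Y k).k2n_back_inc _ _
      rw [k4c_ch_lab_wd t k m d, e]
      exact h1

/-! ## CH-5 : the mass formula (~250 l.; `k2n_norm_mass`, `k2n_S_disj`) -/

/-- the sum over the labels = the mass of the union, world by world (the selections of one world are disjoint) -/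
theorem k4c_sum_eq_mass {P : KbPb v} (Y : KbSys P) (hY : Y.WF) (T : Y.C → Set (P.Lam × ℝ)) (hT : ∀ c, MeasurableSet (T c)) :
    ∑ c, P.om (Y.wd c) * P.mu (Y.wd c) (T c ∩ Y.S c) = P.mass fun γ => ⋃ c, ⋃ (_ : Y.wd c = γ), (T c ∩ Y.S c) := by
  classical
  unfold KbPb.mass
  rw [← Finset.sum_fiberwise (Finset.univ : Finset Y.C) Y.wd]
  refine Finset.sum_congr rfl fun γ _ => ?_
  have h1 : ∑ c ∈ Finset.univ.filter (fun c => Y.wd c = γ), P.om (Y.wd c) * P.mu (Y.wd c) (T c ∩ Y.S c)
      = ∑ c ∈ Finset.univ.filter (fun c => Y.wd c = γ), P.om γ * P.mu γ (T c ∩ Y.S c) := by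
    refine Finset.sum_congr rfl fun c hc => ?_
    rw [(Finset.mem_filter.mp hc).2]
  rw [h1, ← Finset.mul_sum]
  congr 1
  rw [← measure_biUnion_finset]
  · congr 1
    ext x
    simp only [Set.mem_iUnion, Finset.mem_filter, Finset.mem_univ, true_and, exists_prop]
  · intro c hc c' hc' hne
    have e1 := (Finset.mem_filter.mp hc).2
    have e2 := (Finset.mem_filter.mp hc').2
    exact (Y.k2n_S_disj hY c c' hne (e1.trans e2.symm)).mono Set.inter_subset_right Set.inter_subset_right
  · intro c _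
    exact (hT c).inter (hY.S_meas c)

/-- **masses of the deepest problem = masses on the final path** -/
theorem k4c_ch_mass (hc : c.WFat k) (Gd : Set (c.last.P k).W) (U : (E.P k).W → Set ((E.P k).Lam × ℝ)) (hU : ∀ γ, MeasurableSet (U γ)) :
    (c.last.P k).mass (fun d => {x | d ∈ Gd ∧ c.inc k d x ∈ U (c.anc k d)}) * c.Zp k = (E.P k).mass fun γ => U γ ∩ c.pth k Gd γ := by
  induction c with
  | nil E =>
    show (E.P k).mass (fun d => {x | d ∈ Gd ∧ x ∈ U d}) * 1 = (E.P k).mass fun γ => U γ ∩ {_x | γ ∈ Gd}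
    rw [mul_one]
    congr 1
    funext d
    ext x
    exact and_comm
  | cons E Y r t ih =>
    have hP := hc.1.1
    have hY := hc.1.2.1
    have hZ := hc.1.2.2.1
    have hZt : (Y k).Z ≠ ∞ := (Y k).k2n_Z_ne_top hP hY
    have h1 := ih hc.2 Gd (fun c' => (Y k).incOf c' ⁻¹' U ((Y k).wd c')) (fun c' => (Y k).k2n_inc_meas c' (hU _))
    have h2 := (Y k).k2n_norm_mass hP hY (E.a r k) (fun c' => (Y k).incOf c' ⁻¹' U ((Y k).wd c') ∩ t.pth k Gd c')
      (fun c' => ((Y k).k2n_inc_meas c' (hU _)).inter (k4c_ch_pth_meas t k hc.2 Gd c'))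
    have h3 := k4c_sum_eq_mass (Y k) hY (fun c' => U ((Y k).wd c') ∩ (Y k).k2nBack c' ⁻¹' t.pth k Gd c')
      (fun c' => (hU _).inter ((Y k).k2n_back_meas c' (k4c_ch_pth_meas t k hc.2 Gd c')))
    have e1 : ∀ c', (Y k).k2nBack c' ⁻¹' ((Y k).incOf c' ⁻¹' U ((Y k).wd c') ∩ t.pth k Gd c') = U ((Y k).wd c') ∩ (Y k).k2nBack c' ⁻¹' t.pth k Gd c' := by
      intro c'
      ext x
      have e : (Y k).incOf c' ((Y k).k2nBack c' x) = x := (Y k).k2n_inc_back c' x
      constructor
      · rintro ⟨a, b⟩
        have a' : (Y k).incOf c' ((Y k).k2nBack c' x) ∈ U ((Y k).wd c') := a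
        rw [e] at a'
        exact ⟨a', b⟩
      · rintro ⟨a, b⟩
        refine ⟨?_, b⟩
        show (Y k).incOf c' ((Y k).k2nBack c' x) ∈ U ((Y k).wd c')
        rw [e]
        exact a
    simp only [e1] at h2
    rw [h3] at h2
    have e2 : (fun γ => ⋃ c', ⋃ (_ : (Y k).wd c' = γ), (U ((Y k).wd c') ∩ (Y k).k2nBack c' ⁻¹' t.pth k Gd c' ∩ (Y k).S c'))
        = fun γ => U γ ∩ (K4cCh.cons E Y r t).pth k Gd γ := by
      funext γ
      ext x
      simp only [K4cCh.pth, Set.mem_iUnion, Set.mem_inter_iff, exists_prop]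
      constructor
      · rintro ⟨c', hw, ⟨a, b⟩, c⟩
        exact ⟨hw ▸ a, c', hw, b, c⟩
      · rintro ⟨a, c', hw, b, c⟩
        exact ⟨c', hw, ⟨hw ▸ a, b⟩, c⟩
    rw [e2] at h2
    have key : ∀ M X : ℝ≥0∞, M * t.Zp k = X → M * ((Y k).Z * t.Zp k) = X * (Y k).Z := by
      intro M X h
      rw [← h]
      ring
    refine (key _ _ (h1.trans h2)).trans ?_
    rw [ENNReal.div_mul_cancel hZ hZt]

theorem k4c_ch_Zp (hc : c.WFat k) : c.Zp k ≠ 0 ∧ c.Zp k ≤ 1 := by
  induction c with
  | nil E => exact ⟨one_ne_zero, le_refl _⟩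
  | cons E Y r t ih =>
    obtain ⟨h1, h2⟩ := ih hc.2
    exact ⟨mul_ne_zero hc.1.2.2.1 h1, mul_le_one' ((Y k).k2n_Z_le_one hc.1.1 hc.1.2.1) h2⟩

/-! ## CH-6 : velocities (~200 l.; `V = y₁ + D V' / q` in one step from `coN`, `D * Di = 1`; composition = the chart of `lift`) -/

/-- the velocity in `E` from the velocity in the deepest problem, through the chart of the LAST node -/
theorem k4c_ch_vel (hc : c.WFat k) (m : ℕ) (hm : m + 1 = c.len) (d : (c.last.P k).W) (l : (c.last.P k).Lam) :
    kbV ((E.P k).co (c.anc k d) (c.lam k l)) = ((c.sys m k).ch (c.lab k m d)).y1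
      + (1 / (c.sys m k).q) • ((c.sys m k).ch (c.lab k m d)).D.mulVec (kbV ((c.last.P k).co d l)) := by
  induction c generalizing m with
  | nil E => exact absurd hm (by simp [K4cCh.len])
  | cons E Y r t ih =>
    have h0 := (Y k).k2n_V_old (E.a r k) (t.anc k d) (hc.1.2.1.inv _) (t.lam k l)
    cases m with
    | zero =>
      cases t with
      | nil _ => exact h0
      | cons _ _ _ _ => exact absurd hm (by simp [K4cCh.len])
    | succ m =>
      have h1 := ih hc.2 m (by simpa [K4cCh.len] using hm) d l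
      have hw : (t.sys m k).wd (t.lab k m d) = t.anc k d := k4c_ch_lab_wd t k m d
      have h1' : kbV ((Y k).coN (E.a r k) (t.anc k d) (t.lam k l)) = ((t.sys m k).ch (t.lab k m d)).y1
        + (1 / (t.sys m k).q) • ((t.sys m k).ch (t.lab k m d)).D.mulVec (kbV ((t.last.P k).co d l)) := h1
      have hq : ((Y k).lift (E.a r k) (t.sys m k)).q = (Y k).q * (t.sys m k).q := (Y k).k2n_lift_q (E.a r k) (t.sys m k)
      show kbV ((E.P k).co ((Y k).wd (t.anc k d)) (t.lam k l))
        = (((Y k).ch ((t.sys m k).wd (t.lab k m d))).y1 + (1 / (Y k).q) • ((Y k).ch ((t.sys m k).wd (t.lab k m d))).D.mulVec ((t.sys m k).ch (t.lab k m d)).y1)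
          + (1 / ((Y k).lift (E.a r k) (t.sys m k)).q) • (((Y k).ch ((t.sys m k).wd (t.lab k m d))).D * ((t.sys m k).ch (t.lab k m d)).D).mulVec (kbV ((t.last.P k).co d l))
      rw [hq, hw, h0, h1', Matrix.mulVec_add, Matrix.mulVec_smul, Matrix.mulVec_mulVec, smul_add, smul_smul, add_assoc]
      congr 3
      rw [one_div, one_div, one_div, mul_inv]

end

/-! ## CH-7 : the same relative to `c.prob m`  (~300 l.; recursion on `(c, m)`: for `m = 0` the statements above, for `cons .. t`, `m + 1` the statement for `(t, m)` BY `rfl`-reduction) -/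

section

variable {E : KbEx v} (c : K4cCh v E) (k : ℕ)

theorem k4c_at_mass (hc : c.WFat k) (m : ℕ) (Gd : Set (c.last.P k).W) (U : ((c.prob m).P k).W → Set (((c.prob m).P k).Lam × ℝ)) (hU : ∀ γ, MeasurableSet (U γ)) :
    (c.last.P k).mass (fun d => {x | d ∈ Gd ∧ c.incAt m k d x ∈ U (c.ancAt m k d)}) * c.ZpAt m k = ((c.prob m).P k).mass fun γ => U γ ∩ c.pthAt m k Gd γ := by
  induction c generalizing m with
  | nil E => exact k4c_ch_mass (K4cCh.nil E) k hc Gd U hU
  | cons E Y r t ih =>
    cases m with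
    | zero => exact k4c_ch_mass (K4cCh.cons E Y r t) k hc Gd U hU
    | succ m => exact ih hc.2 m Gd U hU

theorem k4c_at_Zp (hc : c.WFat k) (m : ℕ) : c.ZpAt m k ≠ 0 ∧ c.ZpAt m k ≤ 1 := by
  induction c generalizing m with
  | nil E => exact k4c_ch_Zp (K4cCh.nil E) k hc
  | cons E Y r t ih =>
    cases m with
    | zero => exact k4c_ch_Zp (K4cCh.cons E Y r t) k hc
    | succ m => exact ih hc.2 m

theorem k4c_at_pth_meas (hc : c.WFat k) (m : ℕ) (Gd : Set (c.last.P k).W) (γ : ((c.prob m).P k).W) : MeasurableSet (c.pthAt m k Gd γ) := by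
  induction c generalizing m with
  | nil E => exact k4c_ch_pth_meas (K4cCh.nil E) k hc Gd γ
  | cons E Y r t ih =>
    cases m with
    | zero => exact k4c_ch_pth_meas (K4cCh.cons E Y r t) k hc Gd γ
    | succ m => exact ih hc.2 m Gd γ

theorem k4c_at_pth_sub (hc : c.WFat k) (m i : ℕ) (hi : m + i < c.len) (Gd : Set (c.last.P k).W) (γ : ((c.prob m).P k).W) :
    c.pthAt m k Gd γ ⊆ ((c.drop m).sys i k).sel γ := by
  induction c generalizing m with
  | nil E => exact absurd hi (by simp [K4cCh.len])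
  | cons E Y r t ih =>
    cases m with
    | zero => exact k4c_ch_pth_sub (K4cCh.cons E Y r t) k hc Gd i (by omega) γ
    | succ m => exact ih hc.2 m (by simp only [K4cCh.len] at hi; omega) Gd γ

theorem k4c_at_inc_meas (m : ℕ) (d : (c.last.P k).W) : Measurable (c.incAt m k d) := by
  induction c generalizing m with
  | nil E => exact measurable_id
  | cons E Y r t ih =>
    cases m with
    | zero => exact k4c_ch_inc_meas (K4cCh.cons E Y r t) k d
    | succ m => exact ih m d

theorem k4c_at_lam_meas (m : ℕ) : Measurable (c.lamAt m k) := by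
  induction c generalizing m with
  | nil E => exact measurable_id
  | cons E Y r t ih =>
    cases m with
    | zero => exact k4c_ch_lam_meas (K4cCh.cons E Y r t) k
    | succ m => exact ih m

theorem k4c_at_inc_fst (m : ℕ) (d : (c.last.P k).W) (x : (c.last.P k).Lam × ℝ) : (c.incAt m k d x).1 = c.lamAt m k x.1 := by
  induction c generalizing m with
  | nil E => rfl
  | cons E Y r t ih =>
    cases m with
    | zero => exact k4c_ch_inc_fst (K4cCh.cons E Y r t) k d x
    | succ m => exact ih m d x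

theorem k4c_at_lab_wd (m i : ℕ) (d : (c.last.P k).W) : ((c.drop m).sys i k).wd (c.labAt m i k d) = c.ancAt m k d := by
  induction c generalizing m with
  | nil E => rfl
  | cons E Y r t ih =>
    cases m with
    | zero => exact k4c_ch_lab_wd (K4cCh.cons E Y r t) k i d
    | succ m => exact ih m d

theorem k4c_at_lab_S (hc : c.WFat k) (m i : ℕ) (hi : m + i < c.len) (d : (c.last.P k).W) (x : (c.last.P k).Lam × ℝ) (hx : x ∈ (c.last.P k).Ev d) :
    c.incAt m k d x ∈ ((c.drop m).sys i k).S (c.labAt m i k d) := by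
  induction c generalizing m with
  | nil E => exact absurd hi (by simp [K4cCh.len])
  | cons E Y r t ih =>
    cases m with
    | zero => exact k4c_ch_lab_S (K4cCh.cons E Y r t) k hc i (by omega) d x hx
    | succ m => exact ih hc.2 m (by simp only [K4cCh.len] at hi; omega) d x hx

/-- the world of `E` is a function of the world after `m'` steps -/
theorem k4c_ch_anc_nest (m' : ℕ) : ∃ g : ((c.prob m').P k).W → (E.P k).W, ∀ d, c.anc k d = g (c.ancAt m' k d) := by
  induction c generalizing m' with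
  | nil E => exact ⟨id, fun _ => rfl⟩
  | cons E Y r t ih =>
    cases m' with
    | zero => exact ⟨id, fun _ => rfl⟩
    | succ m' =>
      obtain ⟨g, hg⟩ := ih m'
      exact ⟨fun x => (Y k).wd (g x), fun d => congrArg (Y k).wd (hg d)⟩

/-- the label at the node `i` is a function of the world after `m' ≥ i + 1` steps -/
theorem k4c_ch_lab_nest (i m' : ℕ) (hm : i + 1 ≤ m') : ∃ g : ((c.prob m').P k).W → (c.sys i k).C, ∀ d, c.lab k i d = g (c.ancAt m' k d) := by
  induction c generalizing i m' with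
  | nil E => exact ⟨id, fun _ => rfl⟩
  | cons E Y r t ih =>
    cases m' with
    | zero => exact absurd hm (by omega)
    | succ m' =>
      cases i with
      | zero => exact k4c_ch_anc_nest t k m'
      | succ i => exact ih i m' (by omega)

/-- histories are nested -/
theorem k4c_at_anc_nest (m m' : ℕ) (hm : m ≤ m') : ∃ g : ((c.prob m').P k).W → ((c.prob m).P k).W, ∀ d, c.ancAt m k d = g (c.ancAt m' k d) := by
  induction c generalizing m m' with
  | nil E => exact ⟨id, fun _ => rfl⟩
  | cons E Y r t ih =>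
    cases m with
    | zero => exact k4c_ch_anc_nest (K4cCh.cons E Y r t) k m'
    | succ m =>
      cases m' with
      | zero => exact absurd hm (by omega)
      | succ m' => exact ih m m' (by omega)

/-- the label at the node `i` of the window which starts at `m` is a function of the world after `m' ≥ m + i + 1` steps -/
theorem k4c_at_lab_nest (m i m' : ℕ) (hm : m + i + 1 ≤ m') : ∃ g : ((c.prob m').P k).W → ((c.drop m).sys i k).C, ∀ d, c.labAt m i k d = g (c.ancAt m' k d) := by
  induction c generalizing m m' with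
  | nil E => exact ⟨id, fun _ => rfl⟩
  | cons E Y r t ih =>
    cases m with
    | zero => exact k4c_ch_lab_nest (K4cCh.cons E Y r t) k i m' (by omega)
    | succ m =>
      cases m' with
      | zero => exact absurd hm (by omega)
      | succ m' => exact ih m m' (by omega)

/-- the velocity in `E` from the velocity after `i + 1` steps, through the chart of the node `i` -/
theorem k4c_ch_vel_at (hc : c.WFat k) (i : ℕ) (hi : i < c.len) (d : (c.last.P k).W) (l : (c.last.P k).Lam) :
    kbV ((E.P k).co (c.anc k d) (c.lam k l)) = ((c.sys i k).ch (c.lab k i d)).y1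
      + (1 / (c.sys i k).q) • ((c.sys i k).ch (c.lab k i d)).D.mulVec (kbV (((c.prob (i + 1)).P k).co (c.ancAt (i + 1) k d) (c.lamAt (i + 1) k l))) := by
  induction c generalizing i with
  | nil E => exact absurd hi (by simp [K4cCh.len])
  | cons E Y r t ih =>
    have h0 := (Y k).k2n_V_old (E.a r k) (t.anc k d) (hc.1.2.1.inv _) (t.lam k l)
    cases i with
    | zero =>
      cases t with
      | nil _ => exact h0
      | cons _ _ _ _ => exact h0
    | succ i =>
      have h1 := ih hc.2 i (by simpa [K4cCh.len] using hi) d l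
      have hw : (t.sys i k).wd (t.lab k i d) = t.anc k d := k4c_ch_lab_wd t k i d
      have h1' : kbV ((Y k).coN (E.a r k) (t.anc k d) (t.lam k l)) = ((t.sys i k).ch (t.lab k i d)).y1
        + (1 / (t.sys i k).q) • ((t.sys i k).ch (t.lab k i d)).D.mulVec (kbV (((t.prob (i + 1)).P k).co (t.ancAt (i + 1) k d) (t.lamAt (i + 1) k l))) := h1
      have hq : ((Y k).lift (E.a r k) (t.sys i k)).q = (Y k).q * (t.sys i k).q := (Y k).k2n_lift_q (E.a r k) (t.sys i k)
      show kbV ((E.P k).co ((Y k).wd (t.anc k d)) (t.lam k l))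
        = (((Y k).ch ((t.sys i k).wd (t.lab k i d))).y1 + (1 / (Y k).q) • ((Y k).ch ((t.sys i k).wd (t.lab k i d))).D.mulVec ((t.sys i k).ch (t.lab k i d)).y1)
          + (1 / ((Y k).lift (E.a r k) (t.sys i k)).q) • (((Y k).ch ((t.sys i k).wd (t.lab k i d))).D * ((t.sys i k).ch (t.lab k i d)).D).mulVec
            (kbV (((t.prob (i + 1)).P k).co (t.ancAt (i + 1) k d) (t.lamAt (i + 1) k l)))
      rw [hq, hw, h0, h1', Matrix.mulVec_add, Matrix.mulVec_smul, Matrix.mulVec_mulVec, smul_add, smul_smul, add_assoc]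
      congr 3
      rw [one_div, one_div, one_div, mul_inv]

/-- velocities in two problems of the chain (`m' = m + i + 1` is a VARIABLE: `subst` after the case distinction) -/
theorem k4c_at_vel (hc : c.WFat k) (m i m' : ℕ) (hm : m' = m + i + 1) (hi : m + i < c.len) (d : (c.last.P k).W) (l : (c.last.P k).Lam) :
    kbV (((c.prob m).P k).co (c.ancAt m k d) (c.lamAt m k l)) = (((c.drop m).sys i k).ch (c.labAt m i k d)).y1
      + (1 / ((c.drop m).sys i k).q) • (((c.drop m).sys i k).ch (c.labAt m i k d)).D.mulVec (kbV (((c.prob m').P k).co (c.ancAt m' k d) (c.lamAt m' k l))) := by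
  induction c generalizing m m' with
  | nil E => exact absurd hi (by simp [K4cCh.len])
  | cons E Y r t ih =>
    cases m with
    | zero =>
      have hm' : m' = i + 1 := by omega
      subst hm'
      exact k4c_ch_vel_at (K4cCh.cons E Y r t) k hc i (by omega) d l
    | succ m =>
      cases m' with
      | zero => exact absurd hm (by omega)
      | succ m' => exact ih hc.2 m m' (by omega) (by simp only [K4cCh.len] at hi; omega) d l

end

end

end Claimed.Agent.R252
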