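import Claimed.Agent.R252.S4.Sam

/-!
# ROW 252 (S0492), unit S4C (post BP-252-S4C, helper294), file 4: THE PREPARED PROBLEM AS ONE EXPLICIT OPERATION.      Definitions only, no `sorry`.

Paper: 04 l.541-560 (coordinates of a parent), l.625-640 (omitted parents).      ONE scale.
All changes which `prop:tangent-palette` makes to the remaining problem `F` at the parent node are made BY ONE DEFINITION (no chain of intermediate problems, so every field of `KpSam.Ok` is an independent leaf):
* `T : K4cTree F`     the nodes of the window: systems `T.Q m : KbSys F` (cumulative, in the coordinates of `F`), `T.up`, and the only structural PROOF field `wd_up`.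
* `π : K4cPar T`      the parameters: retained worlds `kW`, good labels `gd m`, new base frame `z_old = O γ z_new` (`Oi γ` its inverse), hidden unit `w_new = b γ w_old`, prepared event `Ev`, palettes, reference weights.
* `T.keep π m c`      the label `c` and all its ancestors are good, and its world is retained.
* `F.k4cChg π`        the prepared problem: worlds `↥π.kW`, weights renormalised by `π.Zw`, `B = 1`.
* `T.k4cQ π m`        the node `m` in the prepared problem: labels `{c // T.keep π m c}`, selection `Ev ∩ A c × I c`.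
* `Y.k4cBack`         an output system of the prepared problem, read in `F`  (for the guard).
* `T.k4cSam π num`    the sample.
-/

set_option autoImplicit false

namespace Claimed.Agent.R252

open MeasureTheory
open scoped ENNReal BigOperators

noncomputable section

variable {v : KbVer}

/-- the nodes of a window, in the coordinates of the parent problem -/
structure K4cTree (F : KbPb v) where
  Q : ℕ → KbSys F
  up : ∀ m, (Q (m + 1)).C → (Q m).C
  wd_up : ∀ m c, (Q m).wd (up m c) = (Q (m + 1)).wd c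

/-- the parameters of the preparation -/
structure K4cPar {F : KbPb v} (T : K4cTree F) where
  /-- retained worlds (parents) -/
  kW : Set F.W
  /-- good labels -/
  gd : ∀ m, Set (T.Q m).C
  /-- `z_old = O γ z_new` -/
  O : F.W → Matrix (Fin v.j) (Fin v.j) ℝ
  /-- the inverse of `O γ` -/
  Oi : F.W → Matrix (Fin v.j) (Fin v.j) ℝ
  /-- `w_new = b γ w_old` -/
  b : F.W → ℝ
  /-- the prepared path -/
  Ev : F.W → Set (F.Lam × ℝ)
  /-- the palettes -/
  pal : F.W → Measure (KbB v)
  /-- the reference weights of the labels of the last node `G` -/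
  G : ℕ
  ref : (T.Q G).C → ℝ≥0∞

namespace K4cTree

variable {F : KbPb v} (T : K4cTree F) (π : K4cPar T)

/-- the label and all its ancestors are good, the world is retained -/
def keep : ∀ m, (T.Q m).C → Prop
  | 0, c => c ∈ π.gd 0 ∧ (T.Q 0).wd c ∈ π.kW
  | m + 1, c => c ∈ π.gd (m + 1) ∧ keep m (T.up m c)

theorem keep_wd : ∀ m (c : (T.Q m).C), T.keep π m c → (T.Q m).wd c ∈ π.kW
  | 0, _, h => h.2
  | m + 1, c, h => by
    rw [← T.wd_up m c]
    exact keep_wd m _ h.2

theorem keep_gd : ∀ m (c : (T.Q m).C), T.keep π m c → c ∈ π.gd m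
  | 0, _, h => h.1
  | _ + 1, _, h => h.1

end K4cTree

namespace K4cPar

variable {F : KbPb v} {T : K4cTree F} (π : K4cPar T)

/-- the total weight of the retained worlds -/
def Zw : ℝ≥0∞ := ∑ γ, π.kW.indicator F.om γ

/-- new trajectory coefficients -/
def co (γ : F.W) (l : F.Lam) : KbTj v :=
  ((π.Oi γ).mulVec (F.co γ l).1, (π.Oi γ).mulVec (F.co γ l).2.1, π.b γ • (F.co γ l).2.2)

/-- a test of `F` in the new coordinates -/
def tst (γ : F.W) (T₀ : KbTest v) : KbTest v := fun t z w => T₀ t ((π.O γ).mulVec z) (w / π.b γ)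

/-- a test of the prepared problem in the coordinates of `F` -/
def tstBack (γ : F.W) (T₀ : KbTest v) : KbTest v := fun t y w => T₀ t ((π.Oi γ).mulVec y) (π.b γ * w)

/-- a chart of `F` in the new coordinates -/
def cht (γ : F.W) (ch : KbChart v) : KbChart v where
  y0 := (π.Oi γ).mulVec ch.y0
  y1 := (π.Oi γ).mulVec ch.y1
  D := π.Oi γ * ch.D
  Di := ch.Di * π.O γ
  T := π.tst γ ch.T

/-- a chart of the prepared problem in the coordinates of `F` -/
def chtBack (γ : F.W) (ch : KbChart v) : KbChart v where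
  y0 := (π.O γ).mulVec ch.y0
  y1 := (π.O γ).mulVec ch.y1
  D := π.O γ * ch.D
  Di := ch.Di * π.Oi γ
  T := π.tstBack γ ch.T

/-- the new exact base of an old exact base -/
def bsN (γ : F.W) (o : ℝ × KbB v) : ℝ × KbB v := (o.1, (π.Oi γ).mulVec o.2)

end K4cPar

/-- **the prepared problem** -/
def KbPb.k4cChg (F : KbPb v) {T : K4cTree F} (π : K4cPar T) : KbPb v where
  W := π.kW
  fW := Fintype.ofFinite _
  Lam := F.Lam
  mLam := F.mLam
  om := fun γ => F.om γ / π.Zw
  nu := fun γ => F.nu γ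
  co := fun γ => π.co γ
  Sp := fun γ => F.Sp γ
  Ev := fun γ => π.Ev γ
  B := fun _ => 1
  Pst := fun γ => π.tst γ (F.Pst γ)

namespace K4cTree

variable {F : KbPb v} (T : K4cTree F) (π : K4cPar T)

/-- **the node `m` in the prepared problem** -/
def k4cQ (m : ℕ) : KbSys (F.k4cChg π) where
  n := (T.Q m).n
  C := {c : (T.Q m).C // T.keep π m c}
  fC := Fintype.ofFinite _
  wd := fun c => ⟨(T.Q m).wd c.1, T.keep_wd π m c.1 c.2⟩
  iv := fun c => (T.Q m).iv c.1
  A := fun c => (T.Q m).A c.1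
  S := fun c => π.Ev ((T.Q m).wd c.1) ∩ (T.Q m).A c.1 ×ˢ (T.Q m).I c.1
  ch := fun c => π.cht ((T.Q m).wd c.1) ((T.Q m).ch c.1)

/-- the packet of the preceding node -/
def k4cUp (m : ℕ) (c : (T.k4cQ π (m + 1)).C) : (T.k4cQ π m).C := ⟨T.up m c.1, c.2.2⟩

end K4cTree

/-- **an output system of the prepared problem, read in `F`** -/
def KbSys.k4cBack {F : KbPb v} {T : K4cTree F} {π : K4cPar T} (Y : KbSys (F.k4cChg π)) : KbSys F where
  n := Y.n
  C := Y.C
  fC := Y.fC
  wd := fun c => (Y.wd c).1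
  iv := Y.iv
  A := Y.A
  S := Y.S
  ch := fun c => π.chtBack (Y.wd c).1 (Y.ch c)

/-- the numbers of a sample -/
structure K4cNum where
  N0 : ℝ
  eps : ℝ
  Lr : ℝ
  dep : ℕ → ℝ
  Kp : ℝ
  n : ℕ
  th : ℝ
  thc : ℝ
  Mp : ℝ
  Mg : ℝ

/-- **the sample** -/
def K4cTree.k4cSam {F : KbPb v} (T : K4cTree F) (π : K4cPar T) (u : K4cNum) : KpSam v where
  P := F.k4cChg π
  N0 := u.N0
  eps := u.eps
  Lr := u.Lr
  G := π.G
  dep := u.dep
  Q := T.k4cQ π
  up := T.k4cUp π
  pal := fun γ => π.pal (γ : π.kW).1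
  ref := fun e => π.ref e.1
  Kp := u.Kp
  n := u.n
  th := u.th
  thc := u.thc
  Mp := u.Mp
  Mg := u.Mg

/-- **admissible parameters**, slack `Kc` of the frames, terminal thickness `aL` -/
structure K4cPar.Ok {F : KbPb v} {T : K4cTree F} (π : K4cPar T) (Kc aL : ℝ) : Prop where
  inv : ∀ γ, π.O γ * π.Oi γ = 1
  O_le : ∀ γ, kbMn (π.O γ) ≤ Kc
  Oi_le : ∀ γ, kbMn (π.Oi γ) ≤ Kc
  det_le : ∀ γ, |(π.O γ).det| ≤ Kc
  det_ge : ∀ γ, 1 ≤ Kc * |(π.O γ).det|
  b_pos : ∀ γ, 0 < π.b γ
  b_le : ∀ γ, π.b γ ≤ 2 * F.B γ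
  b_ge : ∀ γ, F.B γ ≤ 2 * π.b γ
  /-- the terminal hidden bins are EXACTLY preserved -/
  b_dy : ∀ γ, kbDy (aL / F.B γ) * π.b γ = kbDy aL
  v1 : v = KbVer.one → ∀ γ, π.b γ = 1
  Ev_meas : ∀ γ, MeasurableSet (π.Ev γ)
  Ev_sub : ∀ γ, π.Ev γ ⊆ F.Ev γ
  Zw_pos : π.Zw ≠ 0

/-- the canonical hidden unit -/
def KbPb.k4cB (F : KbPb v) (aL : ℝ) (γ : F.W) : ℝ := kbDy aL / kbDy (aL / F.B γ)

/-- Stores the on-demand equation lemmas of the definitions above in THIS module (rule 6 hygiene). -/
theorem k4c_chg_eqns_cite : True := by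
  have := @K4cTree.keep.eq_1
  have := @K4cTree.keep.eq_2
  have := @K4cPar.Zw.eq_1
  have := @K4cPar.co.eq_1
  have := @K4cPar.tst.eq_1
  have := @K4cPar.tstBack.eq_1
  have := @K4cPar.cht.eq_1
  have := @K4cPar.chtBack.eq_1
  have := @K4cPar.bsN.eq_1
  have := @KbPb.k4cChg.eq_1
  have := @K4cTree.k4cQ.eq_1
  have := @K4cTree.k4cUp.eq_1
  have := @KbSys.k4cBack.eq_1
  have := @K4cTree.k4cSam.eq_1
  have := @KbPb.k4cB.eq_1
  trivial

end

end Claimed.Agent.R252
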