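import Claimed.Agent.R252.S4.Crit
import Claimed.Agent.R252.S4C.ChgDefs
import Claimed.Agent.R252.Norm.Mass

/-!
# ROW 252 (S0492), unit S4C (post BP-252-S4C, helper294), file 7: CHAINS OF NORMALISATIONS.      Definitions only, no `sorry`.

A path `π : KpPath v` has `π.E (g+1) = (π.E g).norm (π.Y g) (π.r g)` only PROPOSITIONALLY.   `K4cCh v E` is the same object with DEFINITIONAL steps (an inductive family over the problem), so that everything cumulative is defined by structural recursion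
and proved by induction, WITHOUT casts.   The only cast is in `k4cOfPath`; facts pass through it by `k4c_cast_iff` (`subst`).
For `c : K4cCh v E`, sample `k`:
* `c.sys m : E.Sys`       the node `m` (steps `0..m` composed by `lift`), in the coordinates of `E`;   `c.dp m` its depth;   `c.up k m`, `c.tree k : K4cTree (E.P k)`.
* `c.prob m`, `c.drop m`  the remaining problem after `m` steps and the rest of the chain;   `c.last` the deepest problem.
* THE COMMON SPACE of all windows is the incidence space of the deepest problem: `c.anc k`, `c.lam k`, `c.inc k d` (world, trajectory, incidence of `E` of a world, trajectory, incidence of `c.last`), `c.lab k m` (label at the node `m`),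
  and the same relative to `c.drop m`: `c.ancAt m k`, `c.lamAt m k`, `c.labAt m i k`.      (`lam` is the identity in disguise: `(Y.norm a).Lam = P.Lam` by `rfl`.)
* `c.pth k Gd γ`          the final path of the chain through the deepest worlds `d ∈ Gd`, in the coordinates of `E`;   `c.Zp k` the product of the `Z`;   `c.incAt`, `c.pthAt`, `c.ZpAt` the same relative to `c.prob m`.
-/

set_option autoImplicit false
set_option linter.unusedVariables false

namespace Claimed.Agent.R252

open MeasureTheory Filter Topology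
open Claimed.Agent.R255 (uf)
open scoped ENNReal BigOperators

noncomputable section

variable {v : KbVer}

/-- the trivial system: every world is one chart (junk value beyond the end of a chain) -/
def KbPb.k4cTriv (P : KbPb v) : KbSys P where
  n := 0
  C := P.W
  fC := P.fW
  wd := id
  iv := fun _ => 0
  A := P.Sp
  S := P.Ev
  ch := fun γ => ⟨0, 0, 1, 1, P.Pst γ⟩

/-- **a chain of normalisations** -/
inductive K4cCh (v : KbVer) : KbEx v → Type 1
  | nil (E : KbEx v) : K4cCh v E
  | cons (E : KbEx v) (Y : E.Sys) (r : ℝ) (t : K4cCh v (E.norm Y r)) : K4cCh v E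

namespace K4cCh

/-- number of steps -/
def len : ∀ {E : KbEx v}, K4cCh v E → ℕ
  | _, nil _ => 0
  | _, cons _ _ _ t => t.len + 1

/-- the node `m` in the coordinates of `E` -/
def sys : ∀ {E : KbEx v}, K4cCh v E → ℕ → E.Sys
  | E, nil _, _ => fun k => (E.P k).k4cTriv
  | _, cons _ Y _ _, 0 => Y
  | E, cons _ Y r t, m + 1 => E.lift Y r (t.sys m)

/-- depth of the node `m` -/
def dp : ∀ {E : KbEx v}, K4cCh v E → ℕ → ℝ
  | _, nil _, _ => 0
  | _, cons _ _ r _, 0 => r
  | _, cons _ _ r t, m + 1 => r + t.dp m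

/-- the packet of the preceding node -/
def up : ∀ {E : KbEx v} (c : K4cCh v E) (k m : ℕ), (c.sys (m + 1) k).C → (c.sys m k).C
  | _, nil _, _, _ => id
  | _, cons _ _ _ t, k, 0 => fun d => (t.sys 0 k).wd d
  | _, cons _ _ _ t, k, m + 1 => fun d => t.up k m d

theorem wd_up : ∀ {E : KbEx v} (c : K4cCh v E) (k m : ℕ) (d : (c.sys (m + 1) k).C), (c.sys m k).wd (c.up k m d) = (c.sys (m + 1) k).wd d
  | _, nil _, _, _, _ => rfl
  | _, cons _ _ _ _, _, 0, _ => rfl
  | _, cons _ Y _ t, k, m + 1, d => congrArg (Y k).wd (t.wd_up k m d)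

/-- the nodes of a chain as a tree -/
def tree {E : KbEx v} (c : K4cCh v E) (k : ℕ) : K4cTree (E.P k) where
  Q := fun m => c.sys m k
  up := c.up k
  wd_up := c.wd_up k

/-- the remaining problem after `m` steps -/
def prob : ∀ {E : KbEx v}, K4cCh v E → ℕ → KbEx v
  | E, nil _, _ => E
  | E, cons _ _ _ _, 0 => E
  | _, cons _ _ _ t, m + 1 => t.prob m

/-- the rest of the chain after `m` steps -/
def drop : ∀ {E : KbEx v} (c : K4cCh v E) (m : ℕ), K4cCh v (c.prob m)
  | E, nil _, _ => nil E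
  | E, cons _ Y r t, 0 => cons E Y r t
  | _, cons _ _ _ t, m + 1 => t.drop m

/-- the deepest problem -/
def last : ∀ {E : KbEx v}, K4cCh v E → KbEx v
  | E, nil _ => E
  | _, cons _ _ _ t => t.last

/-- the world of `E` of a world of the deepest problem -/
def anc : ∀ {E : KbEx v} (c : K4cCh v E) (k : ℕ), (c.last.P k).W → (E.P k).W
  | _, nil _, _ => id
  | _, cons _ Y _ t, k => fun d => (Y k).wd (t.anc k d)

/-- the trajectory (the identity in disguise) -/
def lam : ∀ {E : KbEx v} (c : K4cCh v E) (k : ℕ), (c.last.P k).Lam → (E.P k).Lam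
  | _, nil _, _ => id
  | _, cons _ _ _ t, k => fun l => t.lam k l

/-- the incidence of `E` of an incidence of the deepest problem -/
def inc : ∀ {E : KbEx v} (c : K4cCh v E) (k : ℕ), (c.last.P k).W → (c.last.P k).Lam × ℝ → (E.P k).Lam × ℝ
  | _, nil _, _ => fun _ => id
  | _, cons _ Y _ t, k => fun d x => (Y k).incOf (t.anc k d) (t.inc k d x)

/-- the label at the node `m` of a world of the deepest problem -/
def lab : ∀ {E : KbEx v} (c : K4cCh v E) (k m : ℕ), (c.last.P k).W → (c.sys m k).C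
  | _, nil _, _, _ => id
  | _, cons _ _ _ t, k, 0 => fun d => t.anc k d
  | _, cons _ _ _ t, k, m + 1 => fun d => t.lab k m d

/-- the final path through the deepest worlds `d ∈ Gd`, in the coordinates of `E` -/
def pth : ∀ {E : KbEx v} (c : K4cCh v E) (k : ℕ), Set (c.last.P k).W → (E.P k).W → Set ((E.P k).Lam × ℝ)
  | _, nil _, _ => fun Gd γ => {_x | γ ∈ Gd}
  | _, cons _ Y _ t, k => fun Gd γ => ⋃ c', ⋃ (_ : (Y k).wd c' = γ), ((Y k).k2nBack c' ⁻¹' t.pth k Gd c' ∩ (Y k).S c')

/-- the product of the normalising constants -/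
def Zp : ∀ {E : KbEx v}, K4cCh v E → ℕ → ℝ≥0∞
  | _, nil _, _ => 1
  | _, cons _ Y _ t, k => (Y k).Z * t.Zp k

/-- the world of `c.prob m` of a world of the deepest problem -/
def ancAt : ∀ {E : KbEx v} (c : K4cCh v E) (m k : ℕ), (c.last.P k).W → ((c.prob m).P k).W
  | _, nil _, _, _ => id
  | _, cons E Y r t, 0, k => (cons E Y r t).anc k
  | _, cons _ _ _ t, m + 1, k => t.ancAt m k

/-- the trajectory in `c.prob m` -/
def lamAt : ∀ {E : KbEx v} (c : K4cCh v E) (m k : ℕ), (c.last.P k).Lam → ((c.prob m).P k).Lam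
  | _, nil _, _, _ => id
  | _, cons E Y r t, 0, k => (cons E Y r t).lam k
  | _, cons _ _ _ t, m + 1, k => t.lamAt m k

/-- the incidence in `c.prob m` -/
def incAt : ∀ {E : KbEx v} (c : K4cCh v E) (m k : ℕ), (c.last.P k).W → (c.last.P k).Lam × ℝ → ((c.prob m).P k).Lam × ℝ
  | _, nil _, _, _ => fun _ => id
  | _, cons E Y r t, 0, k => (cons E Y r t).inc k
  | _, cons _ _ _ t, m + 1, k => t.incAt m k

/-- the final path in the coordinates of `c.prob m` -/
def pthAt : ∀ {E : KbEx v} (c : K4cCh v E) (m k : ℕ), Set (c.last.P k).W → ((c.prob m).P k).W → Set (((c.prob m).P k).Lam × ℝ)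
  | _, nil E, _, k => (nil E).pth k
  | _, cons E Y r t, 0, k => (cons E Y r t).pth k
  | _, cons _ _ _ t, m + 1, k => t.pthAt m k

/-- the product of the normalising constants from `c.prob m` on -/
def ZpAt : ∀ {E : KbEx v}, K4cCh v E → ℕ → ℕ → ℝ≥0∞
  | _, nil _, _, _ => 1
  | _, cons E Y r t, 0, k => (cons E Y r t).Zp k
  | _, cons _ _ _ t, m + 1, k => t.ZpAt m k

/-- the label at the node `i` of the chain `c.drop m` -/
def labAt : ∀ {E : KbEx v} (c : K4cCh v E) (m i k : ℕ), (c.last.P k).W → ((c.drop m).sys i k).C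
  | _, nil _, _, _, _ => id
  | _, cons E Y r t, 0, i, k => (cons E Y r t).lab k i
  | _, cons _ _ _ t, m + 1, i, k => t.labAt m i k

/-- a property of all steps: `Φ i E Y r` for the step number `i` -/
def All : ∀ {E : KbEx v}, K4cCh v E → (ℕ → ∀ E : KbEx v, E.Sys → ℝ → Prop) → Prop
  | _, nil _, _ => True
  | _, cons E Y r t, Φ => Φ 0 E Y r ∧ t.All fun i => Φ (i + 1)

end K4cCh

/-- transport of a chain along an equality of problems -/
def k4cCast {E E' : KbEx v} (h : E' = E) (c : K4cCh v E') : K4cCh v E := h ▸ c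

theorem k4c_cast_iff (Φ : ∀ E : KbEx v, K4cCh v E → Prop) {E E' : KbEx v} (h : E' = E) (c : K4cCh v E') : Φ E (k4cCast h c) ↔ Φ E' c := by
  subst h
  rfl

open Classical in
/-- **the chain of the steps `g, g+1, .., g+n-1` of a path** (stops where the step equation fails) -/
def k4cOfPath (π : KpPath v) : ∀ (n g : ℕ), K4cCh v (π.E g)
  | 0, g => K4cCh.nil _
  | n + 1, g =>
    if h : π.E (g + 1) = (π.E g).norm (π.Y g) (π.r g) then K4cCh.cons _ (π.Y g) (π.r g) (k4cCast h (k4cOfPath π n (g + 1))) else K4cCh.nil _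

/-- the requirements on one step (= the fields of `KpPath.Ok`) -/
structure K4cStep (d' S η : ℝ) (f : ℝ → ℝ → ℝ) (r₀ h nar : ℝ) (E : KbEx v) (Y : E.Sys) (r : ℝ) : Prop where
  r_eq : r = r₀
  cap : E.Cap d' S η f
  r_pos : 0 < r
  r_lt : r < E.L
  sys : E.IsTrueSys f Y r h
  sat : E.IsSat Y (f r 0)
  own : E.IsKnown Y r
  nar : v = KbVer.two → E.Narrow Y nar

/-- all steps are prepared true systems; `f i, r i, h i, nar i` = profile, depth, cost, narrowness of the step `i` -/
def K4cCh.Ok {E : KbEx v} (c : K4cCh v E) (d' S η : ℝ) (f : ℕ → ℝ → ℝ → ℝ) (r h nar : ℕ → ℝ) : Prop :=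
  c.All fun i E Y r' => K4cStep d' S η (f i) (r i) (h i) (nar i) E Y r'

/-- the structural requirements at the sample `k` -/
def K4cCh.WFat {E : KbEx v} (c : K4cCh v E) (k : ℕ) : Prop :=
  c.All fun _ E Y _ => (E.P k).WF ∧ (Y k).WF ∧ (Y k).Z ≠ 0 ∧ ∀ c', (Y k).nuC c' ≠ 0

/-- Stores the on-demand equation lemmas of the definitions above in THIS module (rule 6 hygiene). -/
theorem k4c_chain_eqns_cite : True := by
  have := @KbPb.k4cTriv.eq_1
  have := @K4cCh.len.eq_1
  have := @K4cCh.len.eq_2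
  have := @K4cCh.sys.eq_1
  have := @K4cCh.sys.eq_2
  have := @K4cCh.sys.eq_3
  have := @K4cCh.dp.eq_1
  have := @K4cCh.dp.eq_2
  have := @K4cCh.dp.eq_3
  have := @K4cCh.up.eq_1
  have := @K4cCh.up.eq_2
  have := @K4cCh.up.eq_3
  have := @K4cCh.tree.eq_1
  have := @K4cCh.prob.eq_1
  have := @K4cCh.prob.eq_2
  have := @K4cCh.prob.eq_3
  have := @K4cCh.drop.eq_1
  have := @K4cCh.drop.eq_2
  have := @K4cCh.drop.eq_3
  have := @K4cCh.last.eq_1
  have := @K4cCh.last.eq_2
  have := @K4cCh.anc.eq_1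
  have := @K4cCh.anc.eq_2
  have := @K4cCh.lam.eq_1
  have := @K4cCh.lam.eq_2
  have := @K4cCh.inc.eq_1
  have := @K4cCh.inc.eq_2
  have := @K4cCh.lab.eq_1
  have := @K4cCh.lab.eq_2
  have := @K4cCh.lab.eq_3
  have := @K4cCh.pth.eq_1
  have := @K4cCh.pth.eq_2
  have := @K4cCh.Zp.eq_1
  have := @K4cCh.Zp.eq_2
  have := @K4cCh.ancAt.eq_1
  have := @K4cCh.ancAt.eq_2
  have := @K4cCh.ancAt.eq_3
  have := @K4cCh.lamAt.eq_1
  have := @K4cCh.lamAt.eq_2
  have := @K4cCh.lamAt.eq_3
  have := @K4cCh.incAt.eq_1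
  have := @K4cCh.incAt.eq_2
  have := @K4cCh.incAt.eq_3
  have := @K4cCh.pthAt.eq_1
  have := @K4cCh.pthAt.eq_2
  have := @K4cCh.pthAt.eq_3
  have := @K4cCh.ZpAt.eq_1
  have := @K4cCh.ZpAt.eq_2
  have := @K4cCh.ZpAt.eq_3
  have := @K4cCh.labAt.eq_1
  have := @K4cCh.labAt.eq_2
  have := @K4cCh.labAt.eq_3
  have := @K4cCh.All.eq_1
  have := @K4cCh.All.eq_2
  have := @k4cCast.eq_1
  have := @k4cOfPath.eq_1
  have := @k4cOfPath.eq_2
  have := @K4cCh.Ok.eq_1
  have := @K4cCh.WFat.eq_1
  trivial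

end

end Claimed.Agent.R252
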