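import Claimed.Agent.R252.S4C.ChgDefs
import Claimed.Agent.R252.Norm.Wf

/-!
# ROW 252 (S0492), unit S4C (post BP-252-S4C, helper294), file 5: TRANSPORT THROUGH THE PREPARATION.      CONTRACT file: the `sorry`s are the leaves L-252-S4C-CHG-*.

ONE scale, paper-free plumbing: `F.k4cChg π`, `T.k4cQ π m`, `Y.k4cBack` of `S4C/ChgDefs.lean`.   `γ : F.W` old world; the worlds of the prepared problem are `γ : π.kW` (coercion `γ.1`).
New coordinates: `z = Oi y`, `w' = b w`, tests `T'(t,z,w') = T(t, O z, w'/b)`, `B' = 1` (`B/2 ≤ b ≤ 2B`).   All slacks are multiplied by at most `4 Kc`.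
Useful: `Matrix.mul_eq_one_comm`, `Matrix.mulVec_mulVec`, `Matrix.mulVec_add`, `Matrix.mulVec_smul`, `Matrix.det_mul`; `‖M.mulVec x‖ ≤ kbMn M * ‖x‖` is `k4c_mulVec_le` below; central differences of quadratics: unfold `KbIsQuad`, `KbQuad.ev`, `ring`.
-/

set_option autoImplicit false

namespace Claimed.Agent.R252

open MeasureTheory
open scoped ENNReal BigOperators

noncomputable section

variable {v : KbVer} {F : KbPb v} {T : K4cTree F} (π : K4cPar T)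

/-! ## CHG-1 : linear algebra and tests (~250 l.) -/

theorem k4c_mulVec_le {m : ℕ} (M : Matrix (Fin m) (Fin m) ℝ) (x : Fin m → ℝ) : ‖M.mulVec x‖ ≤ kbMn M * ‖x‖ := by
  have hM : 0 ≤ kbMn M := Finset.sum_nonneg (fun i _ => Finset.sum_nonneg (fun k _ => abs_nonneg _))
  rw [pi_norm_le_iff_of_nonneg (mul_nonneg hM (norm_nonneg x))]
  intro i
  rw [Real.norm_eq_abs]
  calc |M.mulVec x i| = |∑ k, M i k * x k| := rfl
    _ ≤ ∑ k, |M i k * x k| := Finset.abs_sum_le_sum_abs _ _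
    _ ≤ ∑ k, |M i k| * ‖x‖ := by
        refine Finset.sum_le_sum (fun k _ => ?_)
        rw [abs_mul]
        exact mul_le_mul_of_nonneg_left (norm_le_pi_norm x k) (abs_nonneg _)
    _ = (∑ k, |M i k|) * ‖x‖ := (Finset.sum_mul _ _ _).symm
    _ ≤ kbMn M * ‖x‖ := by
        refine mul_le_mul_of_nonneg_right ?_ (norm_nonneg x)
        exact Finset.single_le_sum (f := fun i => ∑ k, |M i k|)
          (fun i _ => Finset.sum_nonneg (fun k _ => abs_nonneg _)) (Finset.mem_univ i)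

theorem k4c_kbMn_mul {m : ℕ} (M M' : Matrix (Fin m) (Fin m) ℝ) : kbMn (M * M') ≤ kbMn M * kbMn M' := by
  unfold kbMn
  rw [Finset.sum_mul]
  refine Finset.sum_le_sum (fun i _ => ?_)
  calc ∑ k, |(M * M') i k| ≤ ∑ k, ∑ l, |M i l| * |M' l k| := by
        refine Finset.sum_le_sum (fun k _ => ?_)
        rw [Matrix.mul_apply]
        refine le_trans (Finset.abs_sum_le_sum_abs _ _) (le_of_eq ?_)
        exact Finset.sum_congr rfl (fun l _ => abs_mul _ _)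
    _ = ∑ l, |M i l| * ∑ k, |M' l k| := by
        rw [Finset.sum_comm]
        exact Finset.sum_congr rfl (fun l _ => (Finset.mul_sum _ _ _).symm)
    _ ≤ ∑ l, |M i l| * ∑ i', ∑ k, |M' i' k| := by
        refine Finset.sum_le_sum (fun l _ => mul_le_mul_of_nonneg_left ?_ (abs_nonneg _))
        exact Finset.single_le_sum (f := fun i' => ∑ k, |M' i' k|)
          (fun i _ => Finset.sum_nonneg (fun k _ => abs_nonneg _)) (Finset.mem_univ l)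
    _ = (∑ l, |M i l|) * ∑ i', ∑ k, |M' i' k| := (Finset.sum_mul _ _ _).symm

theorem k4c_chg_Y (γ : F.W) (l : F.Lam) (t : ℝ) : kbY (π.co γ l) t = (π.Oi γ).mulVec (kbY (F.co γ l) t) := by
  unfold kbY K4cPar.co
  rw [Matrix.mulVec_add, Matrix.mulVec_smul]

theorem k4c_chg_V (γ : F.W) (l : F.Lam) : kbV (π.co γ l) = (π.Oi γ).mulVec (kbV (F.co γ l)) := rfl

theorem k4c_chg_W (γ : F.W) (l : F.Lam) (t : ℝ) : kbW (π.co γ l) t = π.b γ * kbW (F.co γ l) t := by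
  unfold kbW K4cPar.co
  rw [Finset.mul_sum]
  refine Finset.sum_congr rfl (fun i _ => ?_)
  simp only [Pi.smul_apply, smul_eq_mul]
  ring

variable {π}

/-- auxiliary: `Oi` is also a left inverse -/
theorem k4c_inv' {Kc aL : ℝ} (h : π.Ok Kc aL) (γ : F.W) : π.Oi γ * π.O γ = 1 :=
  mul_eq_one_comm.1 (h.inv γ)

/-- auxiliary: central differences of a quadratic with step `s` -/
theorem k4c_quad_step {T₀ : KbTest v} (hq : KbIsQuad T₀) (t : ℝ) (y : KbB v) (w s : ℝ) :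
    T₀ t y (w + s) - T₀ t y (w - s) = s * (T₀ t y (w + 1) - T₀ t y (w - 1)) ∧
      T₀ t y (w + s) - 2 * T₀ t y w + T₀ t y (w - s) = s ^ 2 * (T₀ t y (w + 1) - 2 * T₀ t y w + T₀ t y (w - 1)) := by
  obtain ⟨Q, hQ⟩ := hq
  simp only [hQ, KbQuad.ev]
  constructor <;> ring

/-- auxiliary: a quadratic after a linear change of `y` and a dilation of `w` -/
theorem k4c_quad_lin {T₀ : KbTest v} (hq : KbIsQuad T₀) (M : Matrix (Fin v.j) (Fin v.j) ℝ) (c : ℝ) :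
    KbIsQuad fun t z w => T₀ t (M.mulVec z) (c * w) := by
  obtain ⟨Q, hQ⟩ := hq
  refine ⟨⟨Q.c0, Q.ct, Matrix.vecMul Q.cy M, Q.cw * c, Q.ctt, Matrix.vecMul Q.cty M, Q.ctw * c,
    M.transpose * Q.cyy * M, c • Matrix.vecMul Q.cyw M, Q.cww * c ^ 2⟩, ?_⟩
  intro t z w
  simp only [hQ, KbQuad.ev]
  have e1 : ∀ u : KbB v, Matrix.vecMul u M ⬝ᵥ z = u ⬝ᵥ M.mulVec z := fun u => (Matrix.dotProduct_mulVec u M z).symm
  have e2 : z ⬝ᵥ (M.transpose * Q.cyy * M).mulVec z = M.mulVec z ⬝ᵥ Q.cyy.mulVec (M.mulVec z) := by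
    rw [← Matrix.mulVec_mulVec, ← Matrix.mulVec_mulVec, Matrix.dotProduct_mulVec, Matrix.vecMul_transpose]
  rw [e1, e1, e2, smul_dotProduct, e1, smul_eq_mul]
  ring

/-- values of tests are preserved -/
theorem k4c_chg_X {Kc aL : ℝ} (h : π.Ok Kc aL) (γ : F.W) (T₀ : KbTest v) (l : F.Lam) (t : ℝ) :
    kbX (π.tst γ T₀) (π.co γ l) t = kbX T₀ (F.co γ l) t := by
  unfold kbX K4cPar.tst
  rw [k4c_chg_Y, k4c_chg_W, Matrix.mulVec_mulVec, h.inv γ, Matrix.one_mulVec, mul_div_cancel_left₀ _ (h.b_pos γ).ne']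

/-- `∂_w` is divided by `b` -/
theorem k4c_chg_Dw {Kc aL : ℝ} (h : π.Ok Kc aL) (γ : F.W) (T₀ : KbTest v) (hq : KbIsQuad T₀) (l : F.Lam) (t : ℝ) :
    kbX (kbDw (π.tst γ T₀)) (π.co γ l) t = kbX (kbDw T₀) (F.co γ l) t / π.b γ := by
  have hb := (h.b_pos γ).ne'
  unfold kbX kbDw K4cPar.tst
  rw [k4c_chg_Y, k4c_chg_W, Matrix.mulVec_mulVec, h.inv γ, Matrix.one_mulVec]
  have e1 : (π.b γ * kbW (F.co γ l) t + 1) / π.b γ = kbW (F.co γ l) t + (π.b γ)⁻¹ := by field_simp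
  have e2 : (π.b γ * kbW (F.co γ l) t - 1) / π.b γ = kbW (F.co γ l) t - (π.b γ)⁻¹ := by field_simp
  rw [e1, e2, (k4c_quad_step hq t _ _ _).1]
  field_simp

/-- `∂_ww` is divided by `b²` -/
theorem k4c_chg_Dww {Kc aL : ℝ} (h : π.Ok Kc aL) (γ : F.W) (T₀ : KbTest v) (hq : KbIsQuad T₀) (t : ℝ) (z : KbB v) (w : ℝ) :
    kbDww (π.tst γ T₀) t z w = kbDww T₀ t ((π.O γ).mulVec z) (w / π.b γ) / π.b γ ^ 2 := by
  have hb := (h.b_pos γ).ne'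
  unfold kbDww K4cPar.tst
  have e1 : (w + 1) / π.b γ = w / π.b γ + (π.b γ)⁻¹ := by field_simp
  have e2 : (w - 1) / π.b γ = w / π.b γ - (π.b γ)⁻¹ := by field_simp
  rw [e1, e2, (k4c_quad_step hq t _ _ _).2]
  field_simp

theorem k4c_chg_adm {Kc aL : ℝ} (h : π.Ok Kc aL) (γ : F.W) (T₀ : KbTest v) (hT : KbAdm T₀) : KbAdm (π.tst γ T₀) := by
  refine ⟨?_, ?_⟩
  · have h1 := k4c_quad_lin hT.1 (π.O γ) (π.b γ)⁻¹
    have e : π.tst γ T₀ = fun t z w => T₀ t ((π.O γ).mulVec z) ((π.b γ)⁻¹ * w) := by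
      funext t z w
      unfold K4cPar.tst
      rw [div_eq_inv_mul]
    rw [e]; exact h1
  · intro hv t y w
    unfold K4cPar.tst
    rw [h.v1 hv γ, div_one, div_one]
    exact hT.2 hv t _ w

/-- the same four facts for the way back -/
theorem k4c_back_X {Kc aL : ℝ} (h : π.Ok Kc aL) (γ : F.W) (T₀ : KbTest v) (l : F.Lam) (t : ℝ) :
    kbX (π.tstBack γ T₀) (F.co γ l) t = kbX T₀ (π.co γ l) t := by
  unfold kbX K4cPar.tstBack
  rw [k4c_chg_Y, k4c_chg_W]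

theorem k4c_back_Dw {Kc aL : ℝ} (h : π.Ok Kc aL) (γ : F.W) (T₀ : KbTest v) (hq : KbIsQuad T₀) (l : F.Lam) (t : ℝ) :
    kbX (kbDw (π.tstBack γ T₀)) (F.co γ l) t = π.b γ * kbX (kbDw T₀) (π.co γ l) t := by
  unfold kbX kbDw K4cPar.tstBack
  rw [k4c_chg_Y, k4c_chg_W]
  have e1 : π.b γ * (kbW (F.co γ l) t + 1) = π.b γ * kbW (F.co γ l) t + π.b γ := by ring
  have e2 : π.b γ * (kbW (F.co γ l) t - 1) = π.b γ * kbW (F.co γ l) t - π.b γ := by ring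
  rw [e1, e2, (k4c_quad_step hq t _ _ _).1]
  ring

theorem k4c_back_Dww {Kc aL : ℝ} (h : π.Ok Kc aL) (γ : F.W) (T₀ : KbTest v) (hq : KbIsQuad T₀) (t : ℝ) (y : KbB v) (w : ℝ) :
    kbDww (π.tstBack γ T₀) t y w = π.b γ ^ 2 * kbDww T₀ t ((π.Oi γ).mulVec y) (π.b γ * w) := by
  unfold kbDww K4cPar.tstBack
  have e1 : π.b γ * (w + 1) = π.b γ * w + π.b γ := by ring
  have e2 : π.b γ * (w - 1) = π.b γ * w - π.b γ := by ring
  rw [e1, e2, (k4c_quad_step hq t _ _ _).2]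

theorem k4c_back_adm {Kc aL : ℝ} (h : π.Ok Kc aL) (γ : F.W) (T₀ : KbTest v) (hT : KbAdm T₀) : KbAdm (π.tstBack γ T₀) := by
  refine ⟨k4c_quad_lin hT.1 (π.Oi γ) (π.b γ), ?_⟩
  intro hv t y w
  unfold K4cPar.tstBack
  rw [h.v1 hv γ, one_mul, one_mul]
  exact hT.2 hv t _ w

/-! ## CHG-2 : observations and masses of the prepared problem (~200 l.) -/

theorem k4c_chg_bs (γ : π.kW) (x : F.Lam × ℝ) : (F.k4cChg π).bs γ x = π.bsN γ.1 (F.bs γ.1 x) := by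
  show (x.2, kbY (π.co γ.1 x.1) x.2) = (x.2, (π.Oi γ.1).mulVec (kbY (F.co γ.1 x.1) x.2))
  rw [k4c_chg_Y]

theorem k4c_chg_hw (γ : π.kW) (x : F.Lam × ℝ) : (F.k4cChg π).hw γ x = π.b γ.1 * F.hw γ.1 x := by
  show kbW (π.co γ.1 x.1) x.2 = π.b γ.1 * kbW (F.co γ.1 x.1) x.2
  rw [k4c_chg_W]

theorem k4c_chg_sig {Kc aL : ℝ} (h : π.Ok Kc aL) (γ : π.kW) (x : F.Lam × ℝ) : (F.k4cChg π).sig γ x = F.sig γ.1 x := by
  show kbX (π.tst γ.1 (F.Pst γ.1)) (π.co γ.1 x.1) x.2 = kbX (F.Pst γ.1) (F.co γ.1 x.1) x.2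
  exact k4c_chg_X h γ.1 _ x.1 x.2

/-- auxiliary: local copy of `k2a_dy_pos` -/
theorem k4c_dy_pos (x : ℝ) : 0 < kbDy x := by
  unfold kbDy
  positivity

/-- auxiliary: local copy of `k2a_dy_bounds` -/
theorem k4c_dy_bounds {x : ℝ} (hx : 0 < x) : x ≤ kbDy x ∧ kbDy x < 2 * x := by
  have h2 : (0 : ℝ) < 2 := by norm_num
  have h21 : (1 : ℝ) < 2 := by norm_num
  have hL : (2 : ℝ) ^ Real.logb 2 x = x := Real.rpow_logb h2 (by norm_num) hx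
  have e : kbDy x = (2 : ℝ) ^ ((⌈Real.logb 2 x⌉ : ℤ) : ℝ) := by
    unfold kbDy
    rw [Real.rpow_intCast]
  rw [e]
  constructor
  · calc x = (2 : ℝ) ^ Real.logb 2 x := hL.symm
      _ ≤ _ := Real.rpow_le_rpow_of_exponent_le h21.le (Int.le_ceil _)
  · calc (2 : ℝ) ^ ((⌈Real.logb 2 x⌉ : ℤ) : ℝ) < (2 : ℝ) ^ (Real.logb 2 x + 1) :=
          Real.rpow_lt_rpow_of_exponent_lt h21 (Int.ceil_lt_add_one _)
      _ = 2 * x := by rw [Real.rpow_add h2, hL, Real.rpow_one, mul_comm]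

/-- the terminal hidden label is EXACTLY preserved (`b_dy`: `⌊b w / kbDy aL⌋ = ⌊w / kbDy (aL / B)⌋`) -/
theorem k4c_chg_hid {Kc aL : ℝ} (h : π.Ok Kc aL) (γ : π.kW) (x : F.Lam × ℝ) : (F.k4cChg π).hid aL γ x = F.hid aL γ.1 x := by
  show ⌊(F.k4cChg π).hw γ x / kbDy (aL / 1)⌋ = ⌊F.hw γ.1 x / kbDy (aL / F.B γ.1)⌋
  rw [k4c_chg_hw, div_one, ← h.b_dy γ.1]
  congr 1
  have hb := (h.b_pos γ.1).ne'
  have hd := (k4c_dy_pos (aL / F.B γ.1)).ne'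
  field_simp

theorem k4c_chg_mu {Kc aL : ℝ} (h : π.Ok Kc aL) (γ : π.kW) : (F.k4cChg π).mu γ = (F.mu γ.1).restrict (π.Ev γ.1) := by
  show ((F.nu γ.1).prod KbPb.tm).restrict (π.Ev γ.1) = (((F.nu γ.1).prod KbPb.tm).restrict (F.Ev γ.1)).restrict (π.Ev γ.1)
  rw [Measure.restrict_restrict (h.Ev_meas γ.1), Set.inter_eq_left.2 (h.Ev_sub γ.1)]

/-- `Zw ≤ 1` -/
theorem k4c_Zw_le (hF : F.WF) : π.Zw ≤ 1 := by
  unfold K4cPar.Zw
  rw [← hF.om_sum]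
  exact Finset.sum_le_sum (fun γ _ => Set.indicator_le_self _ _ γ)

/-- auxiliary: a sum over a subtype, for any `Fintype` instance -/
theorem k4c_sum_sub {α : Type} [Fintype α] (s : Set α) (inst : Fintype s) (f : α → ℝ≥0∞) :
    @Finset.sum s ℝ≥0∞ _ (@Finset.univ s inst) (fun γ => f γ.1) = ∑ γ, s.indicator f γ := by
  classical
  rw [← Finset.sum_subtype (Finset.univ.filter (fun γ : α => γ ∈ s)) (by intro x; simp) f, Finset.sum_filter]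
  refine Finset.sum_congr rfl (fun γ _ => ?_)
  by_cases hγ : γ ∈ s <;> simp [hγ]

/-- weighted masses (sum over the subtype = sum of the indicator; `Finset.sum_subtype`/`Fintype.sum_subtype`-type reindexing, any `Fintype` instance: `Subsingleton (Fintype _)`) -/
theorem k4c_chg_mass {Kc aL : ℝ} (h : π.Ok Kc aL) (S : F.W → Set (F.Lam × ℝ)) :
    (F.k4cChg π).mass (fun γ => S γ.1) = F.mass (fun γ => {x | γ ∈ π.kW ∧ x ∈ π.Ev γ ∧ x ∈ S γ}) / π.Zw := by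
  classical
  have hmu : ∀ γ : π.kW, (F.k4cChg π).mu γ (S γ.1) = F.mu γ.1 {x | γ.1 ∈ π.kW ∧ x ∈ π.Ev γ.1 ∧ x ∈ S γ.1} := by
    intro γ
    have e : S γ.1 ∩ π.Ev γ.1 = {x | γ.1 ∈ π.kW ∧ x ∈ π.Ev γ.1 ∧ x ∈ S γ.1} := by
      ext x
      constructor
      · rintro ⟨a, b⟩; exact ⟨γ.2, b, a⟩
      · rintro ⟨_, b, a⟩; exact ⟨a, b⟩
    calc (F.k4cChg π).mu γ (S γ.1) = ((F.mu γ.1).restrict (π.Ev γ.1)) (S γ.1) :=
          congrArg (fun m : Measure (F.Lam × ℝ) => m (S γ.1)) (k4c_chg_mu h γ)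
      _ = F.mu γ.1 (S γ.1 ∩ π.Ev γ.1) := Measure.restrict_apply' (h.Ev_meas γ.1)
      _ = _ := congrArg _ e
  have key : (F.k4cChg π).mass (fun γ => S γ.1)
      = @Finset.sum π.kW ℝ≥0∞ _ (@Finset.univ π.kW (F.k4cChg π).fW)
        (fun γ => (fun γ : F.W => F.om γ * F.mu γ {x | γ ∈ π.kW ∧ x ∈ π.Ev γ ∧ x ∈ S γ} * π.Zw⁻¹) γ.1) := by
    refine Finset.sum_congr rfl (fun γ _ => ?_)
    have h2 : F.om (γ : π.kW).1 / π.Zw * F.mu (γ : π.kW).1 {x | (γ : π.kW).1 ∈ π.kW ∧ x ∈ π.Ev (γ : π.kW).1 ∧ x ∈ S (γ : π.kW).1}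
        = F.om (γ : π.kW).1 * F.mu (γ : π.kW).1 {x | (γ : π.kW).1 ∈ π.kW ∧ x ∈ π.Ev (γ : π.kW).1 ∧ x ∈ S (γ : π.kW).1} * π.Zw⁻¹ := by
      rw [div_eq_mul_inv]; ring
    exact (congrArg (fun m => F.om (γ : π.kW).1 / π.Zw * m) (hmu γ)).trans h2
  refine key.trans ((k4c_sum_sub π.kW (F.k4cChg π).fW
    (fun γ : F.W => F.om γ * F.mu γ {x | γ ∈ π.kW ∧ x ∈ π.Ev γ ∧ x ∈ S γ} * π.Zw⁻¹)).trans ?_)
  unfold KbPb.mass
  rw [div_eq_mul_inv, Finset.sum_mul]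
  refine Finset.sum_congr rfl (fun γ _ => ?_)
  beta_reduce
  by_cases hγ : γ ∈ π.kW
  · rw [Set.indicator_of_mem hγ]
  · rw [Set.indicator_of_notMem hγ]
    have e : {x | γ ∈ π.kW ∧ x ∈ π.Ev γ ∧ x ∈ S γ} = (∅ : Set (F.Lam × ℝ)) :=
      Set.eq_empty_iff_forall_notMem.2 (fun x hx => hγ hx.1)
    rw [e, measure_empty, mul_zero, zero_mul]

theorem k4c_chg_tot {Kc aL : ℝ} (h : π.Ok Kc aL) : (F.k4cChg π).tot = F.mass (fun γ => {x | γ ∈ π.kW ∧ x ∈ π.Ev γ}) / π.Zw := by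
  have h1 := k4c_chg_mass h (fun _ => Set.univ)
  have e : (fun γ : F.W => {x : F.Lam × ℝ | γ ∈ π.kW ∧ x ∈ π.Ev γ ∧ x ∈ (Set.univ : Set (F.Lam × ℝ))})
      = fun γ => {x | γ ∈ π.kW ∧ x ∈ π.Ev γ} := by
    funext γ
    ext x
    simp
  rw [e] at h1
  exact h1

/-- the canonical hidden unit is admissible (`x ≤ kbDy x < 2 x`: `k2a_dy_bounds`, `k2a_dy_pos`) -/
theorem k4c_B_ok (F : KbPb v) (aL : ℝ) (haL : 0 < aL) (γ : F.W) (hB : 0 < F.B γ) :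
    0 < F.k4cB aL γ ∧ F.k4cB aL γ ≤ 2 * F.B γ ∧ F.B γ ≤ 2 * F.k4cB aL γ ∧ kbDy (aL / F.B γ) * F.k4cB aL γ = kbDy aL ∧ (F.B γ = 1 → F.k4cB aL γ = 1) := by
  have hq : 0 < aL / F.B γ := div_pos haL hB
  have p1 := k4c_dy_pos aL
  have p2 := k4c_dy_pos (aL / F.B γ)
  obtain ⟨a1, a2⟩ := k4c_dy_bounds haL
  obtain ⟨b1, b2⟩ := k4c_dy_bounds hq
  unfold KbPb.k4cB
  refine ⟨div_pos p1 p2, ?_, ?_, ?_, ?_⟩
  · rw [div_le_iff₀ p2]
    have h1 : 2 * F.B γ * (aL / F.B γ) = 2 * aL := by field_simp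
    have h2 : 2 * F.B γ * (aL / F.B γ) ≤ 2 * F.B γ * kbDy (aL / F.B γ) :=
      mul_le_mul_of_nonneg_left b1 (by positivity)
    linarith
  · have h0 : 2 * (kbDy aL / kbDy (aL / F.B γ)) = 2 * kbDy aL / kbDy (aL / F.B γ) := by ring
    rw [h0, le_div_iff₀ p2]
    have h1 : F.B γ * (2 * (aL / F.B γ)) = 2 * aL := by field_simp
    have h2 : F.B γ * kbDy (aL / F.B γ) ≤ F.B γ * (2 * (aL / F.B γ)) :=
      mul_le_mul_of_nonneg_left b2.le hB.le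
    linarith
  · exact mul_div_cancel₀ _ p2.ne'
  · intro h1
    rw [h1, div_one]
    exact div_self p1.ne'

/-! ## CHG-3 : the prepared problem is a weighted problem (~350 l.) -/

/-- auxiliary: the linear change of the trajectory coefficients -/
theorem k4c_co_map {Kc aL : ℝ} (h : π.Ok Kc aL) (γ : F.W) :
    Measurable (fun p : KbTj v => (((π.Oi γ).mulVec p.1, (π.Oi γ).mulVec p.2.1, π.b γ • p.2.2) : KbTj v)) ∧
      (volume : Measure (KbTj v)).map (fun p : KbTj v => (((π.Oi γ).mulVec p.1, (π.Oi γ).mulVec p.2.1, π.b γ • p.2.2) : KbTj v))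
        = ENNReal.ofReal (|(π.O γ).det| ^ 2 * (π.b γ ^ v.e)⁻¹) • volume := by
  have hb := h.b_pos γ
  constructor
  · have hc : Continuous (fun p : KbTj v => (((π.Oi γ).mulVec p.1, (π.Oi γ).mulVec p.2.1, π.b γ • p.2.2) : KbTj v)) := by
      have c1 : Continuous fun p : KbTj v => p.1 := continuous_fst
      have c2 : Continuous fun p : KbTj v => p.2.1 := continuous_fst.comp continuous_snd
      have c3 : Continuous fun p : KbTj v => p.2.2 := continuous_snd.comp continuous_snd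
      have c4 : Continuous fun p : KbTj v => π.b γ • p.2.2 := c3.const_smul (π.b γ)
      exact Continuous.prodMk (Continuous.matrix_mulVec continuous_const c1)
        (Continuous.prodMk (Continuous.matrix_mulVec continuous_const c2) c4)
    exact hc.measurable
  · have hdet : (π.b γ • (1 : Matrix (Fin v.e) (Fin v.e) ℝ)).det = π.b γ ^ v.e := by
      rw [Matrix.det_smul, Matrix.det_one, mul_one, Fintype.card_fin]
    have key := k2n_Phi_gen (h.inv γ) (q := 1) one_pos 0 0 0 (π.b γ • (1 : Matrix (Fin v.e) (Fin v.e) ℝ))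
      (by rw [hdet]; positivity) (fun _ => 0) measurable_const
    have e : (fun p : KbTj v => (((π.Oi γ).mulVec p.1, (π.Oi γ).mulVec p.2.1, π.b γ • p.2.2) : KbTj v))
        = fun p : (Fin v.j → ℝ) × (Fin v.j → ℝ) × (Fin v.e → ℝ) =>
          ((π.Oi γ).mulVec (p.1 - 0) + (π.Oi γ).mulVec ((0 : ℝ) • p.2.1 - 0), ((1 : ℝ) • π.Oi γ).mulVec (p.2.1 - 0),
            (π.b γ • (1 : Matrix (Fin v.e) (Fin v.e) ℝ)).mulVec (p.2.2 - 0) + (fun _ : (Fin v.j → ℝ) × (Fin v.j → ℝ) => (0 : Fin v.e → ℝ)) (p.1, p.2.1)) := by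
      funext p
      simp only [sub_zero, zero_smul, Matrix.mulVec_zero, add_zero, one_smul, Matrix.smul_mulVec, Matrix.one_mulVec]
    rw [e]
    refine key.trans ?_
    rw [hdet, one_pow, div_one, abs_of_pos (by positivity : 0 < π.b γ ^ v.e)]

/-- `ac`: `π.co γ = L ∘ F.co γ` with `L` a linear bijection, `volume.map L = c • volume` (`k2n_Phi_gen` with `t = 0`, `b = b' = 0`, `q = 1`, `M = b • 1`, `s₂ = 0`), hence `L⁻¹' N` is null for null `N` -/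
theorem k4c_chg_WF {Kc aL : ℝ} (hF : F.WF) (h : π.Ok Kc aL) : (F.k4cChg π).WF := by
  refine ⟨?_, fun γ => hF.prob (γ : π.kW).1, ?_, fun γ => hF.Sp_meas (γ : π.kW).1, fun γ => hF.Sp_full (γ : π.kW).1,
    fun γ => h.Ev_meas (γ : π.kW).1, fun γ => (h.Ev_sub (γ : π.kW).1).trans (hF.Ev_sub (γ : π.kW).1), fun _ => one_pos,
    fun γ => k4c_chg_adm h (γ : π.kW).1 _ (hF.Pst_adm (γ : π.kW).1), ?_, ?_⟩
  · have h1 := k4c_sum_sub π.kW (F.k4cChg π).fW (fun γ : F.W => F.om γ / π.Zw)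
    refine Eq.trans h1 ?_
    have h2 : ∀ γ : F.W, π.kW.indicator (fun γ : F.W => F.om γ / π.Zw) γ = π.kW.indicator F.om γ * π.Zw⁻¹ := by
      intro γ
      by_cases hγ : γ ∈ π.kW
      · rw [Set.indicator_of_mem hγ, Set.indicator_of_mem hγ, div_eq_mul_inv]
      · rw [Set.indicator_of_notMem hγ, Set.indicator_of_notMem hγ, zero_mul]
    rw [Finset.sum_congr rfl (fun γ _ => h2 γ), ← Finset.sum_mul]
    exact ENNReal.mul_inv_cancel h.Zw_pos (ne_top_of_le_ne_top ENNReal.one_ne_top (k4c_Zw_le hF))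
  · intro γ
    exact (k4c_co_map h (γ : π.kW).1).1.comp (hF.co_meas (γ : π.kW).1)
  · intro hv γ
    refine ⟨rfl, fun t y w => ?_⟩
    show F.Pst (γ : π.kW).1 t ((π.O (γ : π.kW).1).mulVec y) (w / π.b (γ : π.kW).1) = w
    rw [(hF.v1 hv (γ : π.kW).1).2, h.v1 hv, div_one]
  · intro γ
    obtain ⟨hm, hmap⟩ := k4c_co_map h (γ : π.kW).1
    have h1 : ((F.nu (γ : π.kW).1).map (F.co (γ : π.kW).1)).map
        (fun p : KbTj v => (((π.Oi (γ : π.kW).1).mulVec p.1, (π.Oi (γ : π.kW).1).mulVec p.2.1, π.b (γ : π.kW).1 • p.2.2) : KbTj v)) ≪ volume := by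
      refine ((hF.ac (γ : π.kW).1).map hm).trans ?_
      rw [hmap]
      exact Measure.smul_absolutelyContinuous
    rw [Measure.map_map hm (hF.co_meas (γ : π.kW).1)] at h1
    exact h1

theorem k4c_chg_Ntv {Kc aL K : ℝ} (hF : F.WF) (h : π.Ok Kc aL) (hKc : 1 ≤ Kc) (hK : 1 ≤ K) (hN : F.Ntv K)
    (hmass : 1 ≤ ENNReal.ofReal (4 * Kc * K) * (F.k4cChg π).tot) : (F.k4cChg π).Ntv (4 * Kc * K) := by
  have hKK : K ≤ 4 * Kc * K := by nlinarith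
  have hKcK : Kc * K ≤ 4 * Kc * K := by nlinarith
  have f1 : ∀ (γ : F.W), ∀ l ∈ F.Sp γ, ∀ t ∈ Set.Icc (0 : ℝ) 1, ‖kbY (π.co γ l) t‖ + ‖kbV (π.co γ l)‖ ≤ 4 * Kc * K := by
    intro γ l hl t ht
    rw [k4c_chg_Y, k4c_chg_V]
    have h1 := k4c_mulVec_le (π.Oi γ) (kbY (F.co γ l) t)
    have h2 := k4c_mulVec_le (π.Oi γ) (kbV (F.co γ l))
    have h3 := hN.base γ l hl t ht
    have h4 := h.Oi_le γ
    have n1 := norm_nonneg (kbY (F.co γ l) t)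
    have n2 := norm_nonneg (kbV (F.co γ l))
    have h5 : kbMn (π.Oi γ) * (‖kbY (F.co γ l) t‖ + ‖kbV (F.co γ l)‖) ≤ Kc * K :=
      mul_le_mul h4 h3 (by positivity) (by linarith)
    nlinarith
  have f2 : ∀ (γ : F.W), ∀ l ∈ F.Sp γ, ∀ t ∈ Set.Icc (0 : ℝ) 1, |kbX (π.tst γ (F.Pst γ)) (π.co γ l) t| ≤ 4 * Kc * K := by
    intro γ l hl t ht
    rw [k4c_chg_X h]
    exact le_trans (hN.sig γ l hl t ht) hKK
  have f3 : ∀ (γ : F.W), ∀ l ∈ F.Sp γ, ∀ t ∈ Set.Icc (0 : ℝ) 1,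
      |kbX (kbDw (π.tst γ (F.Pst γ))) (π.co γ l) t| ≤ 4 * Kc * K * 1 := by
    intro γ l hl t ht
    rw [k4c_chg_Dw h _ _ (hF.Pst_adm γ).1, abs_div, abs_of_pos (h.b_pos γ), div_le_iff₀ (h.b_pos γ)]
    have h1 := hN.dw γ l hl t ht
    have h2 := h.b_ge γ
    have h3 := h.b_pos γ
    have h4 : K * F.B γ ≤ K * (2 * π.b γ) := mul_le_mul_of_nonneg_left h2 (by linarith)
    have h5 : 2 * K * π.b γ ≤ 4 * Kc * K * π.b γ := mul_le_mul_of_nonneg_right (by nlinarith) h3.le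
    linarith
  have f4 : ∀ (γ : F.W), ∀ x ∈ π.Ev γ, (1 : ℝ) ≤ 4 * Kc * K * |kbX (kbDw (π.tst γ (F.Pst γ))) (π.co γ x.1) x.2| := by
    intro γ x hx
    rw [k4c_chg_Dw h _ _ (hF.Pst_adm γ).1, abs_div, abs_of_pos (h.b_pos γ), ← mul_div_assoc,
      le_div_iff₀ (h.b_pos γ), one_mul]
    have h1 := hN.dw_low γ x (h.Ev_sub γ hx)
    have h2 := h.b_le γ
    have h3 : 0 ≤ K * |kbX (kbDw (F.Pst γ)) (F.co γ x.1) x.2| := by positivity
    have h4 : 2 * (K * |kbX (kbDw (F.Pst γ)) (F.co γ x.1) x.2|) ≤ 4 * Kc * (K * |kbX (kbDw (F.Pst γ)) (F.co γ x.1) x.2|) :=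
      mul_le_mul_of_nonneg_right (by linarith) h3
    linarith
  have f5 : ∀ (γ : F.W) t y w, |kbDww (π.tst γ (F.Pst γ)) t y w| ≤ 4 * Kc * K * (1 : ℝ) ^ 2 := by
    intro γ t y w
    have hb := h.b_pos γ
    rw [k4c_chg_Dww h _ _ (hF.Pst_adm γ).1, abs_div, abs_of_pos (by positivity : 0 < π.b γ ^ 2),
      div_le_iff₀ (by positivity)]
    have h1 := hN.dww γ t ((π.O γ).mulVec y) (w / π.b γ)
    have h2 := h.b_ge γ
    have hB := hF.B_pos γ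
    have h3 : F.B γ ^ 2 ≤ (2 * π.b γ) ^ 2 := pow_le_pow_left₀ hB.le h2 2
    have h4 : K * F.B γ ^ 2 ≤ K * (2 * π.b γ) ^ 2 := mul_le_mul_of_nonneg_left h3 (by linarith)
    have h5 : 4 * K * π.b γ ^ 2 ≤ 4 * Kc * K * π.b γ ^ 2 :=
      mul_le_mul_of_nonneg_right (by nlinarith) (by positivity)
    nlinarith
  exact ⟨fun γ => f1 (γ : π.kW).1, fun γ => f2 (γ : π.kW).1, fun γ => f3 (γ : π.kW).1, fun γ => f4 (γ : π.kW).1,
    fun γ => f5 (γ : π.kW).1, hmass⟩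

theorem k4c_chg_Tmp {Kc aL Q : ℝ} (hF : F.WF) (h : π.Ok Kc aL) (hKc : 1 ≤ Kc) (hQ : 1 ≤ Q) (hT : F.Tmp Q) : (F.k4cChg π).Tmp (8 * Kc ^ 2 * Q ^ 4) := by
  have hKc2 : 1 ≤ Kc ^ 2 := one_le_pow₀ hKc
  have hQ2 : Q ≤ Q ^ 2 := by nlinarith
  have hQ3 : Q ^ 2 ≤ Q ^ 3 := by nlinarith [sq_nonneg Q]
  have hQ4 : Q ^ 3 ≤ Q ^ 4 := by nlinarith [pow_pos (by linarith : 0 < Q) 3]
  have hbig : ∀ x, x ≤ 2 * Kc * Q ^ 2 → x ≤ 8 * Kc ^ 2 * Q ^ 4 := by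
    intro x hx
    have h1 : Kc ≤ Kc ^ 2 := by nlinarith
    have h2 : Q ^ 2 ≤ Q ^ 4 := by linarith
    have h3 : Kc * Q ^ 2 ≤ Kc ^ 2 * Q ^ 4 := mul_le_mul h1 h2 (by positivity) (by positivity)
    nlinarith
  have h1big : (1 : ℝ) ≤ 8 * Kc ^ 2 * Q ^ 4 := hbig 1 (by nlinarith)
  have f1 : ((@Fintype.card π.kW (F.k4cChg π).fW : ℕ) : ℝ) ≤ 8 * Kc ^ 2 * Q ^ 4 := by
    have h1 : @Fintype.card π.kW (F.k4cChg π).fW ≤ Fintype.card F.W :=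
      @Fintype.card_le_of_injective π.kW F.W (F.k4cChg π).fW _ Subtype.val Subtype.val_injective
    have h2 : ((@Fintype.card π.kW (F.k4cChg π).fW : ℕ) : ℝ) ≤ Q := le_trans (by exact_mod_cast h1) hT.card
    exact le_trans h2 (hbig Q (by nlinarith))
  have f3 : ∀ (γ : F.W), ∀ l ∈ F.Sp γ, ‖π.co γ l‖ ≤ 8 * Kc ^ 2 * Q ^ 4 := by
    intro γ l hl
    have h0 := hT.co_le γ l hl
    have h1 : ‖(F.co γ l).1‖ ≤ Q := le_trans (norm_fst_le _) h0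
    have h2 : ‖(F.co γ l).2.1‖ ≤ Q := le_trans (le_trans (norm_fst_le _) (norm_snd_le _)) h0
    have h3 : ‖(F.co γ l).2.2‖ ≤ Q := le_trans (le_trans (norm_snd_le _) (norm_snd_le _)) h0
    have hOi := h.Oi_le γ
    have hmv : ∀ x : KbB v, ‖x‖ ≤ Q → ‖(π.Oi γ).mulVec x‖ ≤ 2 * Kc * Q ^ 2 := by
      intro x hx
      have h5 : kbMn (π.Oi γ) * ‖x‖ ≤ Kc * Q := mul_le_mul hOi hx (norm_nonneg _) (by linarith)
      have h6 : Kc * Q ≤ 2 * Kc * Q ^ 2 := by nlinarith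
      exact le_trans (k4c_mulVec_le _ _) (le_trans h5 h6)
    have hb : ‖π.b γ • (F.co γ l).2.2‖ ≤ 2 * Kc * Q ^ 2 := by
      rw [norm_smul, Real.norm_eq_abs, abs_of_pos (h.b_pos γ)]
      have h5 : π.b γ ≤ 2 * Q := le_trans (h.b_le γ) (by linarith [(hT.B_le γ).1])
      have h6 : π.b γ * ‖(F.co γ l).2.2‖ ≤ 2 * Q * Q := mul_le_mul h5 h3 (norm_nonneg _) (by linarith)
      nlinarith
    apply hbig
    unfold K4cPar.co
    rw [Prod.norm_def, Prod.norm_def]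
    exact max_le (hmv _ h1) (max_le (hmv _ h2) hb)
  have f4 : ∀ (γ : F.W), (F.nu γ).map (π.co γ) ≤ ENNReal.ofReal (8 * Kc ^ 2 * Q ^ 4) • volume := by
    intro γ
    obtain ⟨hm, hmap⟩ := k4c_co_map h γ
    have h1 := Measure.map_mono (hT.dens γ) hm
    rw [Measure.map_map hm (hF.co_meas γ), Measure.map_smul, hmap, smul_smul] at h1
    refine le_trans h1 ?_
    have hb := h.b_pos γ
    have hc : ENNReal.ofReal Q * ENNReal.ofReal (|(π.O γ).det| ^ 2 * (π.b γ ^ v.e)⁻¹)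
        ≤ ENNReal.ofReal (8 * Kc ^ 2 * Q ^ 4) := by
      rw [← ENNReal.ofReal_mul (by linarith)]
      apply ENNReal.ofReal_le_ofReal
      have hd : |(π.O γ).det| ^ 2 ≤ Kc ^ 2 := pow_le_pow_left₀ (abs_nonneg _) (h.det_le γ) 2
      have hbl : 1 / (2 * Q) ≤ π.b γ := by
        rw [div_le_iff₀ (by linarith)]
        have h5 := (hT.B_le γ).2
        have h6 := h.b_ge γ
        nlinarith
      have hinv : (π.b γ ^ v.e)⁻¹ ≤ 8 * Q ^ 3 := by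
        have h7 : (1 / (2 * Q)) ^ v.e ≤ π.b γ ^ v.e := pow_le_pow_left₀ (by positivity) hbl _
        have h8 : (π.b γ ^ v.e)⁻¹ ≤ ((1 / (2 * Q)) ^ v.e)⁻¹ := inv_anti₀ (by positivity) h7
        refine le_trans h8 ?_
        rw [one_div, inv_pow, inv_inv]
        have h9 : v.e ≤ 3 := by cases v <;> simp [KbVer.e]
        calc (2 * Q) ^ v.e ≤ (2 * Q) ^ 3 := pow_le_pow_right₀ (by linarith) h9
          _ = 8 * Q ^ 3 := by ring
      calc Q * (|(π.O γ).det| ^ 2 * (π.b γ ^ v.e)⁻¹) ≤ Q * (Kc ^ 2 * (8 * Q ^ 3)) := by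
            gcongr
        _ = 8 * Kc ^ 2 * Q ^ 4 := by ring
    intro A
    rw [Measure.smul_apply, Measure.smul_apply, smul_eq_mul, smul_eq_mul]
    exact mul_le_mul_left hc _
  have f2 : (1 : ℝ) ≤ 8 * Kc ^ 2 * Q ^ 4 * 1 := by rw [mul_one]; exact h1big
  exact ⟨f1, fun _ => ⟨h1big, f2⟩, fun γ => f3 (γ : π.kW).1, fun γ => f4 (γ : π.kW).1⟩

/-! ## CHG-4 : the nodes in the prepared problem (~350 l.) -/

theorem k4c_kbI_inj {n i i' : ℕ} {t : ℝ} (h : t ∈ kbI n i) (h' : t ∈ kbI n i') : i = i' := by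
  unfold kbI at h h'
  have hq : 0 < kbQ n := by unfold kbQ; positivity
  obtain ⟨h1, h2⟩ := h
  obtain ⟨h3, h4⟩ := h'
  have a1 : (i:ℝ) < i' + 1 := by
    by_contra hc
    rw [not_lt] at hc
    nlinarith
  have a2 : (i':ℝ) < i + 1 := by
    by_contra hc
    rw [not_lt] at hc
    nlinarith
  have b1 : i < i' + 1 := by exact_mod_cast a1
  have b2 : i' < i + 1 := by exact_mod_cast a2
  omega

theorem k4c_Oi_O {Kc aL : ℝ} (h : π.Ok Kc aL) (γ : F.W) : π.Oi γ * π.O γ = 1 :=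
  mul_eq_one_comm.mp (h.inv γ)

theorem k4c_O_Oi_vec {Kc aL : ℝ} (h : π.Ok Kc aL) (γ : F.W) (y : KbB v) : (π.O γ).mulVec ((π.Oi γ).mulVec y) = y := by
  rw [Matrix.mulVec_mulVec, h.inv γ, Matrix.one_mulVec]

theorem k4c_Oi_O_vec {Kc aL : ℝ} (h : π.Ok Kc aL) (γ : F.W) (y : KbB v) : (π.Oi γ).mulVec ((π.O γ).mulVec y) = y := by
  rw [Matrix.mulVec_mulVec, k4c_Oi_O h γ, Matrix.one_mulVec]

theorem k4c_det_Oi_O {Kc aL : ℝ} (h : π.Ok Kc aL) (γ : F.W) : |(π.Oi γ).det| * |(π.O γ).det| = 1 := by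
  rw [← abs_mul, ← Matrix.det_mul, k4c_Oi_O h γ, Matrix.det_one, abs_one]

theorem k4c_kbMn_nonneg {m : ℕ} (M : Matrix (Fin m) (Fin m) ℝ) : 0 ≤ kbMn M := by
  unfold kbMn
  positivity

theorem k4c_cht_yc (γ : F.W) (ch : KbChart v) (t : ℝ) : (π.cht γ ch).yc t = (π.Oi γ).mulVec (ch.yc t) := by
  unfold KbChart.yc K4cPar.cht
  simp only [Matrix.mulVec_add, Matrix.mulVec_smul]

theorem k4c_chtBack_yc (γ : F.W) (ch : KbChart v) (t : ℝ) : (π.chtBack γ ch).yc t = (π.O γ).mulVec (ch.yc t) := by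
  unfold KbChart.yc K4cPar.chtBack
  simp only [Matrix.mulVec_add, Matrix.mulVec_smul]

/-- on the prepared path the box of a label selects exactly its incidences (`A_disj`; two intervals `kbI n i`, `kbI n i'` with a common point coincide) -/
theorem k4c_Q_S_sub (m : ℕ) (hY : (T.Q m).WF) (hsel : ∀ γ, π.Ev γ ⊆ (T.Q m).sel γ) (c : (T.Q m).C) :
    π.Ev ((T.Q m).wd c) ∩ (T.Q m).A c ×ˢ (T.Q m).I c ⊆ (T.Q m).S c := by
  rintro x ⟨hxE, hxA, hxI⟩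
  have := hsel _ hxE
  simp only [KbSys.sel, Set.mem_iUnion] at this
  obtain ⟨c', hw, hxS⟩ := this
  obtain ⟨-, hxA', hxI'⟩ := hY.S_sub c' hxS
  have hiv : (T.Q m).iv c = (T.Q m).iv c' := k4c_kbI_inj hxI hxI'
  by_cases hc : c = c'
  · rw [hc]; exact hxS
  · exact absurd hxA' (Set.disjoint_left.mp (hY.A_disj c c' hc hw.symm hiv) hxA)

theorem k4c_Q_WF {Kc aL : ℝ} (h : π.Ok Kc aL) (m : ℕ) (hY : (T.Q m).WF) : (T.k4cQ π m).WF := by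
  have hinv : ∀ c : (T.Q m).C, (π.Oi ((T.Q m).wd c) * ((T.Q m).ch c).D) * (((T.Q m).ch c).Di * π.O ((T.Q m).wd c)) = 1 := by
    intro c
    rw [Matrix.mul_assoc, ← Matrix.mul_assoc ((T.Q m).ch c).D, hY.inv c, Matrix.one_mul, k4c_Oi_O h]
  exact
  { iv_lt := fun c => hY.iv_lt c.1
    A_meas := fun c => hY.A_meas c.1
    A_sub := fun c => hY.A_sub c.1
    A_disj := fun c c' hc hw hi => hY.A_disj c.1 c'.1 (fun e => hc (Subtype.ext e)) (congrArg Subtype.val hw) hi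
    S_meas := fun c => (h.Ev_meas _).inter ((hY.A_meas c.1).prod measurableSet_Ico)
    S_sub := fun c => le_refl _
    inv := fun c => hinv c.1
    adm := fun c => k4c_chg_adm h _ _ (hY.adm c.1) }

theorem k4c_Q_Geo {Kc aL K a : ℝ} (h : π.Ok Kc aL) (hKc : 1 ≤ Kc) (hK : 1 ≤ K) (m : ℕ) (hY : (T.Q m).WF) (hsel : ∀ γ, π.Ev γ ⊆ (T.Q m).sel γ)
    (hG : (T.Q m).Geo K a) : (T.k4cQ π m).Geo (4 * Kc * K) a := by
  have hKK : K ≤ 4 * Kc * K := by nlinarith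
  have a1 : ∀ c : (T.Q m).C, kbMn (π.Oi ((T.Q m).wd c) * ((T.Q m).ch c).D) ≤ (T.Q m).q * (4 * Kc * K) := by
    intro c
    have h1 := k4c_kbMn_mul (π.Oi ((T.Q m).wd c)) ((T.Q m).ch c).D
    have h2 := h.Oi_le ((T.Q m).wd c)
    have h3 := hG.size c
    have h4 := k4c_kbMn_nonneg ((T.Q m).ch c).D
    have h5 := k4c_kbMn_nonneg (π.Oi ((T.Q m).wd c))
    have hq : 0 ≤ (T.Q m).q := by unfold KbSys.q kbQ; positivity
    calc _ ≤ _ := h1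
      _ ≤ Kc * ((T.Q m).q * K) := mul_le_mul h2 h3 h4 (by linarith)
      _ ≤ (T.Q m).q * (4 * Kc * K) := by nlinarith [mul_nonneg hq (mul_nonneg (by linarith : 0 ≤ Kc) (by linarith : 0 ≤ K))]
  have a2 : ∀ c : (T.Q m).C, ∀ l ∈ (T.Q m).A c, ∀ t ∈ (T.Q m).I c,
      ‖(((T.Q m).ch c).Di * π.O ((T.Q m).wd c)).mulVec (kbY (π.co ((T.Q m).wd c) l) t - (π.cht ((T.Q m).wd c) ((T.Q m).ch c)).yc t)‖ ≤ 4 * Kc * K := by
    intro c l hl t ht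
    rw [k4c_chg_Y, k4c_cht_yc, ← Matrix.mulVec_sub, ← Matrix.mulVec_mulVec, k4c_O_Oi_vec h]
    exact (hG.box c l hl t ht).trans hKK
  have a3 : ∀ c : (T.Q m).C, ∀ l ∈ (T.Q m).A c, ∀ t ∈ (T.Q m).I c,
      |kbX (π.tst ((T.Q m).wd c) ((T.Q m).ch c).T) (π.co ((T.Q m).wd c) l) t| ≤ 4 * Kc * K * a := by
    intro c l hl t ht
    rw [k4c_chg_X h]
    have h1 := hG.val c l hl t ht
    have ha : 0 ≤ a := by
      have : 0 ≤ K * a := (abs_nonneg _).trans h1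
      by_contra hc
      rw [not_le] at hc
      nlinarith
    exact h1.trans (mul_le_mul_of_nonneg_right hKK ha)
  have a4 : ∀ c : (T.Q m).C, ∀ l ∈ (T.Q m).A c, ∀ t ∈ (T.Q m).I c,
      |kbX (kbDw (π.tst ((T.Q m).wd c) ((T.Q m).ch c).T)) (π.co ((T.Q m).wd c) l) t| ≤ 4 * Kc * K * 1 := by
    intro c l hl t ht
    rw [k4c_chg_Dw h _ _ (hY.adm c).1, abs_div, abs_of_pos (h.b_pos _), div_le_iff₀ (h.b_pos _)]
    have h1 := hG.dw c l hl t ht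
    have h2 := h.b_ge ((T.Q m).wd c)
    have h3 := h.b_pos ((T.Q m).wd c)
    calc _ ≤ _ := h1
      _ ≤ K * (2 * π.b ((T.Q m).wd c)) := by gcongr
      _ ≤ _ := by nlinarith [mul_pos (by linarith : 0 < K) h3]
  have a5 : ∀ c : (T.Q m).C, ∀ x ∈ π.Ev ((T.Q m).wd c) ∩ (T.Q m).A c ×ˢ (T.Q m).I c,
      (1:ℝ) ≤ 4 * Kc * K * |kbX (kbDw (π.tst ((T.Q m).wd c) ((T.Q m).ch c).T)) (π.co ((T.Q m).wd c) x.1) x.2| := by
    intro c x hx
    rw [k4c_chg_Dw h _ _ (hY.adm c).1, abs_div, abs_of_pos (h.b_pos _)]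
    have h1 := hG.dw_low c x (k4c_Q_S_sub m hY hsel c hx)
    have h2 := h.b_le ((T.Q m).wd c)
    have h3 := h.b_pos ((T.Q m).wd c)
    rw [← mul_div_assoc, le_div_iff₀ h3]
    have h4 := abs_nonneg (kbX (kbDw ((T.Q m).ch c).T) (F.co ((T.Q m).wd c) x.1) x.2)
    nlinarith [mul_nonneg (by linarith : 0 ≤ K) h4]
  have a6 : ∀ (c : (T.Q m).C) (t : ℝ) (y : KbB v) (w : ℝ),
      |kbDww (π.tst ((T.Q m).wd c) ((T.Q m).ch c).T) t y w| * a ≤ 4 * Kc * K * 1 ^ 2 := by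
    intro c t y w
    rw [k4c_chg_Dww h _ _ (hY.adm c).1, abs_div, abs_of_pos (pow_pos (h.b_pos _) 2), div_mul_eq_mul_div, div_le_iff₀ (pow_pos (h.b_pos _) 2)]
    have h1 := hG.dww c t ((π.O ((T.Q m).wd c)).mulVec y) (w / π.b ((T.Q m).wd c))
    have h2 := h.b_ge ((T.Q m).wd c)
    have h3 := h.b_pos ((T.Q m).wd c)
    have h5 : 0 < F.B ((T.Q m).wd c) := by
      have := h.b_le ((T.Q m).wd c)
      linarith
    have h6 : F.B ((T.Q m).wd c) ^ 2 ≤ (2 * π.b ((T.Q m).wd c)) ^ 2 := by gcongr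
    calc _ ≤ _ := h1
      _ ≤ K * (2 * π.b ((T.Q m).wd c)) ^ 2 := by gcongr
      _ ≤ _ := by nlinarith [mul_pos (by linarith : 0 < K) (pow_pos h3 2)]
  exact
  { size := fun c => a1 c.1
    box := fun c l hl t ht => a2 c.1 l hl t ht
    val := fun c l hl t ht => a3 c.1 l hl t ht
    dw := fun c l hl t ht => a4 c.1 l hl t ht
    dw_low := fun c x hx => a5 c.1 x hx
    dww := fun c t y w => a6 c.1 t y w }

theorem k4c_mulVec_meas {m : ℕ} (M : Matrix (Fin m) (Fin m) ℝ) : Measurable (fun o : ℝ × (Fin m → ℝ) => (o.1, M.mulVec o.2)) := by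
  have : Continuous (fun x : Fin m → ℝ => M.mulVec x) := by fun_prop
  exact measurable_fst.prodMk (this.measurable.comp measurable_snd)

/-- lists: `(Lst γ.1 d (o.1, O o.2)).subtype _` -/
theorem k4c_Q_Known {Kc aL K : ℝ} (h : π.Ok Kc aL) (m : ℕ) (hY : (T.Q m).WF) (hsel : ∀ γ, π.Ev γ ⊆ (T.Q m).sel γ)
    (hKn : (T.Q m).Known (F.hid aL) K) : (T.k4cQ π m).Known ((F.k4cChg π).hid aL) K := by
  classical
  obtain ⟨Lst, h1, h2, h3⟩ := hKn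
  let L' : π.kW → ℤ → ℝ × KbB v → Finset {c : (T.Q m).C // T.keep π m c} :=
    fun γ d o => (Lst γ.1 d (o.1, (π.O γ.1).mulVec o.2)).subtype _
  have p1 : ∀ (γ : π.kW) (d : ℤ) (o : ℝ × KbB v), ((L' γ d o).card : ℝ) ≤ K := by
    intro γ d o
    have e1 : ((L' γ d o).card : ℝ) ≤ ((Lst γ.1 d (o.1, (π.O γ.1).mulVec o.2)).card : ℝ) := by
      have : (L' γ d o).card ≤ (Lst γ.1 d (o.1, (π.O γ.1).mulVec o.2)).card := by
        rw [Finset.card_subtype]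
        exact Finset.card_filter_le _ _
      exact_mod_cast this
    exact e1.trans (h1 _ _ _)
  have p2 : ∀ (γ : π.kW) (d : ℤ) (c : {c : (T.Q m).C // T.keep π m c}), MeasurableSet {o | c ∈ L' γ d o} := by
    intro γ d c
    have e1 : {o | c ∈ L' γ d o} = (fun o : ℝ × KbB v => (o.1, (π.O γ.1).mulVec o.2)) ⁻¹' {o | c.1 ∈ Lst γ.1 d o} := by
      ext o
      simp only [L', Finset.mem_subtype, Set.mem_ofPred_eq, Set.mem_preimage]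
    rw [e1]
    exact k4c_mulVec_meas _ (h2 γ.1 d c.1)
  have p3 : ∀ (c : {c : (T.Q m).C // T.keep π m c}) (x : F.Lam × ℝ), x ∈ π.Ev ((T.Q m).wd c.1) ∩ (T.Q m).A c.1 ×ˢ (T.Q m).I c.1 →
      c ∈ L' ⟨(T.Q m).wd c.1, T.keep_wd π m c.1 c.2⟩ ((F.k4cChg π).hid aL ⟨(T.Q m).wd c.1, T.keep_wd π m c.1 c.2⟩ x)
        ((F.k4cChg π).bs ⟨(T.Q m).wd c.1, T.keep_wd π m c.1 c.2⟩ x) := by
    intro c x hx
    have e0 := h3 c.1 x (k4c_Q_S_sub m hY hsel c.1 hx)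
    rw [k4c_chg_hid h, k4c_chg_bs]
    simp only [L', Finset.mem_subtype, K4cPar.bsN]
    rw [k4c_O_Oi_vec h]
    exact e0
  exact ⟨L', p1, p2, p3⟩

theorem k4c_Q_Tmp {Kc aL Q : ℝ} (h : π.Ok Kc aL) (hKc : 1 ≤ Kc) (hQ : 1 ≤ Q) (m : ℕ) (hT : (T.Q m).Tmp Q) : (T.k4cQ π m).Tmp (Kc * Q) := by
  have hQQ : Q ≤ Kc * Q := by nlinarith
  have a1 : (Fintype.card (T.k4cQ π m).C : ℝ) ≤ Kc * Q := by
    have : Fintype.card (T.k4cQ π m).C ≤ Fintype.card (T.Q m).C :=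
      Fintype.card_le_of_injective (fun c : {c : (T.Q m).C // T.keep π m c} => c.1) Subtype.val_injective
    have h2 : (Fintype.card (T.k4cQ π m).C : ℝ) ≤ (Fintype.card (T.Q m).C : ℝ) := by exact_mod_cast this
    exact h2.trans (hT.card.trans hQQ)
  have a2 : 1 ≤ Kc * Q * (T.Q m).q := by
    have hq : 0 ≤ (T.Q m).q := by unfold KbSys.q kbQ; positivity
    exact hT.q_low.trans (mul_le_mul_of_nonneg_right hQQ hq)
  have a3 : ∀ c : (T.Q m).C, 1 ≤ Kc * Q * |(π.Oi ((T.Q m).wd c) * ((T.Q m).ch c).D).det| := by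
    intro c
    rw [Matrix.det_mul, abs_mul]
    have e1 := k4c_det_Oi_O h ((T.Q m).wd c)
    have e2 := h.det_le ((T.Q m).wd c)
    have e3 : 1 ≤ Q * |((T.Q m).ch c).D.det| := hT.J_low c
    have e4 : 1 ≤ Kc * |(π.Oi ((T.Q m).wd c)).det| := by
      have := abs_nonneg (π.Oi ((T.Q m).wd c)).det
      nlinarith
    calc (1:ℝ) = 1 * 1 := by ring
      _ ≤ (Kc * |(π.Oi ((T.Q m).wd c)).det|) * (Q * |((T.Q m).ch c).D.det|) := mul_le_mul e4 e3 (by norm_num) (by linarith)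
      _ = _ := by ring
  have a4 : ∀ c : (T.Q m).C, ‖(π.Oi ((T.Q m).wd c)).mulVec ((T.Q m).ch c).y0‖ + ‖(π.Oi ((T.Q m).wd c)).mulVec ((T.Q m).ch c).y1‖ ≤ Kc * Q := by
    intro c
    have e1 := k4c_mulVec_le (π.Oi ((T.Q m).wd c)) ((T.Q m).ch c).y0
    have e2 := k4c_mulVec_le (π.Oi ((T.Q m).wd c)) ((T.Q m).ch c).y1
    have e3 := h.Oi_le ((T.Q m).wd c)
    have e4 := hT.cen c
    have e5 := norm_nonneg ((T.Q m).ch c).y0
    have e6 := norm_nonneg ((T.Q m).ch c).y1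
    calc _ ≤ kbMn (π.Oi ((T.Q m).wd c)) * (‖((T.Q m).ch c).y0‖ + ‖((T.Q m).ch c).y1‖) := by linarith
      _ ≤ Kc * Q := mul_le_mul e3 e4 (by linarith) (by linarith)
  exact
  { card := a1
    q_low := a2
    J_low := fun c => a3 c.1
    cen := fun c => a4 c.1 }

theorem k4c_Q_q (m : ℕ) : (T.k4cQ π m).q = (T.Q m).q := rfl

theorem k4c_Q_nuC (m : ℕ) (c : (T.k4cQ π m).C) : (T.k4cQ π m).nuC c = (T.Q m).nuC c.1 := rfl

theorem k4c_Q_J {Kc aL : ℝ} (h : π.Ok Kc aL) (m : ℕ) (c : (T.k4cQ π m).C) :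
    ((T.k4cQ π m).ch c).J * |(π.O ((T.Q m).wd c.1)).det| = ((T.Q m).ch c.1).J := by
  have a : ∀ c : (T.Q m).C, |(π.Oi ((T.Q m).wd c) * ((T.Q m).ch c).D).det| * |(π.O ((T.Q m).wd c)).det| = |((T.Q m).ch c).D.det| := by
    intro c
    rw [Matrix.det_mul, abs_mul]
    have e1 := k4c_det_Oi_O h ((T.Q m).wd c)
    calc _ = (|(π.Oi ((T.Q m).wd c)).det| * |(π.O ((T.Q m).wd c)).det|) * |((T.Q m).ch c).D.det| := by ring
      _ = _ := by rw [e1, one_mul]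
  exact a c.1

theorem k4c_Q_mC {Kc aL : ℝ} (h : π.Ok Kc aL) (m : ℕ) (c : (T.k4cQ π m).C) :
    (T.k4cQ π m).mC c = F.mu ((T.Q m).wd c.1) (π.Ev ((T.Q m).wd c.1) ∩ (T.Q m).A c.1 ×ˢ (T.Q m).I c.1) := by
  have a : ∀ (γ : π.kW) (S : Set (F.Lam × ℝ)), (F.k4cChg π).mu γ (π.Ev γ.1 ∩ S) = F.mu γ.1 (π.Ev γ.1 ∩ S) := by
    intro γ S
    have e1 : (F.k4cChg π).mu γ (π.Ev γ.1 ∩ S) = ((F.mu γ.1).restrict (π.Ev γ.1)) (π.Ev γ.1 ∩ S) :=
      congrArg (fun μ : Measure (F.Lam × ℝ) => μ (π.Ev γ.1 ∩ S)) (k4c_chg_mu h γ)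
    have e2 : ((F.mu γ.1).restrict (π.Ev γ.1)) (π.Ev γ.1 ∩ S) = F.mu γ.1 (π.Ev γ.1 ∩ S) := by
      rw [Measure.restrict_apply' (h.Ev_meas _)]
      congr 1
      ext x
      simp only [Set.mem_inter_iff]
      tauto
    exact e1.trans e2
  exact a ⟨(T.Q m).wd c.1, T.keep_wd π m c.1 c.2⟩ _

/-- field `path` of `KpTan.Ok` -/
theorem k4c_Q_path (m : ℕ) (c : (T.k4cQ π m).C) :
    (T.k4cQ π m).S c = (F.k4cChg π).Ev ((T.k4cQ π m).wd c) ∩ (T.k4cQ π m).A c ×ˢ (T.k4cQ π m).I c := rfl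

/-- field `cover` of `KpTan.Ok` : the prepared path only meets kept labels -/
theorem k4c_Q_cover (m : ℕ) (hY : (T.Q m).WF) (hsel : ∀ γ, π.Ev γ ⊆ (T.Q m).sel γ)
    (hk : ∀ c, (T.Q m).wd c ∈ π.kW → ((T.Q m).S c ∩ π.Ev ((T.Q m).wd c)).Nonempty → T.keep π m c) (γ : π.kW) :
    (F.k4cChg π).Ev γ ⊆ (T.k4cQ π m).sel γ := by
  have a : ∀ x : F.Lam × ℝ, x ∈ π.Ev γ.1 → ∃ c : {c : (T.Q m).C // T.keep π m c}, (⟨(T.Q m).wd c.1, T.keep_wd π m c.1 c.2⟩ : π.kW) = γ ∧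
      x ∈ π.Ev ((T.Q m).wd c.1) ∩ (T.Q m).A c.1 ×ˢ (T.Q m).I c.1 := by
    intro x hx'
    have h1 : x ∈ ⋃ c, ⋃ (_ : (T.Q m).wd c = γ.1), (T.Q m).S c := hsel _ hx'
    rw [Set.mem_iUnion] at h1
    obtain ⟨c, h1⟩ := h1
    rw [Set.mem_iUnion] at h1
    obtain ⟨hw, hxS⟩ := h1
    have hkc : T.keep π m c := hk c (hw ▸ γ.2) ⟨x, hxS, hw ▸ hx'⟩
    exact ⟨⟨c, hkc⟩, Subtype.ext hw, hw ▸ hx', (hY.S_sub c hxS).2⟩
  intro x hx
  obtain ⟨c, hw, hxc⟩ := a x hx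
  have : x ∈ ⋃ c, ⋃ (_ : (T.k4cQ π m).wd c = γ), (T.k4cQ π m).S c :=
    Set.mem_iUnion.mpr ⟨c, Set.mem_iUnion.mpr ⟨hw, hxc⟩⟩
  exact this

/-- field `nest` of `KpTan.Ok` -/
theorem k4c_Q_nest (m : ℕ) (hI : ∀ c, (T.Q (m + 1)).I c ⊆ (T.Q m).I (T.up m c)) (hA : ∀ c, (T.Q (m + 1)).A c ⊆ (T.Q m).A (T.up m c)) (c : (T.k4cQ π (m + 1)).C) :
    (T.k4cQ π m).wd (T.k4cUp π m c) = (T.k4cQ π (m + 1)).wd c ∧ (T.k4cQ π (m + 1)).I c ⊆ (T.k4cQ π m).I (T.k4cUp π m c) ∧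
      (T.k4cQ π (m + 1)).A c ⊆ (T.k4cQ π m).A (T.k4cUp π m c) :=
  ⟨Subtype.ext (T.wd_up m c.1), hI c.1, hA c.1⟩

/-! ## CHG-5 : output systems read in `F` (~300 l.) -/

variable (Y : KbSys (F.k4cChg π))

theorem k4c_back_WF {Kc aL : ℝ} (h : π.Ok Kc aL) (hY : Y.WF) : Y.k4cBack.WF := by
  have hinv : ∀ c : Y.C, (π.O (Y.wd c).1 * (Y.ch c).D) * ((Y.ch c).Di * π.Oi (Y.wd c).1) = 1 := by
    intro c
    rw [Matrix.mul_assoc, ← Matrix.mul_assoc (Y.ch c).D, hY.inv c, Matrix.one_mul, h.inv]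
  exact
  { iv_lt := fun c => hY.iv_lt c
    A_meas := fun c => hY.A_meas c
    A_sub := fun c => hY.A_sub c
    A_disj := fun c c' hc hw hi => hY.A_disj c c' hc (Subtype.ext hw) hi
    S_meas := fun c => hY.S_meas c
    S_sub := fun c x hx => ⟨h.Ev_sub _ (hY.S_sub c hx).1, (hY.S_sub c hx).2⟩
    inv := fun c => hinv c
    adm := fun c => k4c_back_adm h _ _ (hY.adm c) }

theorem k4c_back_Geo {Kc aL K a : ℝ} (h : π.Ok Kc aL) (hKc : 1 ≤ Kc) (hK : 1 ≤ K) (hY : Y.WF) (hG : Y.Geo K a) : Y.k4cBack.Geo (4 * Kc * K) a := by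
  have hKK : K ≤ 4 * Kc * K := by nlinarith
  have a1 : ∀ c : Y.C, kbMn (π.O (Y.wd c).1 * (Y.ch c).D) ≤ Y.q * (4 * Kc * K) := by
    intro c
    have h1 := k4c_kbMn_mul (π.O (Y.wd c).1) (Y.ch c).D
    have h2 := h.O_le (Y.wd c).1
    have h3 := hG.size c
    have h4 := k4c_kbMn_nonneg (Y.ch c).D
    have hq : 0 ≤ Y.q := by unfold KbSys.q kbQ; positivity
    calc _ ≤ _ := h1
      _ ≤ Kc * (Y.q * K) := mul_le_mul h2 h3 h4 (by linarith)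
      _ ≤ Y.q * (4 * Kc * K) := by nlinarith [mul_nonneg hq (mul_nonneg (by linarith : 0 ≤ Kc) (by linarith : 0 ≤ K))]
  have a2 : ∀ c : Y.C, ∀ l : F.Lam, l ∈ Y.A c → ∀ t ∈ Y.I c,
      ‖((Y.ch c).Di * π.Oi (Y.wd c).1).mulVec (kbY (F.co (Y.wd c).1 l) t - (π.chtBack (Y.wd c).1 (Y.ch c)).yc t)‖ ≤ 4 * Kc * K := by
    intro c l hl t ht
    have e := hG.box c l hl t ht
    have e' : ‖(Y.ch c).Di.mulVec (kbY (π.co (Y.wd c).1 l) t - (Y.ch c).yc t)‖ ≤ K := e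
    rw [k4c_chg_Y] at e'
    rw [k4c_chtBack_yc, ← Matrix.mulVec_mulVec, Matrix.mulVec_sub, k4c_Oi_O_vec h]
    exact e'.trans hKK
  have a3 : ∀ c : Y.C, ∀ l : F.Lam, l ∈ Y.A c → ∀ t ∈ Y.I c,
      |kbX (π.tstBack (Y.wd c).1 (Y.ch c).T) (F.co (Y.wd c).1 l) t| ≤ 4 * Kc * K * a := by
    intro c l hl t ht
    rw [k4c_back_X h]
    have h1 : |kbX (Y.ch c).T (π.co (Y.wd c).1 l) t| ≤ K * a := hG.val c l hl t ht
    have ha : 0 ≤ a := by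
      have : 0 ≤ K * a := (abs_nonneg _).trans h1
      by_contra hc
      rw [not_le] at hc
      nlinarith
    exact h1.trans (mul_le_mul_of_nonneg_right hKK ha)
  have a4 : ∀ c : Y.C, ∀ l : F.Lam, l ∈ Y.A c → ∀ t ∈ Y.I c,
      |kbX (kbDw (π.tstBack (Y.wd c).1 (Y.ch c).T)) (F.co (Y.wd c).1 l) t| ≤ 4 * Kc * K * F.B (Y.wd c).1 := by
    intro c l hl t ht
    rw [k4c_back_Dw h _ _ (hY.adm c).1, abs_mul, abs_of_pos (h.b_pos _)]
    have h1 : |kbX (kbDw (Y.ch c).T) (π.co (Y.wd c).1 l) t| ≤ K * 1 := hG.dw c l hl t ht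
    have h2 := h.b_le (Y.wd c).1
    have h3 := h.b_pos (Y.wd c).1
    have h5 : 0 < F.B (Y.wd c).1 := by linarith
    calc _ ≤ π.b (Y.wd c).1 * (K * 1) := by gcongr
      _ ≤ (2 * F.B (Y.wd c).1) * (K * 1) := by gcongr
      _ ≤ _ := by nlinarith [mul_pos (by linarith : 0 < K) h5]
  have a5 : ∀ c : Y.C, ∀ x : F.Lam × ℝ, x ∈ Y.S c →
      F.B (Y.wd c).1 ≤ 4 * Kc * K * |kbX (kbDw (π.tstBack (Y.wd c).1 (Y.ch c).T)) (F.co (Y.wd c).1 x.1) x.2| := by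
    intro c x hx
    rw [k4c_back_Dw h _ _ (hY.adm c).1, abs_mul, abs_of_pos (h.b_pos _)]
    have h1 : (1:ℝ) ≤ K * |kbX (kbDw (Y.ch c).T) (π.co (Y.wd c).1 x.1) x.2| := hG.dw_low c x hx
    have h2 := h.b_ge (Y.wd c).1
    have h3 := h.b_pos (Y.wd c).1
    have h4 := abs_nonneg (kbX (kbDw (Y.ch c).T) (π.co (Y.wd c).1 x.1) x.2)
    have h6 : π.b (Y.wd c).1 * 1 ≤ π.b (Y.wd c).1 * (K * |kbX (kbDw (Y.ch c).T) (π.co (Y.wd c).1 x.1) x.2|) := by gcongr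
    have h7 : 0 ≤ π.b (Y.wd c).1 * (K * |kbX (kbDw (Y.ch c).T) (π.co (Y.wd c).1 x.1) x.2|) := by positivity
    nlinarith
  have a6 : ∀ (c : Y.C) (t : ℝ) (y : KbB v) (w : ℝ),
      |kbDww (π.tstBack (Y.wd c).1 (Y.ch c).T) t y w| * a ≤ 4 * Kc * K * F.B (Y.wd c).1 ^ 2 := by
    intro c t y w
    rw [k4c_back_Dww h _ _ (hY.adm c).1, abs_mul, abs_of_pos (pow_pos (h.b_pos _) 2)]
    have h1 : |kbDww (Y.ch c).T t ((π.Oi (Y.wd c).1).mulVec y) (π.b (Y.wd c).1 * w)| * a ≤ K * 1 ^ 2 := hG.dww c t _ _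
    have h2 := h.b_le (Y.wd c).1
    have h3 := h.b_pos (Y.wd c).1
    have h5 : 0 < F.B (Y.wd c).1 := by linarith
    have h6 : π.b (Y.wd c).1 ^ 2 ≤ (2 * F.B (Y.wd c).1) ^ 2 := by gcongr
    calc _ = π.b (Y.wd c).1 ^ 2 * (|kbDww (Y.ch c).T t ((π.Oi (Y.wd c).1).mulVec y) (π.b (Y.wd c).1 * w)| * a) := by ring
      _ ≤ π.b (Y.wd c).1 ^ 2 * (K * 1 ^ 2) := by gcongr
      _ ≤ (2 * F.B (Y.wd c).1) ^ 2 * (K * 1 ^ 2) := by gcongr
      _ ≤ _ := by nlinarith [mul_pos (by linarith : 0 < K) (pow_pos h5 2)]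
  exact
  { size := fun c => a1 c
    box := fun c l hl t ht => a2 c l hl t ht
    val := fun c l hl t ht => a3 c l hl t ht
    dw := fun c l hl t ht => a4 c l hl t ht
    dw_low := fun c x hx => a5 c x hx
    dww := fun c t y w => a6 c t y w }

/-- lists: `if hγ : γ ∈ π.kW then Lst ⟨γ, hγ⟩ d (π.bsN γ o) else ∅` -/
theorem k4c_back_Known {Kc aL K : ℝ} (h : π.Ok Kc aL) (hK : 0 ≤ K) (hKn : Y.Known ((F.k4cChg π).hid aL) K) : Y.k4cBack.Known (F.hid aL) K := by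
  classical
  obtain ⟨Lst, h1, h2, h3⟩ := hKn
  let L0 : π.kW → ℤ → ℝ × KbB v → Finset Y.C := Lst
  let L' : F.W → ℤ → ℝ × KbB v → Finset Y.C :=
    fun γ d o => if hγ : γ ∈ π.kW then L0 ⟨γ, hγ⟩ d (π.bsN γ o) else ∅
  have p1 : ∀ (γ : F.W) (d : ℤ) (o : ℝ × KbB v), ((L' γ d o).card : ℝ) ≤ K := by
    intro γ d o
    by_cases hγ : γ ∈ π.kW
    · simp only [L', dif_pos hγ]
      exact h1 _ _ _
    · simp only [L', dif_neg hγ, Finset.card_empty, Nat.cast_zero]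
      exact hK
  have p2 : ∀ (γ : F.W) (d : ℤ) (c : Y.C), MeasurableSet {o | c ∈ L' γ d o} := by
    intro γ d c
    by_cases hγ : γ ∈ π.kW
    · have e1 : {o | c ∈ L' γ d o} = (fun o : ℝ × KbB v => (o.1, (π.Oi γ).mulVec o.2)) ⁻¹' {o | c ∈ L0 ⟨γ, hγ⟩ d o} := by
        ext o
        simp only [L', dif_pos hγ, Set.mem_ofPred_eq, Set.mem_preimage, K4cPar.bsN]
      rw [e1]
      exact k4c_mulVec_meas _ (h2 ⟨γ, hγ⟩ d c)
    · have e1 : {o | c ∈ L' γ d o} = ∅ := by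
        ext o
        simp only [L', dif_neg hγ, Set.mem_ofPred_eq, Finset.notMem_empty, Set.mem_empty_iff_false]
      rw [e1]
      exact MeasurableSet.empty
  have p3 : ∀ (c : Y.C) (x : F.Lam × ℝ), x ∈ Y.S c → c ∈ L' (Y.wd c).1 (F.hid aL (Y.wd c).1 x) (F.bs (Y.wd c).1 x) := by
    intro c x hx
    have e0 : c ∈ L0 (Y.wd c) ((F.k4cChg π).hid aL (Y.wd c) x) ((F.k4cChg π).bs (Y.wd c) x) := h3 c x hx
    have g : ∀ γ : π.kW, c ∈ L0 γ ((F.k4cChg π).hid aL γ x) ((F.k4cChg π).bs γ x) → c ∈ L' γ.1 (F.hid aL γ.1 x) (F.bs γ.1 x) := by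
      intro γ e
      rw [k4c_chg_hid h, k4c_chg_bs] at e
      simp only [L', dif_pos γ.2]
      exact e
    exact g (Y.wd c) e0
  exact ⟨L', p1, p2, p3⟩

theorem k4c_back_Tmp {Kc aL Q : ℝ} (h : π.Ok Kc aL) (hKc : 1 ≤ Kc) (hQ : 1 ≤ Q) (hT : Y.Tmp Q) : Y.k4cBack.Tmp (Kc * Q) := by
  have hQQ : Q ≤ Kc * Q := by nlinarith
  have a2 : 1 ≤ Kc * Q * Y.q := by
    have hq : 0 ≤ Y.q := by unfold KbSys.q kbQ; positivity
    exact hT.q_low.trans (mul_le_mul_of_nonneg_right hQQ hq)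
  have a3 : ∀ c : Y.C, 1 ≤ Kc * Q * |(π.O (Y.wd c).1 * (Y.ch c).D).det| := by
    intro c
    rw [Matrix.det_mul, abs_mul]
    have e3 : 1 ≤ Q * |(Y.ch c).D.det| := hT.J_low c
    have e4 := h.det_ge (Y.wd c).1
    calc (1:ℝ) = 1 * 1 := by ring
      _ ≤ (Kc * |(π.O (Y.wd c).1).det|) * (Q * |(Y.ch c).D.det|) := mul_le_mul e4 e3 (by norm_num) (by linarith)
      _ = _ := by ring
  have a4 : ∀ c : Y.C, ‖(π.O (Y.wd c).1).mulVec (Y.ch c).y0‖ + ‖(π.O (Y.wd c).1).mulVec (Y.ch c).y1‖ ≤ Kc * Q := by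
    intro c
    have e1 := k4c_mulVec_le (π.O (Y.wd c).1) (Y.ch c).y0
    have e2 := k4c_mulVec_le (π.O (Y.wd c).1) (Y.ch c).y1
    have e3 := h.O_le (Y.wd c).1
    have e4 := hT.cen c
    have e5 := norm_nonneg (Y.ch c).y0
    have e6 := norm_nonneg (Y.ch c).y1
    calc _ ≤ kbMn (π.O (Y.wd c).1) * (‖(Y.ch c).y0‖ + ‖(Y.ch c).y1‖) := by linarith
      _ ≤ Kc * Q := mul_le_mul e3 e4 (by linarith) (by linarith)
  exact
  { card := hT.card.trans hQQ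
    q_low := a2
    J_low := fun c => a3 c
    cen := fun c => a4 c }

theorem k4c_back_q : Y.k4cBack.q = Y.q := rfl

theorem k4c_back_J (c : Y.C) : (Y.k4cBack.ch c).J = |(π.O (Y.wd c).1).det| * (Y.ch c).J := by
  have a : |(π.O (Y.wd c).1 * (Y.ch c).D).det| = |(π.O (Y.wd c).1).det| * |(Y.ch c).D.det| := by
    rw [Matrix.det_mul, abs_mul]
  exact a

theorem k4c_back_mass {Kc aL : ℝ} (hF : F.WF) (h : π.Ok Kc aL) (hY : Y.WF) : Y.k4cBack.mass = π.Zw * Y.mass := by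
  have hZ1 : π.Zw ≤ 1 := k4c_Zw_le hF
  have hZt : π.Zw ≠ ⊤ := ne_top_of_le_ne_top ENNReal.one_ne_top hZ1
  have a0 : ∀ (γ : π.kW) (S : Set (F.Lam × ℝ)), S ⊆ π.Ev γ.1 → (F.k4cChg π).mu γ S = F.mu γ.1 S := by
    intro γ S hS
    have e1 : (F.k4cChg π).mu γ S = ((F.mu γ.1).restrict (π.Ev γ.1)) S :=
      congrArg (fun μ : Measure (F.Lam × ℝ) => μ S) (k4c_chg_mu h γ)
    have e2 : ((F.mu γ.1).restrict (π.Ev γ.1)) S = F.mu γ.1 S := by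
      rw [Measure.restrict_apply' (h.Ev_meas _)]
      congr 1
      exact Set.inter_eq_left.mpr hS
    exact e1.trans e2
  have a : ∀ c : Y.C, (F.k4cChg π).mu (Y.wd c) (Y.S c) = F.mu (Y.wd c).1 (Y.S c) :=
    fun c => a0 (Y.wd c) (Y.S c) (fun x hx => (hY.S_sub c hx).1)
  have b : Y.k4cBack.mass = ∑ c, F.om (Y.wd c).1 * F.mu (Y.wd c).1 (Y.S c) := rfl
  have d : Y.mass = ∑ c, (F.om (Y.wd c).1 / π.Zw) * (F.k4cChg π).mu (Y.wd c) (Y.S c) := rfl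
  rw [b, d, Finset.mul_sum]
  refine Finset.sum_congr rfl fun c _ => ?_
  rw [a c, ← mul_assoc, ENNReal.mul_div_cancel h.Zw_pos hZt]

end

end Claimed.Agent.R252
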