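import Claimed.Agent.R252.S4C.InfoContract

/-!
# ROW 252 (S0492), unit S4C (post BP-252-S4C, helper294), file 6: THE ENTROPY WINDOW, second part.      ALL LEAVES L-252-S4C-INFO-5..8 PROVED (helper187).

Paper: 04 l.643-672.   TWO DEVIATIONS from the paper which remove all work "at every potential parent" and all coordinates of the original problem:
* `k4c_window2`   the velocity bin `V j` may be measured in the coordinates of the parent of the window `j`; it is enough that, given the NEXT parent, `V (j+1)` has `≤ n` options from `V j`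
                  (telescoping of `c j = H(V j | hist j)` instead of the chain rule for one fixed `V_*`).
* `k4c_info_cond` conditioning on ANY event `G` costs `log 2` and the factor `1 / μ G`: the masks of the proposition may be made AFTER the choice of the window, at the chosen parent only.
* `k4c_info_mono` data processing: the end history may be any function of the history at the next parent.
Notation `H = k4cEnt μ`; tools: `k4c_info_eq`, `k4c_ent_congr`, `k4c_ent_le_pair`, `k4c_ent_submod`, `k4c_ent_opt` (`S4C/InfoContract.lean`).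
-/

set_option autoImplicit false

namespace Claimed.Agent.R252

open MeasureTheory
open scoped ENNReal BigOperators

noncomputable section

variable {Ω : Type*} [MeasurableSpace Ω]

section

variable {α ε ε' β : Type} [Fintype α] [Fintype ε] [Fintype ε'] [Fintype β]

/-- **LEAF L-252-S4C-INFO-5** (~60 l.).  Data processing.
PROOF.  By `k4c_info_eq` the claim is `H(A,E) - H(A,E,V) ≤ H(A,E') - H(A,E',V)`.  Submodularity with `X = V`, `Y = E'`, `Z = (A,E)`: `H(V,E',(A,E)) + H(A,E) ≤ H(V,(A,E)) + H(E',(A,E))`; `E` is a function of `E'`: `H(E',(A,E)) = H(A,E')`,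
`H(V,E',(A,E)) = H((A,E'),V)` (`k4c_ent_congr`). -/
theorem k4c_info_mono (μ : Measure Ω) [IsProbabilityMeasure μ] {A : Ω → α} {E : Ω → ε} {E' : Ω → ε'} {V : Ω → β} (hA : KsLab A) (hE : KsLab E) (hE' : KsLab E')
    (hV : KsLab V) (f : ε' → ε) (hf : ∀ x, E x = f (E' x)) : k4cInfo μ A E V ≤ k4cInfo μ A E' V := by
  have hAE := ks_lab_pair hA hE
  have h1 := k4c_ent_submod μ hV hE' hAE
  have b1 : k4cEnt μ (ksPair (ksPair V E') (ksPair A E)) = k4cEnt μ (ksPair (ksPair A E') V) :=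
    k4c_ent_congr μ (ks_lab_pair (ks_lab_pair hV hE') hAE) (fun t => ((t.2.1, t.1.2), t.1.1))
      (fun t => ((t.2, t.1.2), (t.1.1, f t.1.2))) (fun _ => rfl)
      (fun x => by
        change ((V x, E' x), (A x, E x)) = ((V x, E' x), (A x, f (E' x)))
        rw [← hf])
  have b2 : k4cEnt μ (ksPair V (ksPair A E)) = k4cEnt μ (ksPair (ksPair A E) V) :=
    k4c_ent_congr μ (ks_lab_pair hV hAE) (fun t => (t.2, t.1)) (fun t => (t.2, t.1)) (fun _ => rfl) (fun _ => rfl)
  have b3 : k4cEnt μ (ksPair E' (ksPair A E)) = k4cEnt μ (ksPair A E') :=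
    k4c_ent_congr μ (ks_lab_pair hE' hAE) (fun t => (t.2.1, t.1)) (fun t => (t.2, (t.1, f t.2))) (fun _ => rfl)
      (fun x => by
        change (E' x, (A x, E x)) = (E' x, (A x, f (E' x)))
        rw [← hf])
  rw [k4c_info_eq μ hA hE hV, k4c_info_eq μ hA hE' hV]
  rw [b1, b2, b3] at h1
  linarith

/-- **LEAF L-252-S4C-INFO-6** (~30 l.).  Non-negativity.   PROOF.  `k4c_info_eq`, `k4c_ent_submod` with `X = V`, `Y = E`, `Z = A`, bracketings by `k4c_ent_congr`. -/
theorem k4c_info_nonneg (μ : Measure Ω) [IsProbabilityMeasure μ] {A : Ω → α} {E : Ω → ε} {V : Ω → β} (hA : KsLab A) (hE : KsLab E) (hV : KsLab V) :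
    0 ≤ k4cInfo μ A E V := by
  have h1 := k4c_ent_submod μ hV hE hA
  have b1 : k4cEnt μ (ksPair (ksPair V E) A) = k4cEnt μ (ksPair (ksPair A E) V) :=
    k4c_ent_congr μ (ks_lab_pair (ks_lab_pair hV hE) hA) (fun t => ((t.2, t.1.2), t.1.1)) (fun t => ((t.2, t.1.2), t.1.1)) (fun _ => rfl) (fun _ => rfl)
  have b2 : k4cEnt μ (ksPair V A) = k4cEnt μ (ksPair A V) :=
    k4c_ent_congr μ (ks_lab_pair hV hA) (fun t => (t.2, t.1)) (fun t => (t.2, t.1)) (fun _ => rfl) (fun _ => rfl)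
  have b3 : k4cEnt μ (ksPair E A) = k4cEnt μ (ksPair A E) :=
    k4c_ent_congr μ (ks_lab_pair hE hA) (fun t => (t.2, t.1)) (fun t => (t.2, t.1)) (fun _ => rfl) (fun _ => rfl)
  rw [k4c_info_eq μ hA hE hV]
  rw [b1, b2, b3] at h1
  linarith

/-- the part of the information of the parent `(A, B)` which belongs to the value `b0` of `B` -/
theorem k4c_info_part {γ : Type} (μ : Measure Ω) [IsProbabilityMeasure μ] (A : Ω → α) (E : Ω → ε) (V : Ω → β) (B : Ω → γ) (b0 : γ)
    (hG : MeasurableSet (B ⁻¹' {b0})) (hpos : μ (B ⁻¹' {b0}) ≠ 0) :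
    μ.real (B ⁻¹' {b0}) * k4cInfo ((μ (B ⁻¹' {b0}))⁻¹ • μ.restrict (B ⁻¹' {b0})) A E V
      = ∑ A0, k4cP μ (ksPair A B) (A0, b0) * ∑ E0, ∑ b, k4cR μ (ksPair A B) E V (A0, b0) E0 b *
          Real.log (k4cR μ (ksPair A B) E V (A0, b0) E0 b / (k4Pre (k4cR μ (ksPair A B) E V) (A0, b0) E0 * k4Pi (k4cR μ (ksPair A B) E V) (A0, b0) b)) := by
  set G := B ⁻¹' {b0} with hGdef
  have hc : μ.real G ≠ 0 := by
    rw [measureReal_def]
    exact (ENNReal.toReal_ne_zero).2 ⟨hpos, measure_ne_top _ _⟩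
  have hreal : ∀ X : Set Ω, ((μ G)⁻¹ • μ.restrict G).real X = (μ.real G)⁻¹ * μ.real (X ∩ G) := fun X => by
    simp only [measureReal_def, Measure.smul_apply, smul_eq_mul, ENNReal.toReal_mul, ENNReal.toReal_inv, Measure.restrict_apply' hG]
  have hpre : ∀ A0, ksPair A B ⁻¹' {(A0, b0)} = A ⁻¹' {A0} ∩ G := fun A0 => by
    ext x
    simp [ksPair, Prod.ext_iff, hGdef]
  have hP : ∀ A0, μ.real G * k4cP ((μ G)⁻¹ • μ.restrict G) A A0 = k4cP μ (ksPair A B) (A0, b0) := fun A0 => by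
    unfold k4cP
    rw [hreal, hpre, ← mul_assoc, mul_inv_cancel₀ hc, one_mul]
  have hR : ∀ A0 E0 b, k4cR ((μ G)⁻¹ • μ.restrict G) A E V A0 E0 b = k4cR μ (ksPair A B) E V (A0, b0) E0 b := fun A0 E0 b => by
    unfold k4cR
    rw [hreal, hreal, hpre, mul_div_mul_left _ _ (inv_ne_zero hc)]
    congr 2
    ext x
    simp only [Set.mem_inter_iff]
    tauto
  unfold k4cInfo k4Info
  rw [Finset.mul_sum]
  refine Finset.sum_congr rfl fun A0 _ => ?_
  rw [← mul_assoc, hP]
  simp only [k4Pre, k4Pi, hR]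

open Classical in
/-- **LEAF L-252-S4C-INFO-7** (~250 l.).  **Conditioning on an event.**
PROOF.  `B x := decide (x ∈ G) : Bool`, `A' := ksPair A B`.
(i) `k4cInfo μ A' E V ≤ k4cInfo μ A E V + log 2`: by `k4c_info_eq`, `H(A,B,V) ≤ H(A,V) + log 2` (`k4c_ent_opt`, `n = 2`, `L = univ`), `H(A,B,E) + H(A) ≤ H(A,E) + H(A,B)` (submodularity), `H(A,E,V) ≤ H(A,B,E,V)` (`k4c_ent_le_pair`), bracketings by `k4c_ent_congr`.
(ii) `k4cInfo μ A' E V = μ.real G * k4cInfo μ_G A E V + μ.real Gᶜ * k4cInfo μ_{Gᶜ} A E V` (unfold `k4cInfo`, `k4Info`, `k4cP`, `k4cR`; `Fintype.sum_prod_type`, `Fintype.sum_bool`; `A'⁻¹{(A0,true)} = A⁻¹{A0} ∩ G`;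
`μ_G.real X = μ.real (X ∩ G) / μ.real G`, the ratios `R` coincide, `p` is multiplied by `μ.real G`); if `μ Gᶜ = 0` the second term is `0`, otherwise it is `≥ 0` by `k4c_info_nonneg` for the probability `μ_{Gᶜ}`. -/
theorem k4c_info_cond (μ : Measure Ω) [IsProbabilityMeasure μ] {A : Ω → α} {E : Ω → ε} {V : Ω → β} (hA : KsLab A) (hE : KsLab E) (hV : KsLab V)
    {G : Set Ω} (hG : MeasurableSet G) (hpos : μ G ≠ 0) :
    μ.real G * k4cInfo ((μ G)⁻¹ • μ.restrict G) A E V ≤ k4cInfo μ A E V + Real.log 2 := by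
  set B : Ω → Bool := fun x => decide (x ∈ G) with hBdef
  have hBt : B ⁻¹' {true} = G := by
    ext x
    simp [hBdef]
  have hBf : B ⁻¹' {false} = Gᶜ := by
    ext x
    simp [hBdef]
  have hB : KsLab B := by
    intro b
    cases b
    · rw [hBf]
      exact hG.compl
    · rw [hBt]
      exact hG
  have hAB := ks_lab_pair hA hB
  -- (i)
  have hi : k4cInfo μ (ksPair A B) E V ≤ k4cInfo μ A E V + Real.log 2 := by
    have h1 := k4c_ent_opt μ (ks_lab_pair hA hV) hB (n := 2) (by norm_num)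
      (fun s0 => ⟨Finset.univ, by simp, fun d0 hd0 => absurd (Finset.mem_univ d0) hd0⟩)
    have h2 := k4c_ent_submod μ hB hE hA
    have h3 := k4c_ent_le_pair μ (ks_lab_pair (ks_lab_pair hA hE) hV) hB
    have b1 : k4cEnt μ (ksPair (ksPair A V) B) = k4cEnt μ (ksPair (ksPair A B) V) :=
      k4c_ent_congr μ (ks_lab_pair (ks_lab_pair hA hV) hB) (fun t => ((t.1.1, t.2), t.1.2)) (fun t => ((t.1.1, t.2), t.1.2)) (fun _ => rfl) (fun _ => rfl)
    have b2 : k4cEnt μ (ksPair (ksPair B E) A) = k4cEnt μ (ksPair (ksPair A B) E) :=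
      k4c_ent_congr μ (ks_lab_pair (ks_lab_pair hB hE) hA) (fun t => ((t.2, t.1.1), t.1.2)) (fun t => ((t.1.2, t.2), t.1.1)) (fun _ => rfl) (fun _ => rfl)
    have b3 : k4cEnt μ (ksPair B A) = k4cEnt μ (ksPair A B) :=
      k4c_ent_congr μ (ks_lab_pair hB hA) (fun t => (t.2, t.1)) (fun t => (t.2, t.1)) (fun _ => rfl) (fun _ => rfl)
    have b4 : k4cEnt μ (ksPair E A) = k4cEnt μ (ksPair A E) :=
      k4c_ent_congr μ (ks_lab_pair hE hA) (fun t => (t.2, t.1)) (fun t => (t.2, t.1)) (fun _ => rfl) (fun _ => rfl)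
    have b5 : k4cEnt μ (ksPair (ksPair (ksPair A E) V) B) = k4cEnt μ (ksPair (ksPair (ksPair A B) E) V) :=
      k4c_ent_congr μ (ks_lab_pair (ks_lab_pair (ks_lab_pair hA hE) hV) hB) (fun t => (((t.1.1.1, t.2), t.1.1.2), t.1.2))
        (fun t => (((t.1.1.1, t.1.2), t.2), t.1.1.2)) (fun _ => rfl) (fun _ => rfl)
    rw [k4c_info_eq μ hAB hE hV, k4c_info_eq μ hA hE hV]
    rw [b1] at h1
    rw [b2, b3, b4] at h2
    rw [b5] at h3
    push_cast at h1
    linarith
  -- (ii)
  have hsplit : k4cInfo μ (ksPair A B) E V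
      = (∑ A0, k4cP μ (ksPair A B) (A0, true) * ∑ E0, ∑ b, k4cR μ (ksPair A B) E V (A0, true) E0 b *
          Real.log (k4cR μ (ksPair A B) E V (A0, true) E0 b / (k4Pre (k4cR μ (ksPair A B) E V) (A0, true) E0 * k4Pi (k4cR μ (ksPair A B) E V) (A0, true) b)))
        + ∑ A0, k4cP μ (ksPair A B) (A0, false) * ∑ E0, ∑ b, k4cR μ (ksPair A B) E V (A0, false) E0 b *
          Real.log (k4cR μ (ksPair A B) E V (A0, false) E0 b / (k4Pre (k4cR μ (ksPair A B) E V) (A0, false) E0 * k4Pi (k4cR μ (ksPair A B) E V) (A0, false) b)) := by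
    unfold k4cInfo k4Info
    rw [Fintype.sum_prod_type, ← Finset.sum_add_distrib]
    refine Finset.sum_congr rfl fun A0 _ => ?_
    rw [Fintype.sum_bool]
  have ht := k4c_info_part μ A E V B true (by rw [hBt]; exact hG) (by rw [hBt]; exact hpos)
  rw [hBt] at ht
  have hfalse : 0 ≤ ∑ A0, k4cP μ (ksPair A B) (A0, false) * ∑ E0, ∑ b, k4cR μ (ksPair A B) E V (A0, false) E0 b *
          Real.log (k4cR μ (ksPair A B) E V (A0, false) E0 b / (k4Pre (k4cR μ (ksPair A B) E V) (A0, false) E0 * k4Pi (k4cR μ (ksPair A B) E V) (A0, false) b)) := by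
    by_cases h0 : μ Gᶜ = 0
    · refine le_of_eq (Eq.symm (Finset.sum_eq_zero fun A0 _ => ?_))
      have : k4cP μ (ksPair A B) (A0, false) = 0 := by
        unfold k4cP
        rw [measureReal_def]
        have : μ (ksPair A B ⁻¹' {(A0, false)}) = 0 := by
          refine measure_mono_null ?_ h0
          intro x hx
          rw [← hBf]
          exact congrArg Prod.snd hx
        rw [this]
        simp
      rw [this, zero_mul]
    · have hf := k4c_info_part μ A E V B false (by rw [hBf]; exact hG.compl) (by rw [hBf]; exact h0)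
      rw [← hf, hBf]
      have : IsProbabilityMeasure ((μ Gᶜ)⁻¹ • μ.restrict Gᶜ) := ProbabilityTheory.cond_isProbabilityMeasure h0
      exact mul_nonneg measureReal_nonneg (k4c_info_nonneg _ hA hE hV)
  rw [ht]
  linarith

end

/-- **LEAF L-252-S4C-INFO-8** (~120 l.).  **The entropy window with moving coordinates.**
PROOF.  `c j := H(hist j, V j) - H(hist j)`.  By `k4c_info_eq` and `k4c_ent_congr` (`hist j` is a function of `hist (j+1)`) the information of the window `j` is `c j - (H(hist (j+1), V j) - H(hist (j+1)))`.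
`H(hist (j+1), V (j+1)) ≤ H((hist (j+1), V j), V (j+1)) ≤ H(hist (j+1), V j) + log n` (`k4c_ent_le_pair` + `k4c_ent_congr`, `k4c_ent_opt`), so the information is `≤ c j - c (j+1) + log n`.
`Finset.sum_range_sub'`; `0 ≤ c M` (`k4c_ent_le_pair`), `c 0 ≤ log (card (β 0))` (`k4c_ent_opt` with `L = univ`).  Pigeonhole as in `k4c_window`. -/
theorem k4c_window2 (μ : Measure Ω) [IsProbabilityMeasure μ] {S β : ℕ → Type} [∀ j, Fintype (S j)] [∀ j, Fintype (β j)] {hist : ∀ j, Ω → S j} {V : ∀ j, Ω → β j}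
    (hh : ∀ j, KsLab (hist j)) (hV : ∀ j, KsLab (V j)) (hnest : ∀ j, ∃ f : S (j + 1) → S j, ∀ x, hist j x = f (hist (j + 1) x)) {n : ℕ} (hn : 0 < n)
    (hopt : ∀ j, KsOpt μ (ksPair (hist (j + 1)) (V j)) (V (j + 1)) n) {M : ℕ} (hM : 0 < M) :
    ∃ j < M, k4cInfo μ (hist j) (hist (j + 1)) (V j) ≤ Real.log (Fintype.card (β 0)) / M + Real.log n := by
  set c : ℕ → ℝ := fun j => k4cEnt μ (ksPair (hist j) (V j)) - k4cEnt μ (hist j) with hc
  have hinfo : ∀ j, k4cInfo μ (hist j) (hist (j + 1)) (V j) ≤ c j - c (j + 1) + Real.log n := fun j => by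
    obtain ⟨f, hf⟩ := hnest j
    have e1 : k4cEnt μ (ksPair (hist j) (hist (j + 1))) = k4cEnt μ (hist (j + 1)) :=
      k4c_ent_congr μ (ks_lab_pair (hh j) (hh (j + 1))) Prod.snd (fun y => (f y, y)) (fun _ => rfl)
        (fun x => by change (hist j x, hist (j + 1) x) = (f (hist (j + 1) x), hist (j + 1) x); rw [← hf])
    have e2 : k4cEnt μ (ksPair (ksPair (hist j) (hist (j + 1))) (V j)) = k4cEnt μ (ksPair (hist (j + 1)) (V j)) :=
      k4c_ent_congr μ (ks_lab_pair (ks_lab_pair (hh j) (hh (j + 1))) (hV j)) (fun t => (t.1.2, t.2)) (fun y => ((f y.1, y.1), y.2)) (fun _ => rfl)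
        (fun x => by
          change ((hist j x, hist (j + 1) x), V j x) = ((f (hist (j + 1) x), hist (j + 1) x), V j x)
          rw [← hf])
    have h1 := k4c_ent_le_pair μ (ks_lab_pair (hh (j + 1)) (hV (j + 1))) (hV j)
    have b1 : k4cEnt μ (ksPair (ksPair (hist (j + 1)) (V (j + 1))) (V j)) = k4cEnt μ (ksPair (ksPair (hist (j + 1)) (V j)) (V (j + 1))) :=
      k4c_ent_congr μ (ks_lab_pair (ks_lab_pair (hh (j + 1)) (hV (j + 1))) (hV j)) (fun t => ((t.1.1, t.2), t.1.2)) (fun t => ((t.1.1, t.2), t.1.2))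
        (fun _ => rfl) (fun _ => rfl)
    have h2 := k4c_ent_opt μ (ks_lab_pair (hh (j + 1)) (hV j)) (hV (j + 1)) hn (hopt j)
    rw [k4c_info_eq μ (hh j) (hh (j + 1)) (hV j), e1, e2]
    simp only [hc]
    rw [b1] at h1
    linarith
  have hsum : ∑ j ∈ Finset.range M, (c j - c (j + 1) + Real.log n) = c 0 - c M + M * Real.log n := by
    rw [Finset.sum_add_distrib, Finset.sum_range_sub' c M, Finset.sum_const, Finset.card_range, nsmul_eq_mul]
  have hcM : 0 ≤ c M := sub_nonneg.2 (k4c_ent_le_pair μ (hh M) (hV M))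
  have hΩ : Nonempty Ω := μ.nonempty_of_neZero
  have hcard : 0 < Fintype.card (β 0) := Fintype.card_pos_iff.2 ⟨V 0 hΩ.some⟩
  have hc0 : c 0 ≤ Real.log (Fintype.card (β 0)) := by
    have := k4c_ent_opt μ (hh 0) (hV 0) hcard (fun s0 => ⟨Finset.univ, le_rfl, fun d0 hd0 => absurd (Finset.mem_univ d0) hd0⟩)
    simp only [hc]
    linarith
  have hM' : (0 : ℝ) < M := by exact_mod_cast hM
  have hle : ∑ j ∈ Finset.range M, k4cInfo μ (hist j) (hist (j + 1)) (V j)
      ≤ ∑ _j ∈ Finset.range M, (Real.log (Fintype.card (β 0)) / M + Real.log n) := by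
    refine (Finset.sum_le_sum fun j _ => hinfo j).trans ?_
    rw [hsum, Finset.sum_const, Finset.card_range, nsmul_eq_mul, mul_add, mul_div_cancel₀ _ hM'.ne']
    linarith
  obtain ⟨j, hj, hjle⟩ := Finset.exists_le_of_sum_le (Finset.nonempty_range_iff.2 hM.ne') hle
  exact ⟨j, Finset.mem_range.1 hj, hjle⟩

end

end Claimed.Agent.R252
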