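import Claimed.Agent.R252.State.KsState
import Claimed.Agent.R252.S4T.Contract
import Claimed.Agent.RW.Ent

/-!
# ROW 252 (S0492), unit S4C (post BP-252-S4C, helper294), file 2: THE ENTROPY WINDOW.      CONTRACT file: the `sorry`s are the leaves L-252-S4C-INFO-*.

Paper: 04 l.643-672 (choice of the window with the single law `μ_prep`; from the original bin `V_*` to the required `v`-bin).      ONE scale, finite labels on an arbitrary probability space.
* `k4cP μ A`, `k4cR μ A E V` : the parent weights `p_A = μ {A}` and the conditional joint laws `R_A (E, b) = λ_A⁰ {E, b}`: EXACTLY the input `(p, R)` of `k4_trunc` (S4T) and `ks_truncate` (State).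
* `k4cInfo μ A E V = k4Info (k4cP ..) (k4cR ..) = ∑_A p_A I_{λ_A⁰} (V ; E)`.
* `k4c_window`      : among `M` successive windows one has information `≤ log #bins / M`   (chain rule for nested histories; NO non-negativity is needed because the windows are contiguous: history `j + 1` = end of window `j` = start of window `j + 1`).
* `k4c_info_refine` : if, given the parent and `V_*`, the required bin has `≤ n` options, its information is larger by at most `log n`.
Entropy library: `RW/Ent.lean` (frozen, import only): `Pm`, `Pm.ent`, `en_submod`, `en_le_pair`, `en_congr`, `en_le_log_card`, `en_pair_eq_cond`.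
-/

set_option autoImplicit false

namespace Claimed.Agent.R252

open MeasureTheory
open scoped ENNReal BigOperators

noncomputable section

variable {Ω : Type*} [MeasurableSpace Ω]

/-! ## 1. Definitions -/

/-- the parent weights `p_A` -/
def k4cP {α : Type} (μ : Measure Ω) (A : Ω → α) (A0 : α) : ℝ := μ.real (A ⁻¹' {A0})

/-- the conditional joint law of (end history, velocity bin) in the parent -/
def k4cR {α ε β : Type} (μ : Measure Ω) (A : Ω → α) (E : Ω → ε) (V : Ω → β) (A0 : α) (E0 : ε) (b : β) : ℝ :=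
  μ.real (A ⁻¹' {A0} ∩ E ⁻¹' {E0} ∩ V ⁻¹' {b}) / μ.real (A ⁻¹' {A0})

/-- `∑_A p_A I (V ; E | A)` -/
def k4cInfo {α ε β : Type} [Fintype α] [Fintype ε] [Fintype β] (μ : Measure Ω) (A : Ω → α) (E : Ω → ε) (V : Ω → β) : ℝ :=
  k4Info (k4cP μ A) (k4cR μ A E V)

/-- Shannon entropy of a finite label -/
def k4cEnt {S : Type} [Fintype S] (μ : Measure Ω) (s : Ω → S) : ℝ := ∑ s0, Real.negMulLog (μ.real (s ⁻¹' {s0}))

/-! ## 2. Leaves -/

section

variable {α ε β β' S S' T : Type} [Fintype α] [Fintype ε] [Fintype β] [Fintype β'] [Fintype S] [Fintype S'] [Fintype T]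

/-- **LEAF L-252-S4C-INFO-1a** (~50 l.).  `(p, R)` is a mixture in the sense of S4T.
PROOF.  `measureReal_nonneg`, `div_nonneg`; `∑ A0, μ.real (A⁻¹{A0}) = μ.real univ = 1` (`ks_sum_inter_real` with `X = univ`); `∑ E0, ∑ b, μ.real (A⁻¹{A0} ∩ E⁻¹{E0} ∩ V⁻¹{b}) = μ.real (A⁻¹{A0})` (twice `ks_sum_inter_real`), `Finset.sum_div`, `div_self_le_one`. -/
theorem k4c_mix (μ : Measure Ω) [IsProbabilityMeasure μ] {A : Ω → α} {E : Ω → ε} {V : Ω → β} (hA : KsLab A) (hE : KsLab E) (hV : KsLab V) :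
    K4Mix (k4cP μ A) (k4cR μ A E V) where
  p_nonneg := fun _ => measureReal_nonneg
  p_sum := by
    have h := ks_sum_inter_real μ hA Set.univ
    simp only [Set.univ_inter] at h
    unfold k4cP
    rw [h]
    simp
  R_nonneg := fun _ _ _ => div_nonneg measureReal_nonneg measureReal_nonneg
  R_sum := fun A0 => by
    unfold k4cR
    simp only [← Finset.sum_div]
    have h1 : ∀ E0, ∑ b, μ.real (A ⁻¹' {A0} ∩ E ⁻¹' {E0} ∩ V ⁻¹' {b}) = μ.real (A ⁻¹' {A0} ∩ E ⁻¹' {E0}) := fun E0 =>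
      ks_sum_inter_real μ hV _
    simp only [h1]
    rw [ks_sum_inter_real μ hE]
    exact div_self_le_one _

/-- **LEAF L-252-S4C-INFO-1b** (~150 l.).  Information in terms of entropies.
PROOF.  Write `m (A0,E0,b)`, `m (A0,E0)`, `m (A0,b)`, `m A0` for the masses.  `k4Pre (k4cR ..) A0 E0 = m (A0,E0) / m A0`, `k4Pi (k4cR ..) A0 b = m (A0,b) / m A0` (`ks_sum_inter_real`).  Termwise: if `m (A0,E0,b) = 0` the term is `0`; otherwise all four masses are
positive (monotonicity) and `p R log (R / (pre π)) = m(AEb) (log m(AEb) + log m(A) - log m(AE) - log m(Ab))` (`Real.log_mul`, `Real.log_div`).  Sum each of the four pieces over the superfluous variables (`ks_sum_inter_real`); `Real.negMulLog x = - x log x`;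
the events of `ksPair` are intersections (`ks_triple_preimage`); `Fintype.sum_prod_type`. -/
theorem k4c_info_eq (μ : Measure Ω) [IsProbabilityMeasure μ] {A : Ω → α} {E : Ω → ε} {V : Ω → β} (hA : KsLab A) (hE : KsLab E) (hV : KsLab V) :
    k4cInfo μ A E V = k4cEnt μ (ksPair A V) + k4cEnt μ (ksPair A E) - k4cEnt μ (ksPair (ksPair A E) V) - k4cEnt μ A := by
  set m3 : α → ε → β → ℝ := fun A0 E0 b => μ.real (A ⁻¹' {A0} ∩ E ⁻¹' {E0} ∩ V ⁻¹' {b}) with hm3
  set mAE : α → ε → ℝ := fun A0 E0 => μ.real (A ⁻¹' {A0} ∩ E ⁻¹' {E0}) with hmAE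
  set mAV : α → β → ℝ := fun A0 b => μ.real (A ⁻¹' {A0} ∩ V ⁻¹' {b}) with hmAV
  set mA : α → ℝ := fun A0 => μ.real (A ⁻¹' {A0}) with hmA
  have s3b : ∀ A0 E0, ∑ b, m3 A0 E0 b = mAE A0 E0 := fun A0 E0 => ks_sum_inter_real μ hV _
  have s3E : ∀ A0 b, ∑ E0, m3 A0 E0 b = mAV A0 b := fun A0 b => by
    have h := ks_sum_inter_real μ hE (A ⁻¹' {A0} ∩ V ⁻¹' {b})
    rw [hmAV]
    simp only
    rw [← h]
    refine Finset.sum_congr rfl fun E0 _ => ?_
    simp only [hm3]
    congr 1
    ext x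
    simp only [Set.mem_inter_iff]
    tauto
  have sAE : ∀ A0, ∑ E0, mAE A0 E0 = mA A0 := fun A0 => ks_sum_inter_real μ hE _
  have n3 : ∀ A0 E0 b, 0 ≤ m3 A0 E0 b := fun _ _ _ => measureReal_nonneg
  have l3AE : ∀ A0 E0 b, m3 A0 E0 b ≤ mAE A0 E0 := fun A0 E0 b => measureReal_mono Set.inter_subset_left
  have l3AV : ∀ A0 E0 b, m3 A0 E0 b ≤ mAV A0 b := fun A0 E0 b =>
    measureReal_mono fun x hx => ⟨hx.1.1, hx.2⟩
  have l3A : ∀ A0 E0 b, m3 A0 E0 b ≤ mA A0 := fun A0 E0 b => measureReal_mono fun x hx => hx.1.1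
  -- the marginals of `R`
  have hPre : ∀ A0 E0, k4Pre (k4cR μ A E V) A0 E0 = mAE A0 E0 / mA A0 := fun A0 E0 => by
    unfold k4Pre k4cR
    rw [← Finset.sum_div]
    exact congrArg (· / mA A0) (s3b A0 E0)
  have hPi : ∀ A0 b, k4Pi (k4cR μ A E V) A0 b = mAV A0 b / mA A0 := fun A0 b => by
    unfold k4Pi k4cR
    rw [← Finset.sum_div]
    exact congrArg (· / mA A0) (s3E A0 b)
  -- the termwise identity
  have hterm : ∀ A0 E0 b, mA A0 * (k4cR μ A E V A0 E0 b * Real.log (k4cR μ A E V A0 E0 b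
        / (k4Pre (k4cR μ A E V) A0 E0 * k4Pi (k4cR μ A E V) A0 b)))
      = m3 A0 E0 b * Real.log (m3 A0 E0 b) + m3 A0 E0 b * Real.log (mA A0) - m3 A0 E0 b * Real.log (mAE A0 E0)
        - m3 A0 E0 b * Real.log (mAV A0 b) := fun A0 E0 b => by
    rw [hPre, hPi]
    have hR : k4cR μ A E V A0 E0 b = m3 A0 E0 b / mA A0 := rfl
    rw [hR]
    by_cases h0 : m3 A0 E0 b = 0
    · simp [h0]
    · have p3 : 0 < m3 A0 E0 b := lt_of_le_of_ne (n3 _ _ _) (Ne.symm h0)
      have pA : 0 < mA A0 := p3.trans_le (l3A _ _ _)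
      have pAE : 0 < mAE A0 E0 := p3.trans_le (l3AE _ _ _)
      have pAV : 0 < mAV A0 b := p3.trans_le (l3AV _ _ _)
      have e : m3 A0 E0 b / mA A0 / (mAE A0 E0 / mA A0 * (mAV A0 b / mA A0)) = m3 A0 E0 b * mA A0 / (mAE A0 E0 * mAV A0 b) := by
        field_simp
      rw [e, Real.log_div (by positivity) (by positivity), Real.log_mul p3.ne' pA.ne', Real.log_mul pAE.ne' pAV.ne']
      field_simp
      ring
  -- the four entropies
  have hA' : k4cEnt μ A = -∑ A0, mA A0 * Real.log (mA A0) := by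
    unfold k4cEnt
    rw [← Finset.sum_neg_distrib]
    exact Finset.sum_congr rfl fun A0 _ => by rw [Real.negMulLog]; ring
  have hAE' : k4cEnt μ (ksPair A E) = -∑ A0, ∑ E0, mAE A0 E0 * Real.log (mAE A0 E0) := by
    unfold k4cEnt
    rw [Fintype.sum_prod_type, ← Finset.sum_neg_distrib]
    refine Finset.sum_congr rfl fun A0 _ => ?_
    rw [← Finset.sum_neg_distrib]
    refine Finset.sum_congr rfl fun E0 _ => ?_
    have : ksPair A E ⁻¹' {(A0, E0)} = A ⁻¹' {A0} ∩ E ⁻¹' {E0} := by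
      ext x
      simp [ksPair, Prod.ext_iff]
    rw [this, Real.negMulLog]
    ring
  have hAV' : k4cEnt μ (ksPair A V) = -∑ A0, ∑ b, mAV A0 b * Real.log (mAV A0 b) := by
    unfold k4cEnt
    rw [Fintype.sum_prod_type, ← Finset.sum_neg_distrib]
    refine Finset.sum_congr rfl fun A0 _ => ?_
    rw [← Finset.sum_neg_distrib]
    refine Finset.sum_congr rfl fun b _ => ?_
    have : ksPair A V ⁻¹' {(A0, b)} = A ⁻¹' {A0} ∩ V ⁻¹' {b} := by
      ext x
      simp [ksPair, Prod.ext_iff]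
    rw [this, Real.negMulLog]
    ring
  have hAEV' : k4cEnt μ (ksPair (ksPair A E) V) = -∑ A0, ∑ E0, ∑ b, m3 A0 E0 b * Real.log (m3 A0 E0 b) := by
    unfold k4cEnt
    rw [Fintype.sum_prod_type, Fintype.sum_prod_type, ← Finset.sum_neg_distrib]
    refine Finset.sum_congr rfl fun A0 _ => ?_
    rw [← Finset.sum_neg_distrib]
    refine Finset.sum_congr rfl fun E0 _ => ?_
    rw [← Finset.sum_neg_distrib]
    refine Finset.sum_congr rfl fun b _ => ?_
    rw [ks_triple_preimage, Real.negMulLog]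
    ring
  have hmain : k4cInfo μ A E V = ∑ A0, ∑ E0, ∑ b, (m3 A0 E0 b * Real.log (m3 A0 E0 b) + m3 A0 E0 b * Real.log (mA A0)
      - m3 A0 E0 b * Real.log (mAE A0 E0) - m3 A0 E0 b * Real.log (mAV A0 b)) := by
    unfold k4cInfo k4Info
    refine Finset.sum_congr rfl fun A0 _ => ?_
    rw [Finset.mul_sum]
    refine Finset.sum_congr rfl fun E0 _ => ?_
    rw [Finset.mul_sum]
    exact Finset.sum_congr rfl fun b _ => hterm A0 E0 b
  have t2 : ∀ A0, ∑ E0, ∑ b, m3 A0 E0 b * Real.log (mA A0) = mA A0 * Real.log (mA A0) := fun A0 => by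
    simp only [← Finset.sum_mul, s3b, sAE]
  have t3 : ∀ A0 E0, ∑ b, m3 A0 E0 b * Real.log (mAE A0 E0) = mAE A0 E0 * Real.log (mAE A0 E0) := fun A0 E0 => by
    simp only [← Finset.sum_mul, s3b]
  have t4 : ∀ A0, ∑ E0, ∑ b, m3 A0 E0 b * Real.log (mAV A0 b) = ∑ b, mAV A0 b * Real.log (mAV A0 b) := fun A0 => by
    rw [Finset.sum_comm]
    simp only [← Finset.sum_mul, s3E]
  rw [hmain, hA', hAE', hAV', hAEV']
  simp only [Finset.sum_sub_distrib, Finset.sum_add_distrib, t2, t3, t4]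
  ring

/-- the law of a finite label as a finite probability space; the entropy of EVERY function of the label (all target types at once) -/
theorem k4c_ent_pm_aux (μ : Measure Ω) [IsProbabilityMeasure μ] {s : Ω → S} (hs : KsLab s) :
    ∃ P : Claimed.Agent.RW.Pm S, (∀ s0, P.w s0 = μ.real (s ⁻¹' {s0})) ∧
      ∀ (T' : Type) [Fintype T'] [DecidableEq T'] (g : S → T'), k4cEnt μ (g ∘ s) = P.ent g := by
  refine ⟨⟨fun s0 => μ.real (s ⁻¹' {s0}), fun _ => measureReal_nonneg, ?_⟩, fun _ => rfl, ?_⟩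
  · have h := ks_sum_inter_real μ hs Set.univ
    simp only [Set.univ_inter] at h
    rw [h]
    simp
  · intro T' _ _ g
    rw [Claimed.Agent.RW.en_cp_ent_eq_sum _ g Finset.univ (Finset.subset_univ _)]
    unfold k4cEnt
    refine Finset.sum_congr rfl fun t _ => ?_
    congr 1
    rw [← ks_sum_inter_real μ hs (g ∘ s ⁻¹' {t})]
    unfold Claimed.Agent.RW.Pm.pr
    rw [Finset.sum_filter]
    refine Finset.sum_congr rfl fun s0 _ => ?_
    by_cases h : g s0 = t
    · rw [if_pos h]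
      congr 1
      ext x
      simp only [Set.mem_inter_iff, Set.mem_preimage, Set.mem_singleton_iff, Function.comp_apply]
      constructor
      · exact fun hx => hx.2
      · exact fun hx => ⟨by rw [hx, h], hx⟩
    · rw [if_neg h]
      have : g ∘ s ⁻¹' {t} ∩ s ⁻¹' {s0} = ∅ := by
        ext x
        simp only [Set.mem_inter_iff, Set.mem_preimage, Set.mem_singleton_iff, Function.comp_apply, Set.mem_empty_iff_false, iff_false,
          not_and]
        intro h1 h2
        exact h (by rw [← h2, h1])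
      rw [this]
      simp

omit [Fintype S] in
/-- an atom of positive mass is attained -/
theorem k4c_atom_attained (μ : Measure Ω) {s : Ω → S} {s0 : S} (h : μ.real (s ⁻¹' {s0}) ≠ 0) : ∃ x, s x = s0 := by
  by_contra hcon
  push Not at hcon
  apply h
  have : s ⁻¹' {s0} = ∅ := by
    ext x
    simpa using hcon x
  rw [this]
  simp

/-- **LEAF L-252-S4C-INFO-2a** (~80 l.).  Transfer to the finite library: the push-forward of `μ` under a label is a `Pm`, and the entropy of every function of the label is `Pm.ent`.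
PROOF.  `w s0 := μ.real (s⁻¹{s0})`, `ks_sum_inter_real`.  `(g ∘ s)⁻¹{t} = ⋃ s0 ∈ {g = t}, s⁻¹{s0}`: `Pm.pr g t = μ.real ((g ∘ s)⁻¹{t})` (`ks_mass_preimage` / `measureReal_biUnion_finset`); `RW.en_ent_eq_sum` (or: values outside the image have mass `0`, `Real.negMulLog_zero`). -/
theorem k4c_ent_pm [DecidableEq T] (μ : Measure Ω) [IsProbabilityMeasure μ] {s : Ω → S} (hs : KsLab s) :
    ∃ P : Claimed.Agent.RW.Pm S, (∀ s0, P.w s0 = μ.real (s ⁻¹' {s0})) ∧ ∀ g : S → T, k4cEnt μ (g ∘ s) = P.ent g := by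
  obtain ⟨P, h1, h2⟩ := k4c_ent_pm_aux μ hs
  exact ⟨P, h1, fun g => h2 T g⟩

/-- **LEAF L-252-S4C-INFO-2b** (~40 l.).  Relabelling.  PROOF.  `k4c_ent_pm` for `s` with `g := f` and `g := id`; `RW.en_congr`. -/
theorem k4c_ent_congr (μ : Measure Ω) [IsProbabilityMeasure μ] {s : Ω → S} {s' : Ω → S'} (hs : KsLab s) (f : S → S') (g : S' → S)
    (hf : ∀ x, s' x = f (s x)) (hg : ∀ x, s x = g (s' x)) : k4cEnt μ s = k4cEnt μ s' := by
  classical
  obtain ⟨P, h1, h2⟩ := k4c_ent_pm_aux μ hs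
  have e1 : k4cEnt μ s = P.ent id := h2 S id
  have e2 : k4cEnt μ s' = P.ent f := by
    have : s' = f ∘ s := funext hf
    rw [this]
    exact h2 S' f
  rw [e1, e2]
  refine Claimed.Agent.RW.en_congr P id f f g (fun _ _ => rfl) fun s0 hs0 => ?_
  rw [h1] at hs0
  obtain ⟨x, hx⟩ := k4c_atom_attained μ hs0
  change s0 = g (f s0)
  rw [← hx, ← hf, ← hg]

/-- **LEAF L-252-S4C-INFO-2c** (~40 l.).  Monotonicity `H(s) ≤ H(s, d)`.  PROOF.  `k4c_ent_pm` for the label `ksPair s d` (`ks_lab_pair`), `g := Prod.fst`, `g := id`; `RW.en_le_pair` / `RW.en_comp_le`. -/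
theorem k4c_ent_le_pair (μ : Measure Ω) [IsProbabilityMeasure μ] {s : Ω → S} {d : Ω → T} (hs : KsLab s) (hd : KsLab d) :
    k4cEnt μ s ≤ k4cEnt μ (ksPair s d) := by
  classical
  obtain ⟨P, _, h2⟩ := k4c_ent_pm_aux μ (ks_lab_pair hs hd)
  have e1 : k4cEnt μ s = P.ent Prod.fst := h2 S Prod.fst
  have e2 : k4cEnt μ (ksPair s d) = P.ent id := h2 (S × T) id
  rw [e1, e2]
  exact Claimed.Agent.RW.en_comp_le P id Prod.fst

/-- **LEAF L-252-S4C-INFO-2d** (~60 l.).  Submodularity `H(X,Y,Z) + H(Z) ≤ H(X,Z) + H(Y,Z)`.  PROOF.  `k4c_ent_pm` for the joint label `ksPair (ksPair X Y) Z`, four functions `g`; `RW.en_submod`; `k4c_ent_congr`/`RW.en_congr` for the bracketing. -/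
theorem k4c_ent_submod (μ : Measure Ω) [IsProbabilityMeasure μ] {X : Ω → S} {Y : Ω → S'} {Z : Ω → T} (hX : KsLab X) (hY : KsLab Y) (hZ : KsLab Z) :
    k4cEnt μ (ksPair (ksPair X Y) Z) + k4cEnt μ Z ≤ k4cEnt μ (ksPair X Z) + k4cEnt μ (ksPair Y Z) := by
  classical
  obtain ⟨P, _, h2⟩ := k4c_ent_pm_aux μ (ks_lab_pair (ks_lab_pair hX hY) hZ)
  have e1 : k4cEnt μ (ksPair (ksPair X Y) Z) = P.ent id := h2 ((S × S') × T) id
  have e2 : k4cEnt μ Z = P.ent (fun ω : (S × S') × T => ω.2) := h2 T (fun ω : (S × S') × T => ω.2)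
  have e3 : k4cEnt μ (ksPair X Z) = P.ent (fun ω : (S × S') × T => (ω.1.1, ω.2)) := h2 (S × T) (fun ω : (S × S') × T => (ω.1.1, ω.2))
  have e4 : k4cEnt μ (ksPair Y Z) = P.ent (fun ω : (S × S') × T => (ω.1.2, ω.2)) := h2 (S' × T) (fun ω : (S × S') × T => (ω.1.2, ω.2))
  have e5 : P.ent id = P.ent (fun ω : (S × S') × T => (ω.1.1, ω.1.2, ω.2)) :=
    Claimed.Agent.RW.en_congr P id _ (fun ω => (ω.1.1, ω.1.2, ω.2)) (fun t => ((t.1, t.2.1), t.2.2)) (fun _ _ => rfl) (fun _ _ => rfl)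
  rw [e1, e2, e3, e4, e5]
  exact Claimed.Agent.RW.en_submod P (fun ω : (S × S') × T => ω.1.1) (fun ω : (S × S') × T => ω.1.2) (fun ω : (S × S') × T => ω.2)

/-- **LEAF L-252-S4C-INFO-2e** (~120 l.).  An appended datum with `≤ n` options per state costs at most `log n`.
PROOF.  `k4c_ent_pm` for `ksPair s d`; `RW.en_pair_eq_cond`: `H(d, s) = H(s) + ∑_y P(s = y) H(d | s = y)`; for every `y` of positive mass `RW.en_le_log_card` with the list `L` of `KsOpt` (entries outside have mass `0`), `Real.log_le_log`, `(L.card : ℝ) ≤ n`;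
`∑_y P (s = y) = 1`.   (Direct alternative: Gibbs' inequality `RW.en_gibbs` against `q (y, d0) = P (s = y) / n` on the lists.) -/
theorem k4c_ent_opt (μ : Measure Ω) [IsProbabilityMeasure μ] {s : Ω → S} {d : Ω → T} (hs : KsLab s) (hd : KsLab d) {n : ℕ} (hn : 0 < n) (hopt : KsOpt μ s d n) :
    k4cEnt μ (ksPair s d) ≤ k4cEnt μ s + Real.log n := by
  classical
  obtain ⟨P, h1, h2⟩ := k4c_ent_pm_aux μ (ks_lab_pair hs hd)
  have e1 : k4cEnt μ s = P.ent Prod.fst := h2 S Prod.fst
  have e2 : k4cEnt μ (ksPair s d) = P.ent id := h2 (S × T) id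
  have e3 : P.ent id = P.ent (fun ω : S × T => (ω.2, ω.1)) :=
    Claimed.Agent.RW.en_congr P id _ (fun ω => (ω.2, ω.1)) (fun t => (t.2, t.1)) (fun _ _ => rfl) (fun _ _ => rfl)
  have hlogn : 0 ≤ Real.log n := Real.log_natCast_nonneg n
  rw [e1, e2, e3, Claimed.Agent.RW.en_pair_eq_cond P Prod.snd Prod.fst]
  refine add_le_add le_rfl ?_
  calc ∑ y ∈ Finset.univ.image Prod.fst, P.pr Prod.fst y * (P.cond Prod.fst y).ent Prod.snd
      ≤ ∑ y ∈ Finset.univ.image Prod.fst, P.pr Prod.fst y * Real.log n := by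
        refine Finset.sum_le_sum fun y _ => ?_
        by_cases hy : P.pr Prod.fst y = 0
        · rw [hy, zero_mul, zero_mul]
        · refine mul_le_mul_of_nonneg_left ?_ (Claimed.Agent.RW.en_pr_nonneg P _ _)
          obtain ⟨L, hL, hz⟩ := hopt y
          have hS : ∀ ω : S × T, (P.cond Prod.fst y).w ω ≠ 0 → ω.2 ∈ L := fun ω hω => by
            rw [Claimed.Agent.RW.en_cond_w P Prod.fst y hy] at hω
            by_contra hnot
            apply hω
            by_cases hωy : ω.1 = y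
            · rw [if_pos hωy]
              have hm := hz ω.2 hnot
              have : P.w ω = 0 := by
                rw [h1]
                have e : (ω : S × T) = (y, ω.2) := by rw [← hωy]
                rw [e, measureReal_def]
                unfold ksMass at hm
                rw [hm]
                simp
              rw [this, zero_div]
            · rw [if_neg hωy]
          refine (Claimed.Agent.RW.en_le_log_card _ Prod.snd L hS).trans ?_
          by_cases hc : L.card = 0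
          · rw [hc]
            simpa using hlogn
          · exact Real.log_le_log (by exact_mod_cast Nat.pos_of_ne_zero hc) (by exact_mod_cast hL)
    _ = Real.log n := by
        rw [← Finset.sum_mul, Claimed.Agent.RW.en_pr_sum, one_mul]

/-- **LEAF L-252-S4C-INFO-3** (~90 l., from 1b, 2b, 2c, 2e).  **The entropy window.**  `hist j` = history through the start of window `j` = through the end of window `j - 1`; nested.
PROOF.  `c j := k4cEnt μ (ksPair (hist j) V) - k4cEnt μ (hist j)`.  By `k4c_info_eq` and `k4c_ent_congr` (`hist j` is a function of `hist (j+1)`: `H(h_j, h_{j+1}) = H(h_{j+1})`, `H((h_j, h_{j+1}), V) = H(h_{j+1}, V)`) the information of window `j` is `c j - c (j+1)`.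
`Finset.sum_range_sub'`: the sum over `j < M` is `c 0 - c M`; `0 ≤ c M` (`k4c_ent_le_pair`), `c 0 ≤ log (card β)` (`k4c_ent_opt` with `n = card β`, `L = univ`; `card β > 0` because `μ ≠ 0`).  If all `M` terms were `> log (card β) / M` the sum would be too large
(`Finset.exists_le_of_sum_le`-type pigeonhole). -/
theorem k4c_window (μ : Measure Ω) [IsProbabilityMeasure μ] {V : Ω → β} (hV : KsLab V) {hist : ℕ → Ω → S} (hh : ∀ j, KsLab (hist j))
    (hnest : ∀ j, ∃ f : S → S, ∀ x, hist j x = f (hist (j + 1) x)) {M : ℕ} (hM : 0 < M) :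
    ∃ j < M, k4cInfo μ (hist j) (hist (j + 1)) V ≤ Real.log (Fintype.card β) / M := by
  set c : ℕ → ℝ := fun j => k4cEnt μ (ksPair (hist j) V) - k4cEnt μ (hist j) with hc
  have hinfo : ∀ j, k4cInfo μ (hist j) (hist (j + 1)) V = c j - c (j + 1) := fun j => by
    obtain ⟨f, hf⟩ := hnest j
    have e1 : k4cEnt μ (ksPair (hist j) (hist (j + 1))) = k4cEnt μ (hist (j + 1)) :=
      k4c_ent_congr μ (ks_lab_pair (hh j) (hh (j + 1))) Prod.snd (fun y => (f y, y)) (fun _ => rfl)
        (fun x => by change (hist j x, hist (j + 1) x) = (f (hist (j + 1) x), hist (j + 1) x); rw [← hf])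
    have e2 : k4cEnt μ (ksPair (ksPair (hist j) (hist (j + 1))) V) = k4cEnt μ (ksPair (hist (j + 1)) V) :=
      k4c_ent_congr μ (ks_lab_pair (ks_lab_pair (hh j) (hh (j + 1))) hV) (fun t => (t.1.2, t.2)) (fun y => ((f y.1, y.1), y.2)) (fun _ => rfl)
        (fun x => by
          change ((hist j x, hist (j + 1) x), V x) = ((f (hist (j + 1) x), hist (j + 1) x), V x)
          rw [← hf])
    rw [k4c_info_eq μ (hh j) (hh (j + 1)) hV, e1, e2]
    simp only [hc]
    ring
  have hsum : ∑ j ∈ Finset.range M, k4cInfo μ (hist j) (hist (j + 1)) V = c 0 - c M := by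
    simp only [hinfo]
    exact Finset.sum_range_sub' c M
  have hcM : 0 ≤ c M := sub_nonneg.2 (k4c_ent_le_pair μ (hh M) hV)
  have hΩ : Nonempty Ω := μ.nonempty_of_neZero
  have hcard : 0 < Fintype.card β := Fintype.card_pos_iff.2 ⟨V hΩ.some⟩
  have hc0 : c 0 ≤ Real.log (Fintype.card β) := by
    have := k4c_ent_opt μ (hh 0) hV hcard (fun s0 => ⟨Finset.univ, le_rfl, fun d0 hd0 => absurd (Finset.mem_univ d0) hd0⟩)
    simp only [hc]
    linarith
  have hM' : (0 : ℝ) < M := by exact_mod_cast hM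
  have hle : ∑ j ∈ Finset.range M, k4cInfo μ (hist j) (hist (j + 1)) V ≤ ∑ _j ∈ Finset.range M, Real.log (Fintype.card β) / M := by
    rw [hsum, Finset.sum_const, Finset.card_range, nsmul_eq_mul, mul_div_cancel₀ _ hM'.ne']
    linarith
  obtain ⟨j, hj, hjle⟩ := Finset.exists_le_of_sum_le (Finset.nonempty_range_iff.2 hM.ne') hle
  exact ⟨j, Finset.mem_range.1 hj, hjle⟩

/-- **LEAF L-252-S4C-INFO-4** (~80 l., from 1b, 2b-2e).  **From `V_*` to the required bin.**
PROOF.  With `H` = `k4cEnt μ`: by `k4c_info_eq` the claim is `H(A,v) - H(A,E,v) ≤ H(A,V) - H(A,E,V) + log n`.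
(i) submodularity with `X = V`, `Y = E`, `Z = (A,v)`: `H(A,v) - H(A,E,v) ≤ H(A,v,V) - H(A,E,v,V)`;   (ii) `H(A,V,v) ≤ H(A,V) + log n` (`k4c_ent_opt`);   (iii) `H(A,E,V) ≤ H(A,E,V,v)` (`k4c_ent_le_pair`);   bracketings by `k4c_ent_congr`. -/
theorem k4c_info_refine (μ : Measure Ω) [IsProbabilityMeasure μ] {A : Ω → α} {E : Ω → ε} {V : Ω → β} {v : Ω → β'} (hA : KsLab A) (hE : KsLab E)
    (hV : KsLab V) (hv : KsLab v) {n : ℕ} (hn : 0 < n) (hopt : KsOpt μ (ksPair A V) v n) :
    k4cInfo μ A E v ≤ k4cInfo μ A E V + Real.log n := by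
  have hAv := ks_lab_pair hA hv
  have hAV := ks_lab_pair hA hV
  have hAE := ks_lab_pair hA hE
  -- (i) submodularity
  have h1 := k4c_ent_submod μ hV hE hAv
  -- (ii) options
  have h2 := k4c_ent_opt μ hAV hv hn hopt
  -- (iii) monotonicity
  have h3 := k4c_ent_le_pair μ (ks_lab_pair hAE hV) hv
  -- bracketings
  have b1 : k4cEnt μ (ksPair V (ksPair A v)) = k4cEnt μ (ksPair (ksPair A V) v) :=
    k4c_ent_congr μ (ks_lab_pair hV hAv) (fun t => ((t.2.1, t.1), t.2.2)) (fun t => (t.1.2, (t.1.1, t.2))) (fun _ => rfl) (fun _ => rfl)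
  have b2 : k4cEnt μ (ksPair E (ksPair A v)) = k4cEnt μ (ksPair (ksPair A E) v) :=
    k4c_ent_congr μ (ks_lab_pair hE hAv) (fun t => ((t.2.1, t.1), t.2.2)) (fun t => (t.1.2, (t.1.1, t.2))) (fun _ => rfl) (fun _ => rfl)
  have b3 : k4cEnt μ (ksPair (ksPair V E) (ksPair A v)) = k4cEnt μ (ksPair (ksPair (ksPair A E) V) v) :=
    k4c_ent_congr μ (ks_lab_pair (ks_lab_pair hV hE) hAv) (fun t => (((t.2.1, t.1.2), t.1.1), t.2.2))
      (fun t => ((t.1.2, t.1.1.2), (t.1.1.1, t.2))) (fun _ => rfl) (fun _ => rfl)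
  rw [k4c_info_eq μ hA hE hv, k4c_info_eq μ hA hE hV]
  rw [b1, b2, b3] at h1
  linarith

end

/-- Stores the on-demand equation lemmas of the definitions above in THIS module (rule 6 hygiene). -/
theorem k4c_info_eqns_cite : True := by
  have := @k4cP.eq_1.{0}
  have := @k4cR.eq_1.{0}
  have := @k4cInfo.eq_1.{0}
  have := @k4cEnt.eq_1.{0}
  trivial

end

end Claimed.Agent.R252
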