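import Claimed.Agent.R252.State.KsState
import Claimed.Agent.R252.Base.Sys

/-!
# ROW 252 (S0492), unit S4C (post BP-252-S4C, helper294), file 3: PLANAR LINEAR ALGEBRA, DISCRIMINANT SPLIT, OPTION COUNTS.      CONTRACT file: the `sorry`s are the leaves L-252-S4C-LIN-*.

Paper: 04 l.591-612 (major-coordinate fullness), l.718-735 (tilted boxes), l.737-790 (discriminant split), l.803-815 (mesh states), l.823-832 (original lists).      ONE scale, real numbers, paper-free.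
* `k4c_rect`       : a parallelogram lies in a rectangle of twice its area: "cumulative principal axes" WITHOUT singular values (QR with the longer column first).  `σ 0` = major scale `∼ ‖D‖`, `σ 1` = minor scale.
* `k4c_major_row`  : `ρ_s = ‖D_sᵀ e_Z‖ ≥ q_s / K` from the fullness of the cumulative child and the deficiency of the minor scale of the parent.
* `k4c_tilt`       : Gram-Schmidt on the ROWS of `D_s`: `Y' = A_s · (1, v) + O(K J_s / (ρ_s q_s))`, coefficient `≤ ‖row Y‖ / ρ_s`.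
* `k4c_disc_low`, `k4c_ctr_near` : the split of the tests at `|P_ww| = 1 / (a H)`.
* `k4c_opt_bin`, `k4c_opt_comp`  : `KsOpt` from a diameter bound; composition of option counts.
* `k4c_quad_incr`  : a quadratic on a short interval (the terminal hidden bin controls `X`).
-/

set_option autoImplicit false

namespace Claimed.Agent.R252

open MeasureTheory
open scoped ENNReal BigOperators

noncomputable section

/-- the slope of the tilted box: `⟨row 1, row 0⟩ / |row 0|²` -/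
def k4cSlope (D : Matrix (Fin 2) (Fin 2) ℝ) : ℝ := (D 1 0 * D 0 0 + D 1 1 * D 0 1) / (D 0 0 ^ 2 + D 0 1 ^ 2)

/-- the Euclidean length of the major row -/
def k4cRho (D : Matrix (Fin 2) (Fin 2) ℝ) : ℝ := Real.sqrt (D 0 0 ^ 2 + D 0 1 ^ 2)

/-- the rectangle hull in terms of the columns `(p, q)` (the longer one) and `(s, t)` -/
theorem k4c_rect_aux {p q s t : ℝ} (hlen : s ^ 2 + t ^ 2 ≤ p ^ 2 + q ^ 2) (hdet : p * t - q * s ≠ 0) :
    ∃ (U : Matrix (Fin 2) (Fin 2) ℝ) (σ : Fin 2 → ℝ), U * U.transpose = 1 ∧ 0 < σ 1 ∧ σ 1 ≤ σ 0 ∧ σ 0 * σ 1 = 2 * |p * t - q * s| ∧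
      σ 0 ≤ 2 * (|p| + |q| + |s| + |t|) ∧ |p| + |q| + |s| + |t| ≤ 2 * σ 0 ∧
      ∀ x y : ℝ, |x| ≤ 1 → |y| ≤ 1 → ∀ i, |(U.transpose.mulVec ![p * x + s * y, q * x + t * y]) i| ≤ σ i := by
  set r : ℝ := Real.sqrt (p ^ 2 + q ^ 2) with hr
  have hpq : 0 < p ^ 2 + q ^ 2 := by
    by_contra hcon
    have h0 : p ^ 2 + q ^ 2 = 0 := le_antisymm (not_lt.1 hcon) (by positivity)
    have hp : p = 0 := by nlinarith [sq_nonneg p, sq_nonneg q]
    have hq : q = 0 := by nlinarith [sq_nonneg p, sq_nonneg q]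
    exact hdet (by rw [hp, hq]; ring)
  have hr0 : 0 < r := Real.sqrt_pos.2 hpq
  have hr2 : r ^ 2 = p ^ 2 + q ^ 2 := Real.sq_sqrt hpq.le
  have hrne : r ≠ 0 := hr0.ne'
  have hle : ∀ x : ℝ, x ^ 2 ≤ r ^ 2 → |x| ≤ r := fun x hx => abs_le_of_sq_le_sq hx hr0.le
  have hp : |p| ≤ r := hle p (by nlinarith [sq_nonneg q])
  have hq : |q| ≤ r := hle q (by nlinarith [sq_nonneg p])
  have hs : |s| ≤ r := hle s (by nlinarith [sq_nonneg t])
  have ht : |t| ≤ r := hle t (by nlinarith [sq_nonneg s])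
  have hdet2 : |p * t - q * s| ≤ r ^ 2 := by
    refine abs_le_of_sq_le_sq' ?_ (by positivity) |> fun h => abs_le.2 ⟨h.1, h.2⟩
    nlinarith [sq_nonneg (p * s + q * t), sq_nonneg (p ^ 2 + q ^ 2), mul_le_mul_of_nonneg_left hlen hpq.le]
  have hdot2 : |p * s + q * t| ≤ r ^ 2 := by
    refine abs_le_of_sq_le_sq' ?_ (by positivity) |> fun h => abs_le.2 ⟨h.1, h.2⟩
    nlinarith [sq_nonneg (p * t - q * s), sq_nonneg (p ^ 2 + q ^ 2), mul_le_mul_of_nonneg_left hlen hpq.le]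
  have hrle : r ≤ |p| + |q| := by
    rw [hr]
    refine Real.sqrt_le_iff.2 ⟨by positivity, ?_⟩
    nlinarith [abs_nonneg p, abs_nonneg q, sq_abs p, sq_abs q, mul_nonneg (abs_nonneg p) (abs_nonneg q)]
  have hdpos : 0 < |p * t - q * s| := abs_pos.2 hdet
  refine ⟨!![p / r, -q / r; q / r, p / r], ![2 * r, |p * t - q * s| / r], ?_, ?_, ?_, ?_, ?_, ?_, ?_⟩
  · ext i j
    fin_cases i <;> fin_cases j <;>
      simp [Matrix.mul_apply, Fin.sum_univ_two, Matrix.transpose_apply] <;> field_simp <;> nlinarith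
  · simp only [Matrix.cons_val_one, Matrix.cons_val_fin_one]
    positivity
  · simp only [Matrix.cons_val_one, Matrix.cons_val_zero, Matrix.cons_val_fin_one]
    rw [div_le_iff₀ hr0]
    nlinarith
  · simp only [Matrix.cons_val_one, Matrix.cons_val_zero, Matrix.cons_val_fin_one]
    field_simp
  · simp only [Matrix.cons_val_zero]
    nlinarith [abs_nonneg s, abs_nonneg t]
  · simp only [Matrix.cons_val_zero]
    linarith
  · intro x y hx hy i
    fin_cases i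
    · have e : ((!![p / r, -q / r; q / r, p / r] : Matrix (Fin 2) (Fin 2) ℝ).transpose.mulVec ![p * x + s * y, q * x + t * y]) 0
          = r * x + (p * s + q * t) / r * y := by
        simp [Matrix.mulVec, dotProduct, Fin.sum_univ_two, Matrix.transpose_apply]
        field_simp
        rw [hr2]
        ring
      change |((!![p / r, -q / r; q / r, p / r] : Matrix (Fin 2) (Fin 2) ℝ).transpose.mulVec ![p * x + s * y, q * x + t * y]) 0| ≤ 2 * r
      rw [e]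
      have h1 : |r * x| ≤ r := by
        rw [abs_mul, abs_of_pos hr0]
        nlinarith
      have h2 : |(p * s + q * t) / r * y| ≤ r := by
        rw [abs_mul, abs_div, abs_of_pos hr0]
        have h3 : |p * s + q * t| / r ≤ r := by
          rw [div_le_iff₀ hr0]
          nlinarith
        nlinarith [abs_nonneg y, div_nonneg (abs_nonneg (p * s + q * t)) hr0.le]
      calc |r * x + (p * s + q * t) / r * y| ≤ |r * x| + |(p * s + q * t) / r * y| := abs_add_le _ _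
        _ ≤ 2 * r := by linarith
    · have e : ((!![p / r, -q / r; q / r, p / r] : Matrix (Fin 2) (Fin 2) ℝ).transpose.mulVec ![p * x + s * y, q * x + t * y]) 1
          = (p * t - q * s) / r * y := by
        simp [Matrix.mulVec, dotProduct, Fin.sum_univ_two, Matrix.transpose_apply]
        field_simp
        ring
      change |((!![p / r, -q / r; q / r, p / r] : Matrix (Fin 2) (Fin 2) ℝ).transpose.mulVec ![p * x + s * y, q * x + t * y]) 1| ≤ |p * t - q * s| / r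
      rw [e, abs_mul, abs_div, abs_of_pos hr0]
      have : 0 ≤ |p * t - q * s| / r := by positivity
      nlinarith

/-- **LEAF L-252-S4C-LIN-1** (~150 l.).  Rectangle hull of a parallelogram.
PROOF.  Let `a` be the index of the column of larger Euclidean length, `b` the other one, `d_a, d_b` the columns, `r := |d_a| > 0` (`det ≠ 0`).  `u₁ := d_a / r`, `u₂ := (-u₁ 1, u₁ 0)`, `U := [u₁ u₂]` (columns), `σ := ![2 r, |det D| / r]`.
`Uᵀ D z = (⟨u₁, d_a⟩ z_a + ⟨u₁, d_b⟩ z_b, ⟨u₂, d_b⟩ z_b)`; `⟨u₁, d_a⟩ = r`, `|⟨u₁, d_b⟩| ≤ |d_b| ≤ r` (Cauchy-Schwarz in `ℝ²`: `(xy' + ..)² ≤ ..` by `nlinarith`), `⟨u₂, d_a⟩ = 0`, `|⟨u₂, d_b⟩| = |det D| / r ≤ |d_b| ≤ r`.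
`Matrix.det_fin_two`; `kbMn D = ∑ |entries|`, each `|entry| ≤ r`, and `r ≤ |D 0 a| + |D 1 a| ≤ kbMn D`.  Everything by `Fin.sum_univ_two`, `Matrix.mulVec`, `dotProduct`, `field_simp`, `nlinarith`. -/
theorem k4c_rect (D : Matrix (Fin 2) (Fin 2) ℝ) (hD : D.det ≠ 0) :
    ∃ (U : Matrix (Fin 2) (Fin 2) ℝ) (σ : Fin 2 → ℝ), U * U.transpose = 1 ∧ 0 < σ 1 ∧ σ 1 ≤ σ 0 ∧ σ 0 * σ 1 = 2 * |D.det| ∧ σ 0 ≤ 2 * kbMn D ∧ kbMn D ≤ 2 * σ 0 ∧
      ∀ z : Fin 2 → ℝ, (∀ i, |z i| ≤ 1) → ∀ i, |(U.transpose.mulVec (D.mulVec z)) i| ≤ σ i := by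
  have hdet : D.det = D 0 0 * D 1 1 - D 0 1 * D 1 0 := Matrix.det_fin_two D
  have hmn : kbMn D = |D 0 0| + |D 0 1| + (|D 1 0| + |D 1 1|) := by
    simp [kbMn, Fin.sum_univ_two]
  by_cases hcol : D 0 1 ^ 2 + D 1 1 ^ 2 ≤ D 0 0 ^ 2 + D 1 0 ^ 2
  · obtain ⟨U, σ, h1, h2, h3, h4, h5, h6, h7⟩ := k4c_rect_aux (p := D 0 0) (q := D 1 0) (s := D 0 1) (t := D 1 1) hcol
      (by rw [hdet] at hD; intro h; apply hD; linarith)
    refine ⟨U, σ, h1, h2, h3, ?_, ?_, ?_, fun z hz i => ?_⟩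
    · rw [h4, hdet]
      congr 2
      ring
    · rw [hmn]; linarith
    · rw [hmn]; linarith
    · have e : D.mulVec z = ![D 0 0 * z 0 + D 0 1 * z 1, D 1 0 * z 0 + D 1 1 * z 1] := by
        ext j
        fin_cases j <;> simp [Matrix.mulVec, dotProduct, Fin.sum_univ_two]
      rw [e]
      exact h7 (z 0) (z 1) (hz 0) (hz 1) i
  · obtain ⟨U, σ, h1, h2, h3, h4, h5, h6, h7⟩ := k4c_rect_aux (p := D 0 1) (q := D 1 1) (s := D 0 0) (t := D 1 0) (not_le.1 hcol).le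
      (by rw [hdet] at hD; intro h; apply hD; linarith)
    refine ⟨U, σ, h1, h2, h3, ?_, ?_, ?_, fun z hz i => ?_⟩
    · rw [h4, hdet, ← abs_neg]
      congr 2
      ring
    · rw [hmn]; linarith
    · rw [hmn]; linarith
    · have e : D.mulVec z = ![D 0 1 * z 1 + D 0 0 * z 0, D 1 1 * z 1 + D 1 0 * z 0] := by
        ext j
        fin_cases j <;> simp [Matrix.mulVec, dotProduct, Fin.sum_univ_two, add_comm]
      rw [e]
      exact h7 (z 1) (z 0) (hz 1) (hz 0) i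

/-- **LEAF L-252-S4C-LIN-2** (~60 l.).  Fullness of the major row.  `U * diagonal σ` = frame of the parent (`k4c_rect`), `D` = relative frame of the child, `qA, q` the time lengths.
PROOF.  `kbMn (U * X) ≤ 2 * kbMn X` (`|U i l| ≤ 1`), `kbMn (diagonal σ * D) = σ 0 (|D 0 0| + |D 0 1|) + σ 1 (|D 1 0| + |D 1 1|)`, `|D 1 0| + |D 1 1| ≤ kbMn D ≤ K q`.
Hence `qA q ≤ 2 K (K qA ρ + σ 1 K q) ≤ 2 K² qA ρ + qA q / 2`. -/
theorem k4c_major_row {U D : Matrix (Fin 2) (Fin 2) ℝ} {σ : Fin 2 → ℝ} {qA q K : ℝ} (hU : ∀ i l, |U i l| ≤ 1) (hσ : ∀ i, 0 ≤ σ i) (hK : 1 ≤ K) (hqA : 0 < qA) (hq : 0 ≤ q)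
    (h1 : σ 0 ≤ K * qA) (h2 : 4 * K ^ 2 * σ 1 ≤ qA) (hD : kbMn D ≤ K * q) (hfull : qA * q ≤ K * kbMn (U * Matrix.diagonal σ * D)) :
    q ≤ 4 * K ^ 2 * (|D 0 0| + |D 0 1|) := by
  have hmn : kbMn D = |D 0 0| + |D 0 1| + (|D 1 0| + |D 1 1|) := by
    simp [kbMn, Fin.sum_univ_two]
  have hent : ∀ i k, |(U * Matrix.diagonal σ * D) i k| ≤ σ 0 * |D 0 k| + σ 1 * |D 1 k| := fun i k => by
    have e : (U * Matrix.diagonal σ * D) i k = U i 0 * (σ 0 * D 0 k) + U i 1 * (σ 1 * D 1 k) := by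
      simp [Matrix.mul_apply, Fin.sum_univ_two, Matrix.diagonal_apply]
      ring
    rw [e]
    refine (abs_add_le _ _).trans (add_le_add ?_ ?_)
    · rw [abs_mul, abs_mul, abs_of_nonneg (hσ 0)]
      have := mul_le_mul_of_nonneg_right (hU i 0) (mul_nonneg (hσ 0) (abs_nonneg (D 0 k)))
      linarith
    · rw [abs_mul, abs_mul, abs_of_nonneg (hσ 1)]
      have := mul_le_mul_of_nonneg_right (hU i 1) (mul_nonneg (hσ 1) (abs_nonneg (D 1 k)))
      linarith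
  set ρ : ℝ := |D 0 0| + |D 0 1| with hρ
  have hρ0 : 0 ≤ ρ := by positivity
  have hlow : |D 1 0| + |D 1 1| ≤ K * q := by linarith
  have hbig : kbMn (U * Matrix.diagonal σ * D) ≤ 2 * (σ 0 * ρ + σ 1 * (K * q)) := by
    have e : kbMn (U * Matrix.diagonal σ * D) = |(U * Matrix.diagonal σ * D) 0 0| + |(U * Matrix.diagonal σ * D) 0 1|
        + (|(U * Matrix.diagonal σ * D) 1 0| + |(U * Matrix.diagonal σ * D) 1 1|) := by
      simp [kbMn, Fin.sum_univ_two]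
    rw [e]
    have := hent 0 0
    have := hent 0 1
    have := hent 1 0
    have := hent 1 1
    have := mul_le_mul_of_nonneg_left hlow (hσ 1)
    rw [hρ]
    nlinarith
  have hK0 : 0 < K := by linarith
  have h3 : qA * q ≤ 2 * K ^ 2 * qA * ρ + qA * q / 2 := by
    have e1 : K * kbMn (U * Matrix.diagonal σ * D) ≤ K * (2 * (σ 0 * ρ + σ 1 * (K * q))) := mul_le_mul_of_nonneg_left hbig hK0.le
    have e2 : σ 0 * ρ ≤ K * qA * ρ := mul_le_mul_of_nonneg_right h1 hρ0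
    have e3 : 4 * K ^ 2 * σ 1 * q ≤ qA * q := mul_le_mul_of_nonneg_right h2 hq
    have e4 : K * (σ 0 * ρ) ≤ K * (K * qA * ρ) := mul_le_mul_of_nonneg_left e2 hK0.le
    nlinarith
  have h4 : qA * q ≤ qA * (4 * K ^ 2 * ρ) := by nlinarith
  exact le_of_mul_le_mul_left h4 hqA

/-- **LEAF L-252-S4C-LIN-3** (~90 l.).  The tilted box.  `(z0 + t z1, y0 + t y1)` = position of an assigned trajectory relative to the centre of the child, in the coordinates `(Z, Y)` of the parent; at two times it lies in `D [-K, K]²`.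
PROOF.  `c := k4cSlope D`, `r' := row 1 - c • row 0`: `⟨r', row 0⟩ = 0` and `|r'| * k4cRho D = |det D|` (Lagrange identity: `|row 0|² |row 1|² - ⟨row 0, row 1⟩² = det²`).  `φ t := (y0 + t y1) - c (z0 + t z1) = ⟨r', ζ_t⟩`, `|φ t| ≤ |r'| √2 K ≤ 2 K |det D| / k4cRho D`;
`φ t2 - φ t1 = (t2 - t1)(y1 - c z1)`.   Second claim: Cauchy-Schwarz. -/
theorem k4c_tilt {D : Matrix (Fin 2) (Fin 2) ℝ} {K t1 t2 z0 z1 y0 y1 : ℝ} (hK : 0 ≤ K) (hρ : 0 < k4cRho D)
    (hbox : ∀ t, t = t1 ∨ t = t2 → ∃ ζ : Fin 2 → ℝ, (∀ i, |ζ i| ≤ K) ∧ z0 + t * z1 = D 0 0 * ζ 0 + D 0 1 * ζ 1 ∧ y0 + t * y1 = D 1 0 * ζ 0 + D 1 1 * ζ 1) :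
    |y1 - k4cSlope D * z1| * |t2 - t1| ≤ 4 * K * |D.det| / k4cRho D ∧ |k4cSlope D| * k4cRho D ≤ Real.sqrt (D 1 0 ^ 2 + D 1 1 ^ 2) := by
  set ρ : ℝ := k4cRho D with hρdef
  set c : ℝ := k4cSlope D with hc
  have hN : 0 < D 0 0 ^ 2 + D 0 1 ^ 2 := Real.sqrt_pos.1 hρ
  have hρ2 : ρ ^ 2 = D 0 0 ^ 2 + D 0 1 ^ 2 := Real.sq_sqrt hN.le
  have hdet : D.det = D 0 0 * D 1 1 - D 0 1 * D 1 0 := Matrix.det_fin_two D
  have hcN : c * ρ ^ 2 = D 1 0 * D 0 0 + D 1 1 * D 0 1 := by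
    rw [hc, k4cSlope, hρ2]
    field_simp
  have hr0 : D 1 0 - c * D 0 0 = -D 0 1 * D.det / ρ ^ 2 := by
    rw [eq_div_iff (by positivity), sub_mul, mul_right_comm, hcN, hρ2, hdet]
    ring
  have hr1 : D 1 1 - c * D 0 1 = D 0 0 * D.det / ρ ^ 2 := by
    rw [eq_div_iff (by positivity), sub_mul, mul_right_comm, hcN, hρ2, hdet]
    ring
  have hle : ∀ x : ℝ, x ^ 2 ≤ ρ ^ 2 → |x| ≤ ρ := fun x hx => abs_le_of_sq_le_sq hx hρ.le
  have h00 : |D 0 0| ≤ ρ := hle _ (by nlinarith [sq_nonneg (D 0 1)])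
  have h01 : |D 0 1| ≤ ρ := hle _ (by nlinarith [sq_nonneg (D 0 0)])
  have hb0 : |D 1 0 - c * D 0 0| ≤ |D.det| / ρ := by
    rw [hr0, abs_div, abs_mul, abs_neg, abs_of_pos (by positivity : (0 : ℝ) < ρ ^ 2), div_le_div_iff₀ (by positivity) hρ]
    nlinarith [mul_le_mul_of_nonneg_right h01 (mul_nonneg (abs_nonneg D.det) hρ.le)]
  have hb1 : |D 1 1 - c * D 0 1| ≤ |D.det| / ρ := by
    rw [hr1, abs_div, abs_mul, abs_of_pos (by positivity : (0 : ℝ) < ρ ^ 2), div_le_div_iff₀ (by positivity) hρ]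
    nlinarith [mul_le_mul_of_nonneg_right h00 (mul_nonneg (abs_nonneg D.det) hρ.le)]
  have hM : 0 ≤ |D.det| / ρ := by positivity
  have hφ : ∀ t, t = t1 ∨ t = t2 → |(y0 + t * y1) - c * (z0 + t * z1)| ≤ 2 * K * (|D.det| / ρ) := fun t ht => by
    obtain ⟨ζ, hζ, e1, e2⟩ := hbox t ht
    have e : (y0 + t * y1) - c * (z0 + t * z1) = (D 1 0 - c * D 0 0) * ζ 0 + (D 1 1 - c * D 0 1) * ζ 1 := by
      rw [e1, e2]
      ring
    rw [e]
    refine (abs_add_le _ _).trans ?_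
    rw [abs_mul, abs_mul]
    have a0 := mul_le_mul hb0 (hζ 0) (abs_nonneg _) hM
    have a1 := mul_le_mul hb1 (hζ 1) (abs_nonneg _) hM
    linarith
  constructor
  · have e : (y1 - c * z1) * (t2 - t1) = ((y0 + t2 * y1) - c * (z0 + t2 * z1)) - ((y0 + t1 * y1) - c * (z0 + t1 * z1)) := by ring
    rw [← abs_mul, e]
    refine (abs_sub _ _).trans ?_
    have a1 := hφ t1 (Or.inl rfl)
    have a2 := hφ t2 (Or.inr rfl)
    have : 4 * K * |D.det| / ρ = 2 * K * (|D.det| / ρ) + 2 * K * (|D.det| / ρ) := by ring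
    rw [this]
    exact add_le_add a2 a1
  · refine Real.le_sqrt_of_sq_le ?_
    rw [mul_pow, sq_abs]
    have h1 : c ^ 2 * ρ ^ 2 * ρ ^ 2 ≤ (D 1 0 ^ 2 + D 1 1 ^ 2) * ρ ^ 2 := by
      have : c ^ 2 * ρ ^ 2 * ρ ^ 2 = (c * ρ ^ 2) ^ 2 := by ring
      rw [this, hcN, hρ2]
      nlinarith [sq_nonneg (D 1 0 * D 0 1 - D 1 1 * D 0 0)]
    exact le_of_mul_le_mul_right h1 (by positivity)

/-- the discriminant below the curvature cutoff, (a03:palette-discriminant) -/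
theorem k4c_disc_low {P Pw Pww Kg a H : ℝ} (hKg : 1 ≤ Kg) (ha : 0 < a) (hH : 4 * Kg ^ 3 ≤ H) (h1 : |P| ≤ Kg * a) (h2 : 1 ≤ Kg * |Pw|) (h3 : |Pww| * (a * H) ≤ 1) :
    1 / (2 * Kg ^ 2) ≤ Pw ^ 2 - 2 * Pww * P := by
  have hKg0 : 0 < Kg := by linarith
  have hH0 : 0 < H := lt_of_lt_of_le (by positivity) hH
  have e1 : 1 / Kg ^ 2 ≤ Pw ^ 2 := by
    rw [div_le_iff₀ (by positivity), ← sq_abs Pw, ← mul_pow]
    have : 1 ≤ |Pw| * Kg := by linarith
    nlinarith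
  have e2 : |Pww * P| ≤ 1 / (4 * Kg ^ 2) := by
    rw [abs_mul, le_div_iff₀ (by positivity)]
    have e3 : |Pww| * |P| ≤ |Pww| * (Kg * a) := mul_le_mul_of_nonneg_left h1 (abs_nonneg _)
    have e4 : |Pww| * (Kg * a) * (4 * Kg ^ 2) = (|Pww| * a) * (4 * Kg ^ 3) := by ring
    have e5 : (|Pww| * a) * (4 * Kg ^ 3) ≤ (|Pww| * a) * H := mul_le_mul_of_nonneg_left hH (by positivity)
    have e6 : |Pww| * |P| * (4 * Kg ^ 2) ≤ |Pww| * (Kg * a) * (4 * Kg ^ 2) := mul_le_mul_of_nonneg_right e3 (by positivity)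
    nlinarith
  have e7 := (abs_le.1 e2).2
  have e8 : 1 / (2 * Kg ^ 2) = 1 / Kg ^ 2 - 2 * (1 / (4 * Kg ^ 2)) := by
    field_simp
    ring
  rw [e8]
  nlinarith

/-- above the cutoff the affine quadratic centre is close, 04 l.765 -/
theorem k4c_ctr_near {Pw Pww Kg a H : ℝ} (h2 : |Pw| ≤ Kg) (h3 : 1 ≤ |Pww| * (a * H)) : |Pw / Pww| ≤ Kg * H * a := by
  have hp : 0 < |Pww| := by
    by_contra hcon
    have : |Pww| = 0 := le_antisymm (not_lt.1 hcon) (abs_nonneg _)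
    rw [this] at h3
    linarith
  rw [abs_div, div_le_iff₀ hp]
  have hKg : 0 ≤ Kg := (abs_nonneg _).trans h2
  calc |Pw| ≤ Kg * 1 := by linarith
    _ ≤ Kg * (|Pww| * (a * H)) := mul_le_mul_of_nonneg_left h3 hKg
    _ = Kg * H * a * |Pww| := by ring

/-- a quadratic on a short interval: `Q w = A w² + B w + C`, derivative bound AT `w`, curvature bound -/
theorem k4c_quad_incr {A B C w w' b c r : ℝ} (h1 : |2 * A * w + B| ≤ b) (h2 : |2 * A| ≤ c) (h3 : |w' - w| ≤ r) :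
    |(A * w' ^ 2 + B * w' + C) - (A * w ^ 2 + B * w + C)| ≤ b * r + c * r ^ 2 / 2 := by
  have e : (A * w' ^ 2 + B * w' + C) - (A * w ^ 2 + B * w + C) = (2 * A * w + B) * (w' - w) + (2 * A) * (w' - w) ^ 2 / 2 := by ring
  rw [e]
  have hr : 0 ≤ r := (abs_nonneg _).trans h3
  have hb : 0 ≤ b := (abs_nonneg _).trans h1
  have hc : 0 ≤ c := (abs_nonneg _).trans h2
  refine (abs_add_le _ _).trans (add_le_add ?_ ?_)
  · rw [abs_mul]
    exact mul_le_mul h1 h3 (abs_nonneg _) hb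
  · rw [abs_div, abs_mul, abs_pow, abs_two]
    have : |w' - w| ^ 2 ≤ r ^ 2 := pow_le_pow_left₀ (abs_nonneg _) h3 2
    have := mul_le_mul h2 this (by positivity) hc
    linarith

variable {Ω : Type*} [MeasurableSpace Ω]

/-- **LEAF L-252-S4C-LIN-5** (~70 l.).  If, off a null set, the real datum `x` varies by at most `r` inside every state, its bin of width `m` has at most `n ≥ r / m + 2` options per state.
PROOF.  Fix `s0`.  If no `ω ∈ G` has `s ω = s0`, take `L = ∅` (the events are contained in `Gᶜ`).  Otherwise fix such an `ω₀`, `L := Finset.Icc ⌊(x ω₀ - r)/m⌋ ⌊(x ω₀ + r)/m⌋` (card `< 2 r / m + 2`: `Int.card_Icc`, `Int.floor_le`, `Int.lt_floor_add_one`); an entry outside `L` is contained in `Gᶜ` (`Int.floor_le_floor`). -/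
theorem k4c_opt_bin {S : Type*} (μ : Measure Ω) (s : Ω → S) (x : Ω → ℝ) {m r : ℝ} (hm : 0 < m) {G : Set Ω} (hG : μ Gᶜ = 0)
    (hdiam : ∀ ω ∈ G, ∀ ω' ∈ G, s ω = s ω' → |x ω - x ω'| ≤ r) {n : ℕ} (hn : 2 * r / m + 2 ≤ n) : KsOpt μ s (fun ω => ⌊x ω / m⌋) n := by
  intro s0
  by_cases hex : ∃ ω ∈ G, s ω = s0
  · obtain ⟨ω₀, hω₀, hs₀⟩ := hex
    refine ⟨Finset.Icc ⌊(x ω₀ - r) / m⌋ ⌊(x ω₀ + r) / m⌋, ?_, fun d0 hd0 => ?_⟩
    · rw [Int.card_Icc, Int.toNat_le]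
      have h1 : (⌊(x ω₀ + r) / m⌋ : ℝ) ≤ (x ω₀ + r) / m := Int.floor_le _
      have h2 : (x ω₀ - r) / m < ⌊(x ω₀ - r) / m⌋ + 1 := Int.lt_floor_add_one _
      have h3 : (x ω₀ + r) / m - (x ω₀ - r) / m = 2 * r / m := by ring
      have h4 : ((⌊(x ω₀ + r) / m⌋ + 1 - ⌊(x ω₀ - r) / m⌋ : ℤ) : ℝ) < ((n : ℤ) : ℝ) := by
        push_cast
        linarith
      exact le_of_lt (by exact_mod_cast h4)
    · refine measure_mono_null (fun ω hω => ?_) hG
      intro hωG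
      have hω' : (s ω, ⌊x ω / m⌋) = (s0, d0) := hω
      have h1 : s ω = s0 := (Prod.ext_iff.1 hω').1
      have h2 : ⌊x ω / m⌋ = d0 := (Prod.ext_iff.1 hω').2
      have h3 := abs_le.1 (hdiam ω hωG ω₀ hω₀ (h1.trans hs₀.symm))
      apply hd0
      rw [← h2]
      refine Finset.mem_Icc.2 ⟨Int.floor_le_floor ?_, Int.floor_le_floor ?_⟩
      · exact div_le_div_of_nonneg_right (by linarith) hm.le
      · exact div_le_div_of_nonneg_right (by linarith) hm.le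
  · refine ⟨∅, by simp, fun d0 _ => ?_⟩
    refine measure_mono_null (fun ω hω => ?_) hG
    intro hωG
    have hω' : (s ω, ⌊x ω / m⌋) = (s0, d0) := hω
    exact hex ⟨ω, hωG, (Prod.ext_iff.1 hω').1⟩

/-- **LEAF L-252-S4C-LIN-6** (~60 l.).  Composition of option counts.
PROOF.  For `s0` take `L₁` for `d`; for every `d0 ∈ L₁` take `L₂ d0` for `(s0, d0)`; `L := L₁.biUnion fun d0 => (L₂ d0).image (Prod.mk d0)` (`Finset.card_biUnion_le`, `Finset.card_image_le`); an entry `(d0, e0) ∉ L` has `d0 ∉ L₁` (mass `0` by monotonicity: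
the event is contained in `{(s,d) = (s0,d0)}`) or `e0 ∉ L₂ d0`. -/
theorem k4c_opt_comp {S D E : Type*} (μ : Measure Ω) (s : Ω → S) (d : Ω → D) (e : Ω → E) {n₁ n₂ : ℕ} (h1 : KsOpt μ s d n₁) (h2 : KsOpt μ (ksPair s d) e n₂) :
    KsOpt μ s (ksPair d e) (n₁ * n₂) := by
  classical
  intro s0
  obtain ⟨L₁, hL₁, hz₁⟩ := h1 s0
  choose L₂ hL₂ hz₂ using fun d0 => h2 (s0, d0)
  refine ⟨L₁.biUnion fun d0 => (L₂ d0).image (Prod.mk d0), ?_, ?_⟩
  · calc (L₁.biUnion fun d0 => (L₂ d0).image (Prod.mk d0)).card ≤ ∑ d0 ∈ L₁, ((L₂ d0).image (Prod.mk d0)).card := Finset.card_biUnion_le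
      _ ≤ ∑ _d0 ∈ L₁, n₂ := Finset.sum_le_sum fun d0 _ => Finset.card_image_le.trans (hL₂ d0)
      _ = L₁.card * n₂ := by rw [Finset.sum_const, smul_eq_mul]
      _ ≤ n₁ * n₂ := Nat.mul_le_mul_right _ hL₁
  · rintro ⟨d0, e0⟩ hnot
    by_cases hd : d0 ∈ L₁
    · have he : e0 ∉ L₂ d0 := fun he => hnot (Finset.mem_biUnion.2 ⟨d0, hd, Finset.mem_image.2 ⟨e0, he, rfl⟩⟩)
      refine measure_mono_null (fun ω hω => ?_) (hz₂ d0 e0 he)
      have hω' : (s ω, (d ω, e ω)) = (s0, (d0, e0)) := hω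
      change ((s ω, d ω), e ω) = ((s0, d0), e0)
      simp only [Prod.mk.injEq] at hω' ⊢
      exact ⟨⟨hω'.1, hω'.2.1⟩, hω'.2.2⟩
    · refine measure_mono_null (fun ω hω => ?_) (hz₁ d0 hd)
      have hω' : (s ω, (d ω, e ω)) = (s0, (d0, e0)) := hω
      change (s ω, d ω) = (s0, d0)
      simp only [Prod.mk.injEq] at hω' ⊢
      exact ⟨hω'.1, hω'.2.1⟩

/-- Stores the on-demand equation lemmas of the definitions above in THIS module (rule 6 hygiene). -/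
theorem k4c_lin_eqns_cite : True := by
  have := @k4cSlope.eq_1
  have := @k4cRho.eq_1
  trivial

end

end Claimed.Agent.R252
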