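-- KEEP
import Claimed.Agent.R252.S4C.Info2Contract

/-!
# ROW 252 (S0492), unit S4C, leaf L-252-S4C-PREP-3 (helper151): LIKELIHOOD TRUNCATION AFTER MASKING, abstract form.      no `sorry`

Paper: 04 l.898-925.   Independent of the base language.
* `k4c_fin_law`     a probability law with prescribed weights on a finite discrete space
* `k4c_trunc_fin`   finite arrays `g ≤ a` (total mass of `a` = 1): the triples whose likelihood ratio INSIDE the event `g` exceeds `M` weigh `≤ (I(a) + log 2 + 1) / log M`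
                    (`k4c_info_cond` + `k4_trunc` on the finite space `ε × β × Bool`)
* `k4c_trunc_meas`  the same for finitely many finite measures `m γ` with weights `om γ`, a path `Pth γ` covered by the disjoint pieces `S e` (`wd e = γ`), a mask `Msk γ ⊆ Pth γ`, a finite label `V γ`, any set `K1` of parents.
-/

set_option autoImplicit false

namespace Claimed.Agent.R252

open MeasureTheory
open scoped ENNReal BigOperators

noncomputable section

/-- a probability law with prescribed weights on a finite discrete space -/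
theorem k4c_fin_law {Ω : Type} [Fintype Ω] [MeasurableSpace Ω] [DiscreteMeasurableSpace Ω] (w : Ω → ℝ) (hw : ∀ ω, 0 ≤ w ω) (h1 : ∑ ω, w ω = 1) :
    ∃ μ : Measure Ω, IsProbabilityMeasure μ ∧ ∀ S : Set Ω, μ.real S = ∑ ω, S.indicator w ω := by
  have key : ∀ S : Set Ω, (∑ ω, ENNReal.ofReal (w ω) • Measure.dirac ω : Measure Ω) S = ENNReal.ofReal (∑ ω, S.indicator w ω) := by
    intro S
    rw [Measure.finsetSum_apply, ENNReal.ofReal_sum_of_nonneg (fun ω _ => Set.indicator_nonneg (fun x _ => hw x) ω)]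
    refine Finset.sum_congr rfl fun ω _ => ?_
    rw [Measure.smul_apply, Measure.dirac_apply' _ (MeasurableSet.of_discrete), smul_eq_mul]
    by_cases h : ω ∈ S
    · simp [h]
    · simp [h]
  refine ⟨∑ ω, ENNReal.ofReal (w ω) • Measure.dirac ω, ⟨?_⟩, fun S => ?_⟩
  · rw [key]
    simp [h1]
  · rw [measureReal_def, key, ENNReal.toReal_ofReal (Finset.sum_nonneg fun ω _ => Set.indicator_nonneg (fun x _ => hw x) ω)]

/-- **likelihood truncation after conditioning, for finite arrays.**   `a e b` = masses of (end label, bin) (total mass one), `g ≤ a` = the masses inside an event, `wd e` = the parent of the end label.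
The triples whose likelihood ratio INSIDE the event exceeds `M` weigh at most `(I + log 2 + 1) / log M`, `I` = information of the array `a`. -/
theorem k4c_trunc_fin {α ε β : Type} [Fintype α] [Fintype ε] [Fintype β] [DecidableEq α] (wd : ε → α) (a g : ε → β → ℝ)
    (hg0 : ∀ e b, 0 ≤ g e b) (hga : ∀ e b, g e b ≤ a e b) (hsum : ∑ e, ∑ b, a e b = 1) {M : ℝ} (hM : 1 < M) :
    ∑ e, ∑ b, (if M * ((∑ b', g e b') * ∑ e', if wd e' = wd e then g e' b else 0) < g e b * ∑ e', (if wd e' = wd e then ∑ b', g e' b' else 0)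
        then g e b else 0)
      ≤ (k4Info (fun A => ∑ e, if wd e = A then ∑ b, a e b else 0)
          (fun A e b => if wd e = A then a e b / ∑ e', (if wd e' = A then ∑ b', a e' b' else 0) else 0) + Real.log 2 + 1) / Real.log M := by
  classical
  have hlog : 0 < Real.log M := Real.log_pos hM
  let _ : MeasurableSpace (ε × β × Bool) := ⊤
  have : DiscreteMeasurableSpace (ε × β × Bool) := ⟨fun _ => trivial⟩
  obtain ⟨w, hw⟩ : ∃ w : ε × β × Bool → ℝ, w = fun ω => if ω.2.2 then g ω.1 ω.2.1 else a ω.1 ω.2.1 - g ω.1 ω.2.1 := ⟨_, rfl⟩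
  have hsw : ∀ f : ε × β × Bool → ℝ, ∑ ω, f ω = ∑ e, ∑ b, (f (e, b, true) + f (e, b, false)) := by
    intro f
    rw [Fintype.sum_prod_type]
    refine Finset.sum_congr rfl fun e _ => ?_
    rw [Fintype.sum_prod_type]
    refine Finset.sum_congr rfl fun b _ => ?_
    rw [Fintype.sum_bool]
  obtain ⟨μ, hμ, hreal⟩ := k4c_fin_law w (by
      intro ω
      rw [hw]
      dsimp only
      split_ifs
      · exact hg0 _ _
      · linarith [hga ω.1 ω.2.1]) (by
      rw [hsw, ← hsum]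
      refine Finset.sum_congr rfl fun e _ => Finset.sum_congr rfl fun b _ => ?_
      rw [hw]
      simp)
  -- masses of the events
  have hQ : ∀ (Q : ε → β → Prop) [∀ e b, Decidable (Q e b)], μ.real {ω | Q ω.1 ω.2.1} = ∑ e, ∑ b, if Q e b then a e b else 0 := by
    intro Q _
    rw [hreal, hsw]
    refine Finset.sum_congr rfl fun e _ => Finset.sum_congr rfl fun b _ => ?_
    by_cases h : Q e b
    · simp [Set.indicator, h, hw]
    · simp [Set.indicator, h]
  have hQG : ∀ (Q : ε → β → Prop) [∀ e b, Decidable (Q e b)], μ.real ({ω | Q ω.1 ω.2.1} ∩ {ω | ω.2.2 = true}) = ∑ e, ∑ b, if Q e b then g e b else 0 := by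
    intro Q _
    rw [hreal, hsw]
    refine Finset.sum_congr rfl fun e _ => Finset.sum_congr rfl fun b _ => ?_
    by_cases h : Q e b
    · simp [Set.indicator, h, hw]
    · simp [Set.indicator, h]
  obtain ⟨A, hAd⟩ : ∃ A : ε × β × Bool → α, A = fun ω => wd ω.1 := ⟨_, rfl⟩
  obtain ⟨E, hEd⟩ : ∃ E : ε × β × Bool → ε, E = fun ω => ω.1 := ⟨_, rfl⟩
  obtain ⟨V, hVd⟩ : ∃ V : ε × β × Bool → β, V = fun ω => ω.2.1 := ⟨_, rfl⟩
  obtain ⟨G, hGd⟩ : ∃ G : Set (ε × β × Bool), G = {ω | ω.2.2 = true} := ⟨_, rfl⟩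
  have hA : KsLab A := fun _ => MeasurableSet.of_discrete
  have hE : KsLab E := fun _ => MeasurableSet.of_discrete
  have hV : KsLab V := fun _ => MeasurableSet.of_discrete
  have hGm : MeasurableSet G := MeasurableSet.of_discrete
  obtain ⟨pa, hpa⟩ : ∃ pa : α → ℝ, pa = fun A0 => ∑ e, if wd e = A0 then ∑ b, a e b else 0 := ⟨_, rfl⟩
  obtain ⟨pg, hpg⟩ : ∃ pg : α → ℝ, pg = fun A0 => ∑ e, if wd e = A0 then ∑ b, g e b else 0 := ⟨_, rfl⟩
  have sA : ∀ A0, A ⁻¹' {A0} = {ω | (fun e (_ : β) => wd e = A0) ω.1 ω.2.1} := fun A0 => by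
    rw [hAd]
    rfl
  have sT : ∀ A0 e0 b0, A ⁻¹' {A0} ∩ E ⁻¹' {e0} ∩ V ⁻¹' {b0} = {ω | (fun e b => wd e = A0 ∧ e = e0 ∧ b = b0) ω.1 ω.2.1} := fun A0 e0 b0 => by
    rw [hAd, hEd, hVd]
    ext ω
    simp only [Set.mem_inter_iff, Set.mem_preimage, Set.mem_singleton_iff, Set.mem_ofPred_eq, and_assoc]
  have sum1 : ∀ (f : ε → β → ℝ) A0, (∑ e, ∑ b, if wd e = A0 then f e b else 0) = ∑ e, if wd e = A0 then ∑ b, f e b else 0 := by
    intro f A0
    refine Finset.sum_congr rfl fun e _ => ?_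
    split_ifs
    · rfl
    · simp
  have sum3 : ∀ (f : ε → β → ℝ) A0 e0 b0, (∑ e, ∑ b, if wd e = A0 ∧ e = e0 ∧ b = b0 then f e b else 0) = if wd e0 = A0 then f e0 b0 else 0 := by
    intro f A0 e0 b0
    rw [Finset.sum_eq_single e0, Finset.sum_eq_single b0]
    · simp
    · intro b _ hb
      simp [hb]
    · intro h
      exact absurd (Finset.mem_univ _) h
    · intro e _ he
      simp [he]
    · intro h
      exact absurd (Finset.mem_univ _) h
  have hPa : ∀ A0, μ.real (A ⁻¹' {A0}) = pa A0 := fun A0 => by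
    rw [sA, hpa]
    exact (hQ (fun e _ => wd e = A0)).trans (sum1 a A0)
  have hRa : ∀ A0 e0 b0, μ.real (A ⁻¹' {A0} ∩ E ⁻¹' {e0} ∩ V ⁻¹' {b0}) = if wd e0 = A0 then a e0 b0 else 0 := fun A0 e0 b0 => by
    rw [sT]
    exact (hQ (fun e b => wd e = A0 ∧ e = e0 ∧ b = b0)).trans (sum3 a A0 e0 b0)
  have hPg : ∀ A0, μ.real (A ⁻¹' {A0} ∩ G) = pg A0 := fun A0 => by
    rw [sA, hGd, hpg]
    exact (hQG (fun e _ => wd e = A0)).trans (sum1 g A0)
  have hRg : ∀ A0 e0 b0, μ.real (A ⁻¹' {A0} ∩ E ⁻¹' {e0} ∩ V ⁻¹' {b0} ∩ G) = if wd e0 = A0 then g e0 b0 else 0 := fun A0 e0 b0 => by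
    rw [sT, hGd]
    exact (hQG (fun e b => wd e = A0 ∧ e = e0 ∧ b = b0)).trans (sum3 g A0 e0 b0)
  have hZ : μ.real G = ∑ e, ∑ b, g e b := by
    have h := hQG (fun _ _ => True)
    simp only [if_true] at h
    rw [← h, hGd]
    congr 1
    ext ω
    simp
  have hinfo : k4cInfo μ A E V = k4Info (fun A => ∑ e, if wd e = A then ∑ b, a e b else 0)
      (fun A e b => if wd e = A then a e b / ∑ e', (if wd e' = A then ∑ b', a e' b' else 0) else 0) := by
    unfold k4cInfo
    congr 1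
    · funext A0
      unfold k4cP
      rw [hPa, hpa]
    · funext A0 e0 b0
      unfold k4cR
      rw [hPa, hRa, hpa]
      split_ifs
      · rfl
      · simp
  rw [← hinfo]
  have hinn : 0 ≤ k4cInfo μ A E V := k4c_info_nonneg μ hA hE hV
  have hl2 : 0 < Real.log 2 := Real.log_pos (by norm_num)
  have hgle : ∀ e b, g e b ≤ pg (wd e) := by
    intro e b
    rw [hpg]
    calc g e b ≤ ∑ b', g e b' := Finset.single_le_sum (f := fun b' => g e b') (fun b' _ => hg0 e b') (Finset.mem_univ b)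
      _ = if wd e = wd e then ∑ b', g e b' else 0 := by simp
      _ ≤ _ := Finset.single_le_sum (f := fun e' => if wd e' = wd e then ∑ b', g e' b' else 0) (fun e' _ => by
          split_ifs
          · exact Finset.sum_nonneg fun b' _ => hg0 e' b'
          · exact le_rfl) (Finset.mem_univ e)
  have hpg0 : ∀ A0, 0 ≤ pg A0 := by
    intro A0
    rw [hpg]
    refine Finset.sum_nonneg fun e _ => ?_
    split_ifs
    · exact Finset.sum_nonneg fun b _ => hg0 e b
    · exact le_rfl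
  have hL : (∑ e, ∑ b, (if M * ((∑ b', g e b') * ∑ e', if wd e' = wd e then g e' b else 0) < g e b * ∑ e', (if wd e' = wd e then ∑ b', g e' b' else 0)
        then g e b else 0))
      = ∑ e, ∑ b, (if M * ((∑ b', g e b') * ∑ e', if wd e' = wd e then g e' b else 0) < g e b * pg (wd e) then g e b else 0) := by
    rw [hpg]
  rw [hL]
  by_cases hpos : μ G = 0
  · have hZ0 : ∑ e, ∑ b, g e b = 0 := by
      rw [← hZ, measureReal_def, hpos]
      rfl
    have hg : ∀ e b, g e b = 0 := by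
      intro e b
      have h1 := (Finset.sum_eq_zero_iff_of_nonneg (fun e _ => Finset.sum_nonneg fun b _ => hg0 e b)).1 hZ0 e (Finset.mem_univ e)
      exact (Finset.sum_eq_zero_iff_of_nonneg (fun b _ => hg0 e b)).1 h1 b (Finset.mem_univ b)
    have h0 : (∑ e, ∑ b, (if M * ((∑ b', g e b') * ∑ e', if wd e' = wd e then g e' b else 0) < g e b * pg (wd e) then g e b else 0)) = 0 := by
      refine Finset.sum_eq_zero fun e _ => Finset.sum_eq_zero fun b _ => ?_
      rw [hg e b]
      simp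
    rw [h0]
    positivity
  obtain ⟨Rg, hRgd⟩ : ∃ Rg : α → ε → β → ℝ, Rg = fun A0 e b => (if wd e = A0 then g e b else 0) / pg A0 := ⟨_, rfl⟩
  have hpt : ∀ e b, pg (wd e) * (Rg (wd e) e b - k4Good M Rg (wd e) e b)
      = if M * ((∑ b', g e b') * ∑ e', if wd e' = wd e then g e' b else 0) < g e b * pg (wd e) then g e b else 0 := by
    intro e b
    have e1 : Rg (wd e) e b = g e b / pg (wd e) := by
      rw [hRgd]
      simp
    have e2 : k4Pre Rg (wd e) e = (∑ b', g e b') / pg (wd e) := by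
      unfold k4Pre
      rw [hRgd, Finset.sum_div]
      simp
    have e3 : k4Pi Rg (wd e) b = (∑ e', if wd e' = wd e then g e' b else 0) / pg (wd e) := by
      unfold k4Pi
      rw [hRgd, Finset.sum_div]
    unfold k4Good
    rw [e1, e2, e3]
    rcases (hpg0 (wd e)).eq_or_lt with h0 | h0
    · have hx : g e b = 0 := le_antisymm ((hgle e b).trans h0.symm.le) (hg0 e b)
      rw [← h0, hx]
      simp
    · have hiff : g e b / pg (wd e) ≤ M * ((∑ b', g e b') / pg (wd e) * ((∑ e', if wd e' = wd e then g e' b else 0) / pg (wd e)))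
          ↔ g e b * pg (wd e) ≤ M * ((∑ b', g e b') * ∑ e', if wd e' = wd e then g e' b else 0) := by
        have f1 : g e b / pg (wd e) = g e b * pg (wd e) / (pg (wd e) * pg (wd e)) := by field_simp
        have f2 : M * ((∑ b', g e b') / pg (wd e) * ((∑ e', if wd e' = wd e then g e' b else 0) / pg (wd e)))
            = M * ((∑ b', g e b') * ∑ e', if wd e' = wd e then g e' b else 0) / (pg (wd e) * pg (wd e)) := by field_simp
        rw [f1, f2, div_le_div_iff_of_pos_right (mul_pos h0 h0)]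
      by_cases h : M * ((∑ b', g e b') * ∑ e', if wd e' = wd e then g e' b else 0) < g e b * pg (wd e)
      · rw [if_pos h, if_neg (fun h' => absurd (hiff.1 h') (not_le.2 h)), sub_zero]
        field_simp
      · rw [if_neg h, if_pos (hiff.2 (not_lt.1 h)), sub_self, mul_zero]
  have hmain : ∑ A0, pg A0 * ∑ e, ∑ b, (Rg A0 e b - k4Good M Rg A0 e b)
      = ∑ e, ∑ b, (if M * ((∑ b', g e b') * ∑ e', if wd e' = wd e then g e' b else 0) < g e b * pg (wd e) then g e b else 0) := by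
    have h1 : ∀ A0, pg A0 * ∑ e, ∑ b, (Rg A0 e b - k4Good M Rg A0 e b) = ∑ e, ∑ b, pg A0 * (Rg A0 e b - k4Good M Rg A0 e b) := by
      intro A0
      rw [Finset.mul_sum]
      exact Finset.sum_congr rfl fun e _ => Finset.mul_sum _ _ _
    rw [Finset.sum_congr rfl fun A0 _ => h1 A0, Finset.sum_comm]
    refine Finset.sum_congr rfl fun e _ => ?_
    rw [Finset.sum_comm]
    refine Finset.sum_congr rfl fun b _ => ?_
    rw [← hpt e b]
    refine Finset.sum_eq_single (wd e) ?_ (fun h => absurd (Finset.mem_univ _) h)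
    intro A0 _ hA0
    have e1 : Rg A0 e b = 0 := by
      rw [hRgd]
      simp [Ne.symm hA0]
    unfold k4Good
    rw [e1]
    simp
  rw [← hmain]
  have hc := k4c_info_cond μ hA hE hV hGm hpos
  have hprob : IsProbabilityMeasure ((μ G)⁻¹ • μ.restrict G) := ProbabilityTheory.cond_isProbabilityMeasure hpos
  have ht := k4_trunc (k4c_mix ((μ G)⁻¹ • μ.restrict G) hA hE hV) hM
  have hZpos : 0 < μ.real G := by
    rw [measureReal_def]
    exact ENNReal.toReal_pos hpos (measure_ne_top _ _)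
  have hZ1 : μ.real G ≤ 1 := measureReal_le_one
  have hrealG : ∀ X : Set (ε × β × Bool), ((μ G)⁻¹ • μ.restrict G).real X = (μ.real G)⁻¹ * μ.real (X ∩ G) := fun X => by
    simp only [measureReal_def, Measure.smul_apply, smul_eq_mul, ENNReal.toReal_mul, ENNReal.toReal_inv, Measure.restrict_apply' hGm]
  have hP' : k4cP ((μ G)⁻¹ • μ.restrict G) A = fun A0 => (μ.real G)⁻¹ * pg A0 := by
    funext A0
    unfold k4cP
    rw [hrealG, hPg]
  have hR' : k4cR ((μ G)⁻¹ • μ.restrict G) A E V = Rg := by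
    funext A0 e b
    unfold k4cR
    rw [hrealG, hrealG, hPg, hRg, hRgd, mul_div_mul_left _ _ (inv_ne_zero hZpos.ne')]
  have hI' : k4cInfo ((μ G)⁻¹ • μ.restrict G) A E V = k4Info (k4cP ((μ G)⁻¹ • μ.restrict G) A) (k4cR ((μ G)⁻¹ • μ.restrict G) A E V) := rfl
  rw [← hI', hR', hP'] at ht
  have e1 : ∑ A0, pg A0 * ∑ e, ∑ b, (Rg A0 e b - k4Good M Rg A0 e b)
      = μ.real G * ∑ A0, (μ.real G)⁻¹ * pg A0 * ∑ e, ∑ b, (Rg A0 e b - k4Good M Rg A0 e b) := by
    rw [Finset.mul_sum]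
    refine Finset.sum_congr rfl fun A0 _ => ?_
    rw [← mul_assoc, ← mul_assoc, mul_inv_cancel₀ hZpos.ne', one_mul]
  rw [e1]
  calc _ ≤ μ.real G * ((k4cInfo ((μ G)⁻¹ • μ.restrict G) A E V + 1) / Real.log M) := mul_le_mul_of_nonneg_left ht hZpos.le
    _ = (μ.real G * k4cInfo ((μ G)⁻¹ • μ.restrict G) A E V + μ.real G) / Real.log M := by ring
    _ ≤ _ := by
      refine div_le_div_of_nonneg_right ?_ hlog.le
      linarith

/-- a set covered by disjoint measurable pieces (the pieces of one parent) -/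
theorem k4c_part_sum {X W C : Type} [MeasurableSpace X] [Fintype C] [DecidableEq W] (wd : C → W) (μ : Measure X) (S : C → Set X)
    (hSm : ∀ e, MeasurableSet (S e)) (hSd : ∀ e e', e ≠ e' → wd e = wd e' → Disjoint (S e) (S e')) (γ : W) (T : Set X)
    (hT : ∀ x ∈ T, ∃ e, wd e = γ ∧ x ∈ S e) : ∑ e, (if wd e = γ then μ (T ∩ S e) else 0) = μ T := by
  rw [← Finset.sum_filter]
  have h1 : ∀ e ∈ Finset.univ.filter (fun e => wd e = γ), μ (T ∩ S e) = μ.restrict T (S e) := fun e _ => by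
    rw [Measure.restrict_apply (hSm e), Set.inter_comm]
  rw [Finset.sum_congr rfl h1, ← measure_biUnion_finset _ (fun e _ => hSm e)]
  · rw [Measure.restrict_apply (Finset.measurableSet_biUnion _ fun e _ => hSm e)]
    congr 1
    ext x
    simp only [Set.mem_inter_iff, Set.mem_iUnion, Finset.mem_filter, Finset.mem_univ, true_and, exists_prop]
    exact ⟨fun h => h.2, fun h => ⟨hT x h, h⟩⟩
  · intro e he e' he' hne
    have h2 := (Finset.mem_filter.1 he).2
    have h3 := (Finset.mem_filter.1 he').2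
    exact hSd e e' hne (h2.trans h3.symm)

theorem k4c_part_sum_real {X W C : Type} [MeasurableSpace X] [Fintype C] [DecidableEq W] (wd : C → W) (μ : Measure X) [IsFiniteMeasure μ] (S : C → Set X)
    (hSm : ∀ e, MeasurableSet (S e)) (hSd : ∀ e e', e ≠ e' → wd e = wd e' → Disjoint (S e) (S e')) (γ : W) (T : Set X)
    (hT : ∀ x ∈ T, ∃ e, wd e = γ ∧ x ∈ S e) : ∑ e, (if wd e = γ then μ.real (T ∩ S e) else 0) = μ.real T := by
  rw [measureReal_def, ← k4c_part_sum wd μ S hSm hSd γ T hT, ENNReal.toReal_sum]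
  · refine Finset.sum_congr rfl fun e _ => ?_
    split_ifs
    · rfl
    · rfl
  · intro e _
    split_ifs
    · exact measure_ne_top _ _
    · exact ENNReal.zero_ne_top

/-- the information depends only on the rows of positive weight -/
theorem k4c_info_congr {α ε β : Type} [Fintype α] [Fintype ε] [Fintype β] {p p' : α → ℝ} {R R' : α → ε → β → ℝ} (hp : ∀ A, p A = p' A)
    (hR : ∀ A, p A ≠ 0 → ∀ e b, R A e b = R' A e b) : k4Info p R = k4Info p' R' := by
  unfold k4Info
  refine Finset.sum_congr rfl fun A _ => ?_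
  rw [← hp A]
  by_cases h : p A = 0
  · rw [h, zero_mul, zero_mul]
  · simp only [k4Pre, k4Pi, hR A h]

/-- regrouping a sum over the end labels by their parents -/
theorem k4c_sum_wd {W C M : Type} [Fintype W] [Fintype C] [DecidableEq W] [AddCommMonoid M] (wd : C → W) (f : C → M) :
    ∑ γ, ∑ e, (if wd e = γ then f e else 0) = ∑ e, f e := by
  rw [Finset.sum_comm]
  refine Finset.sum_congr rfl fun e _ => ?_
  simp

/-- **likelihood truncation after masking, for finitely many finite measures.** -/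
theorem k4c_trunc_meas {X W C β : Type} [MeasurableSpace X] [Fintype W] [Fintype C] [Fintype β] [DecidableEq W]
    (wd : C → W) (om : W → ℝ≥0∞) (m : W → Measure X) [∀ γ, IsFiniteMeasure (m γ)] (Pth Msk : W → Set X) (S : C → Set X) (V : W → X → β) (K1 : Set W)
    (hom : ∀ γ, om γ ≠ ∞) (hMP : ∀ γ, Msk γ ⊆ Pth γ) (hSm : ∀ e, MeasurableSet (S e))
    (hSd : ∀ e e', e ≠ e' → wd e = wd e' → Disjoint (S e) (S e')) (hcov : ∀ γ, ∀ x ∈ Pth γ, ∃ e, wd e = γ ∧ x ∈ S e) (hV : ∀ γ, KsLab (V γ))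
    (hZ : ∑ γ, om γ * m γ (Pth γ) ≠ 0) {M : ℝ} (hM : 1 < M) :
    ∑ γ, om γ * m γ {x | γ ∈ K1 ∧ x ∈ Msk γ ∧ ∃ e, wd e = γ ∧ x ∈ S e ∧
        ENNReal.ofReal M * (m γ (Msk γ ∩ V γ ⁻¹' {V γ x}) / m γ (Msk γ)) * m γ (Msk γ ∩ S e) < m γ (Msk γ ∩ S e ∩ V γ ⁻¹' {V γ x})}
      ≤ ENNReal.ofReal ((k4Info (fun γ => (om γ * m γ (Pth γ) / ∑ γ', om γ' * m γ' (Pth γ')).toReal)
          (fun γ e b => if wd e = γ then (m γ (Pth γ ∩ S e ∩ V γ ⁻¹' {b}) / m γ (Pth γ)).toReal else 0) + Real.log 2 + 1) / Real.log M)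
        * ∑ γ, om γ * m γ (Pth γ) := by
  classical
  obtain ⟨Z0, hZ0⟩ : ∃ Z0, Z0 = ∑ γ, om γ * m γ (Pth γ) := ⟨_, rfl⟩
  rw [← hZ0] at hZ ⊢
  have hZt : Z0 ≠ ∞ := by
    rw [hZ0]
    exact ENNReal.sum_ne_top.2 fun γ _ => ENNReal.mul_ne_top (hom γ) (measure_ne_top _ _)
  obtain ⟨c, hc⟩ : ∃ c : W → ℝ, c = fun γ => (om γ / Z0).toReal := ⟨_, rfl⟩
  have hc0 : ∀ γ, 0 ≤ c γ := fun γ => by rw [hc]; exact ENNReal.toReal_nonneg
  obtain ⟨a, ha⟩ : ∃ a : C → β → ℝ, a = fun e b => c (wd e) * (m (wd e)).real (Pth (wd e) ∩ S e ∩ V (wd e) ⁻¹' {b}) := ⟨_, rfl⟩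
  obtain ⟨g, hg⟩ : ∃ g : C → β → ℝ, g = fun e b => if wd e ∈ K1 then c (wd e) * (m (wd e)).real (Msk (wd e) ∩ S e ∩ V (wd e) ⁻¹' {b}) else 0 :=
    ⟨_, rfl⟩
  have hg0 : ∀ e b, 0 ≤ g e b := fun e b => by
    rw [hg]
    dsimp only
    split_ifs
    · exact mul_nonneg (hc0 _) measureReal_nonneg
    · exact le_rfl
  have hga : ∀ e b, g e b ≤ a e b := fun e b => by
    rw [hg, ha]
    dsimp only
    split_ifs
    · exact mul_le_mul_of_nonneg_left (measureReal_mono (Set.inter_subset_inter_left _ (Set.inter_subset_inter_left _ (hMP _)))) (hc0 _)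
    · exact mul_nonneg (hc0 _) measureReal_nonneg
  have hsumb : ∀ γ (U : Set X), ∑ b, (m γ).real (U ∩ V γ ⁻¹' {b}) = (m γ).real U := fun γ U => ks_sum_inter_real (m γ) (hV γ) U
  have hab : ∀ e, ∑ b, a e b = c (wd e) * (m (wd e)).real (Pth (wd e) ∩ S e) := fun e => by
    rw [ha]
    dsimp only
    rw [← Finset.mul_sum, hsumb]
  have hpa : ∀ γ, ∑ e, (if wd e = γ then ∑ b, a e b else 0) = c γ * (m γ).real (Pth γ) := fun γ => by
    rw [← k4c_part_sum_real wd (m γ) S hSm hSd γ (Pth γ) (hcov γ), Finset.mul_sum]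
    refine Finset.sum_congr rfl fun e _ => ?_
    by_cases h : wd e = γ
    · subst h
      rw [if_pos rfl, if_pos rfl, hab]
    · rw [if_neg h, if_neg h, mul_zero]
  have hpW : ∀ γ, (om γ * m γ (Pth γ) / Z0).toReal = c γ * (m γ).real (Pth γ) := fun γ => by
    rw [hc, measureReal_def, ← ENNReal.toReal_mul]
    congr 1
    simp only [div_eq_mul_inv]
    rw [mul_right_comm]
  have hsum : ∑ e, ∑ b, a e b = 1 := by
    rw [← k4c_sum_wd wd (fun e => ∑ b, a e b), Finset.sum_congr rfl fun γ _ => (hpa γ).trans (hpW γ).symm,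
      ← ENNReal.toReal_sum (fun γ _ => ENNReal.div_ne_top (ENNReal.mul_ne_top (hom γ) (measure_ne_top _ _)) hZ)]
    simp only [div_eq_mul_inv]
    rw [← Finset.sum_mul, ← hZ0, ENNReal.mul_inv_cancel hZ hZt]
    rfl
  have key := k4c_trunc_fin wd a g hg0 hga hsum hM
  have hinfo : k4Info (fun A => ∑ e, if wd e = A then ∑ b, a e b else 0)
      (fun A e b => if wd e = A then a e b / ∑ e', (if wd e' = A then ∑ b', a e' b' else 0) else 0)
      = k4Info (fun γ => (om γ * m γ (Pth γ) / Z0).toReal)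
          (fun γ e b => if wd e = γ then (m γ (Pth γ ∩ S e ∩ V γ ⁻¹' {b}) / m γ (Pth γ)).toReal else 0) := by
    refine k4c_info_congr (fun γ => (hpa γ).trans (hpW γ).symm) ?_
    intro γ hγ e b
    have hγ' : c γ * (m γ).real (Pth γ) ≠ 0 := by
      rw [← hpa]
      exact hγ
    rw [hpa]
    by_cases h : wd e = γ
    · subst h
      rw [if_pos rfl, if_pos rfl, ha]
      dsimp only
      rw [mul_div_mul_left _ _ (left_ne_zero_of_mul hγ'), ENNReal.toReal_div]
      rfl
    · rw [if_neg h, if_neg h]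
  rw [hinfo] at key
  -- the marginals of `g`
  have hgb : ∀ e, wd e ∈ K1 → ∑ b', g e b' = c (wd e) * (m (wd e)).real (Msk (wd e) ∩ S e) := fun e he => by
    rw [hg]
    dsimp only
    simp only [if_pos he]
    rw [← Finset.mul_sum, hsumb]
  have hge : ∀ γ ∈ K1, ∀ b, ∑ e', (if wd e' = γ then g e' b else 0) = c γ * (m γ).real (Msk γ ∩ V γ ⁻¹' {b}) := fun γ hγ b => by
    rw [← k4c_part_sum_real wd (m γ) S hSm hSd γ (Msk γ ∩ V γ ⁻¹' {b}) (fun x hx => hcov γ x (hMP γ hx.1)), Finset.mul_sum]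
    refine Finset.sum_congr rfl fun e _ => ?_
    by_cases h : wd e = γ
    · subst h
      rw [if_pos rfl, if_pos rfl, hg]
      dsimp only
      rw [if_pos hγ, Set.inter_right_comm]
    · rw [if_neg h, if_neg h, mul_zero]
  have hgg : ∀ γ ∈ K1, ∑ e', (if wd e' = γ then ∑ b', g e' b' else 0) = c γ * (m γ).real (Msk γ) := fun γ hγ => by
    rw [← k4c_part_sum_real wd (m γ) S hSm hSd γ (Msk γ) (fun x hx => hcov γ x (hMP γ hx)), Finset.mul_sum]
    refine Finset.sum_congr rfl fun e _ => ?_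
    by_cases h : wd e = γ
    · subst h
      rw [if_pos rfl, if_pos rfl, hgb e hγ]
    · rw [if_neg h, if_neg h, mul_zero]
  obtain ⟨Del, hDel⟩ : ∃ Del : W → Set X, Del = fun γ => {x | γ ∈ K1 ∧ x ∈ Msk γ ∧ ∃ e, wd e = γ ∧ x ∈ S e ∧
        ENNReal.ofReal M * (m γ (Msk γ ∩ V γ ⁻¹' {V γ x}) / m γ (Msk γ)) * m γ (Msk γ ∩ S e) < m γ (Msk γ ∩ S e ∩ V γ ⁻¹' {V γ x})} := ⟨_, rfl⟩
  have hDM : ∀ γ, Del γ ⊆ Msk γ := fun γ x hx => by
    rw [hDel] at hx
    exact hx.2.1
  obtain ⟨t, ht⟩ : ∃ t : C → β → ℝ, t = fun e b => if M * ((∑ b', g e b') * ∑ e', if wd e' = wd e then g e' b else 0)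
      < g e b * ∑ e', (if wd e' = wd e then ∑ b', g e' b' else 0) then g e b else 0 := ⟨_, rfl⟩
  have ht0 : ∀ e b, 0 ≤ t e b := fun e b => by
    rw [ht]
    dsimp only
    split_ifs
    · exact hg0 e b
    · exact le_rfl
  have hterm : ∀ e b, om (wd e) * m (wd e) (Del (wd e) ∩ S e ∩ V (wd e) ⁻¹' {b}) ≤ Z0 * ENNReal.ofReal (t e b) := by
    intro e b
    by_cases hne : (Del (wd e) ∩ S e ∩ V (wd e) ⁻¹' {b}).Nonempty
    · obtain ⟨x, ⟨hxD, hxS⟩, hxb⟩ := hne
      rw [hDel] at hxD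
      obtain ⟨hK, hxM, e', he', hxe', hbad⟩ := hxD
      have hee : e' = e := by
        by_contra hn
        exact Set.disjoint_left.1 (hSd e' e hn he') hxe' hxS
      subst hee
      have hxb' : V (wd e') x = b := hxb
      rw [hxb'] at hbad
      by_cases hom0 : om (wd e') = 0
      · rw [hom0, zero_mul]
        exact zero_le
      · have hcpos : 0 < c (wd e') := by
          rw [hc]
          exact ENNReal.toReal_pos (ENNReal.div_ne_zero.2 ⟨hom0, hZt⟩) (ENNReal.div_ne_top (hom _) hZ)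
        have hb1 := (ENNReal.toReal_lt_toReal (ne_top_of_lt hbad) (measure_ne_top _ _)).2 hbad
        rw [ENNReal.toReal_mul, ENNReal.toReal_mul, ENNReal.toReal_ofReal (by linarith), ENNReal.toReal_div] at hb1
        simp only [← measureReal_def] at hb1
        obtain ⟨r0, hr0⟩ : ∃ r0, r0 = (m (wd e')).real (Msk (wd e')) := ⟨_, rfl⟩
        obtain ⟨r1, hr1⟩ : ∃ r1, r1 = (m (wd e')).real (Msk (wd e') ∩ V (wd e') ⁻¹' {b}) := ⟨_, rfl⟩
        obtain ⟨r2, hr2⟩ : ∃ r2, r2 = (m (wd e')).real (Msk (wd e') ∩ S e') := ⟨_, rfl⟩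
        obtain ⟨r3, hr3⟩ : ∃ r3, r3 = (m (wd e')).real (Msk (wd e') ∩ S e' ∩ V (wd e') ⁻¹' {b}) := ⟨_, rfl⟩
        have hr30 : r3 ≤ r0 := by
          rw [hr3, hr0]
          exact measureReal_mono (fun y hy => hy.1.1)
        have hr1n : 0 ≤ r1 := by rw [hr1]; exact measureReal_nonneg
        have hr2n : 0 ≤ r2 := by rw [hr2]; exact measureReal_nonneg
        have hr0n : 0 ≤ r0 := by rw [hr0]; exact measureReal_nonneg
        rw [← hr0, ← hr1, ← hr2, ← hr3] at hb1
        have hr3p : 0 < r3 := lt_of_le_of_lt (by positivity) hb1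
        have hr0p : 0 < r0 := hr3p.trans_le hr30
        have hb2 : M * (r2 * r1) < r3 * r0 := by
          have e1 : M * (r1 / r0) * r2 = M * (r2 * r1) / r0 := by field_simp
          rw [e1, div_lt_iff₀ hr0p] at hb1
          exact hb1
        have hgv : g e' b = c (wd e') * r3 := by
          rw [hg, hr3]
          dsimp only
          rw [if_pos hK]
        have htv : t e' b = c (wd e') * r3 := by
          rw [ht]
          dsimp only
          rw [hgb e' hK, hge _ hK, hgg _ hK, hgv, ← hr0, ← hr1, ← hr2, if_pos]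
          have e2 : M * (c (wd e') * r2 * (c (wd e') * r1)) = c (wd e') ^ 2 * (M * (r2 * r1)) := by ring
          have e3 : c (wd e') * r3 * (c (wd e') * r0) = c (wd e') ^ 2 * (r3 * r0) := by ring
          rw [e2, e3]
          exact mul_lt_mul_of_pos_left hb2 (by positivity)
        rw [htv, ENNReal.ofReal_mul hcpos.le, hc, hr3, ofReal_measureReal, ENNReal.ofReal_toReal (ENNReal.div_ne_top (hom _) hZ), ← mul_assoc,
          ENNReal.mul_div_cancel hZ hZt]
        exact mul_le_mul' le_rfl (measure_mono (Set.inter_subset_inter_left _ (Set.inter_subset_inter_left _ (hDM _))))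
    · rw [Set.not_nonempty_iff_eq_empty.1 hne, measure_empty, mul_zero]
      exact zero_le
  have hsplit : ∀ γ, om γ * m γ (Del γ) = ∑ e, if wd e = γ then ∑ b, om (wd e) * m (wd e) (Del (wd e) ∩ S e ∩ V (wd e) ⁻¹' {b}) else 0 := by
    intro γ
    rw [← k4c_part_sum wd (m γ) S hSm hSd γ (Del γ) (fun x hx => hcov γ x (hMP γ (hDM γ hx))), Finset.mul_sum]
    refine Finset.sum_congr rfl fun e _ => ?_
    by_cases h : wd e = γ
    · subst h
      rw [if_pos rfl, if_pos rfl, ← Finset.mul_sum, ks_sum_inter (m (wd e)) (hV (wd e))]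
    · rw [if_neg h, if_neg h, mul_zero]
  have hfin : ∑ γ, om γ * m γ (Del γ) ≤ Z0 * ENNReal.ofReal (∑ e, ∑ b, t e b) := by
    rw [Finset.sum_congr rfl fun γ _ => hsplit γ, k4c_sum_wd wd (fun e => ∑ b, om (wd e) * m (wd e) (Del (wd e) ∩ S e ∩ V (wd e) ⁻¹' {b})),
      ENNReal.ofReal_sum_of_nonneg (fun e _ => Finset.sum_nonneg fun b _ => ht0 e b), Finset.mul_sum]
    refine Finset.sum_le_sum fun e _ => ?_
    rw [ENNReal.ofReal_sum_of_nonneg (fun b _ => ht0 e b), Finset.mul_sum]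
    exact Finset.sum_le_sum fun b _ => hterm e b
  rw [hDel] at hfin
  rw [mul_comm]
  refine hfin.trans (mul_le_mul' le_rfl (ENNReal.ofReal_le_ofReal ?_))
  rw [ht]
  exact key

end

end Claimed.Agent.R252
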