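import Claimed.Agent.R252.S4C.PrepDefs
import Claimed.Agent.R252.S4C.ChgContract
import Claimed.Agent.R252.S4C.CeilContract
import Claimed.Agent.R252.S4C.Info2Contract
import Claimed.Agent.R252.S4C.Trunc
import Claimed.Agent.R252.S4C.LinContract
import Claimed.Agent.R252.S2s.Api
import Claimed.Agent.R252.S2a.PbContract

/-!
# ROW 252 (S0492), unit S4C (post BP-252-S4C, helper294), file 10: THE FIELDS OF THE PREPARED SAMPLE.      CONTRACT file: the `sorry`s are the leaves L-252-S4C-PREP-*.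

ONE scale.  `R : K4cRaw v`, `hR : R.Ok p`, `hN : R.Num τ`, `hp : p.Ok`;  all objects (`R.Msk p`, `R.kW1 p`, `R.pal p`, `R.ref p`, `R.Ev2 p`, `R.kW p`, `R.par p`, `R.sam p`) are the explicit definitions of `S4C/PrepDefs.lean`.
Tools: `S4C/ChgContract.lean` (transport), `S4C/CeilContract.lean` (ceilings; `P.dn = k4cDn` by `rfl`), `S2a/PbContract.lean` (helper129: `k2a_fr`, `k2a_dn_measurable`, `k2a_hid_meas`, `k2a_bin_nest`, `k2a_bin_range`, `k2a_dy_bounds`, `k2a_mass_*`),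
`S2s/Api.lean` (helper78: `k2s_S_disj`, `k2s_sum_le_mass`), `S4T/Contract.lean` (`k4_trunc`), `S4C/Info2Contract.lean` (`k4c_info_cond`).
EXIT: `k4c_prep`.
-/

set_option autoImplicit false
set_option linter.unusedVariables false

namespace Claimed.Agent.R252

open MeasureTheory
open scoped ENNReal BigOperators

noncomputable section

variable {v : KbVer} (R : K4cRaw v) (p : KpPrm) {τ : ℝ}

/-! ## PREP-1 : measurability, inclusions (~250 l.) -/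

theorem k4c_pv_meas (hR : R.Ok p) (γ : R.F.W) : Measurable (R.pv p γ) := by
  have h1 : Measurable fun x : R.F.Lam × ℝ => kbV (R.F.co γ x.1) := by
    have := hR.wf.co_meas γ
    unfold kbV
    fun_prop
  have h2 : Measurable fun x : R.F.Lam × ℝ => (R.Oi γ).mulVec (kbV (R.F.co γ x.1)) := by
    refine measurable_pi_lambda _ fun i => ?_
    simp only [Matrix.mulVec, dotProduct]
    refine Finset.measurable_sum _ fun k _ => ?_
    exact ((measurable_pi_apply k).comp h1).const_mul _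
  unfold K4cRaw.pv kpPv
  split_ifs with h
  · refine measurable_pi_lambda _ fun i => ?_
    by_cases hi : (i : ℕ) = 0
    · simp only [if_pos hi]
      exact (measurable_pi_apply i).comp h2
    · simp only [if_neg hi]
      exact measurable_const
  · exact h2

theorem k4c_vb_meas (hR : R.Ok p) (i : ℕ) : R.F.LabMeas (R.vb p i) := by
  intro γ d
  have h : Measurable (R.vb p i γ) := by
    have := k4c_pv_meas R p hR γ
    unfold K4cRaw.vb kbBin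
    fun_prop
  exact h (measurableSet_singleton d)

theorem k4c_exc_meas (hR : R.Ok p) (γ : R.F.W) : MeasurableSet (R.exc p γ) := by
  have hab : ∀ {D : Type} [Countable D] (ℓ : R.F.Lab D) (hℓ : R.F.LabMeas ℓ) (hi : ℝ), MeasurableSet (R.F.above ℓ hi γ) := by
    intro D _ ℓ hℓ hi
    exact measurableSet_lt measurable_const (k2a_dn_measurable hR.wf hℓ γ)
  have hbe : ∀ {D : Type} [Countable D] (ℓ : R.F.Lab D) (hℓ : R.F.LabMeas ℓ) (lo : ℝ), MeasurableSet (R.F.below ℓ lo γ) := by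
    intro D _ ℓ hℓ lo
    exact measurableSet_lt (k2a_dn_measurable hR.wf hℓ γ) measurable_const
  have e : R.exc p γ = (⋃ i ∈ Finset.range (R.I0 + 1), R.F.above (R.F.hid (R.wg i)) (R.hiW p i) γ) ∪ (R.F.below (R.F.hid R.aL) R.lo γ ∪
      ((⋃ i ∈ Finset.range (R.I0 + 1), R.F.above (R.F.lpair (R.F.hid R.aL) (R.vb p i)) (R.hiV p i) γ) ∪ R.bdl p γ)) := by
    ext x
    simp only [K4cRaw.exc, Set.mem_ofPred_eq, Set.mem_union, Set.mem_iUnion, Finset.mem_range, Nat.lt_succ_iff, exists_prop]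
  rw [e]
  refine (Finset.measurableSet_biUnion _ fun i _ => hab _ (k2a_hid_meas hR.wf _) _).union
    ((hbe _ (k2a_hid_meas hR.wf _) _).union ((Finset.measurableSet_biUnion _ fun i _ => hab _ ?_ _).union ?_))
  · exact fun γ => k2a_lab_pair (k2a_hid_meas hR.wf _ γ) (k4c_vb_meas R p hR i γ)
  · have e2 : R.bdl p γ = ⋃ m ∈ Finset.range (R.G + 1), ⋃ c : (R.T.Q m).C, ⋃ (_ : (R.T.Q m).wd c = γ ∧ c ∉ R.gd p m), (R.T.Q m).S c := by
      ext x
      simp only [K4cRaw.bdl, Set.mem_ofPred_eq, Set.mem_iUnion, Finset.mem_range, Nat.lt_succ_iff, exists_prop, and_assoc]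
    rw [e2]
    refine Finset.measurableSet_biUnion _ fun m hm => MeasurableSet.iUnion fun c => MeasurableSet.iUnion fun _ => ?_
    exact (hR.sys_wf m (Nat.lt_succ_iff.1 (Finset.mem_range.1 hm))).S_meas c

theorem k4c_Msk_meas (hR : R.Ok p) (γ : R.F.W) : MeasurableSet (R.Msk p γ) :=
  (hR.pth_meas γ).diff (k4c_exc_meas R p hR γ)

theorem k4c_Ev2_meas (hR : R.Ok p) (γ : R.F.W) : MeasurableSet (R.Ev2 p γ) := by
  have e : R.Ev2 p γ = R.Msk p γ ∩ ⋂ e : (R.T.Q R.G).C, {x | (R.T.Q R.G).wd e = γ → x ∈ (R.T.Q R.G).S e → ¬ R.Bad p e (R.vb p R.I0 γ x)} := by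
    ext x
    simp only [K4cRaw.Ev2, Set.mem_ofPred_eq, Set.mem_inter_iff, Set.mem_iInter]
  rw [e]
  refine (k4c_Msk_meas R p hR γ).inter (MeasurableSet.iInter fun e => ?_)
  by_cases hw : (R.T.Q R.G).wd e = γ
  · have e3 : {x | (R.T.Q R.G).wd e = γ → x ∈ (R.T.Q R.G).S e → ¬ R.Bad p e (R.vb p R.I0 γ x)}
        = ((R.T.Q R.G).S e ∩ ⋃ b ∈ {b | R.Bad p e b}, R.vb p R.I0 γ ⁻¹' {b})ᶜ := by
      ext x
      simp only [Set.mem_ofPred_eq, Set.mem_compl_iff, Set.mem_inter_iff, Set.mem_iUnion, Set.mem_preimage, Set.mem_singleton_iff,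
        exists_prop, exists_eq_right', not_and, hw, true_imp_iff]
    rw [e3]
    refine ((hR.sys_wf R.G le_rfl).S_meas e |>.inter ?_).compl
    exact MeasurableSet.biUnion (Set.to_countable _) fun b _ => k4c_vb_meas R p hR R.I0 γ b
  · have e3 : {x | (R.T.Q R.G).wd e = γ → x ∈ (R.T.Q R.G).S e → ¬ R.Bad p e (R.vb p R.I0 γ x)} = Set.univ := by
      ext x
      simp [hw]
    rw [e3]
    exact MeasurableSet.univ

theorem k4c_Ev2_sub (γ : R.F.W) : R.Ev2 p γ ⊆ R.Msk p γ := fun _ hx => hx.1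

theorem k4c_Msk_sub (γ : R.F.W) : R.Msk p γ ⊆ R.Pth γ := fun _ hx => hx.1

/-- the final path lies in the event of `F` (`pth_sub` at `m = 0`, `WF.S_sub`) -/
theorem k4c_Pth_sub (hR : R.Ok p) (γ : R.F.W) : R.Pth γ ⊆ R.F.Ev γ := by
  intro x hx
  have h1 := hR.pth_sub 0 (Nat.zero_le _) γ hx
  simp only [KbSys.sel, Set.mem_iUnion] at h1
  obtain ⟨c, hc, hxc⟩ := h1
  have := ((hR.sys_wf 0 (Nat.zero_le _)).S_sub c hxc).1
  rwa [hc] at this

/-- the cube of the finest grid = the event of the finest bin -/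
theorem k4c_cube_vb (i : ℕ) (γ : R.F.W) (b : Fin v.j → ℤ) : R.pv p γ ⁻¹' kpCube (R.wg i) b = {x | R.vb p i γ x = b} := by
  ext x
  simp only [Set.mem_preimage, kpCube, Set.mem_ofPred_eq, K4cRaw.vb, funext_iff]

theorem k4c_pv_le (hR : R.Ok p) (γ : R.F.W) (x : R.F.Lam × ℝ) (hx : x ∈ R.Pth γ) (j : Fin v.j) : |R.pv p γ x j| ≤ R.Kc * R.K0 := by
  have hxE := hR.wf.Ev_sub γ (k4c_Pth_sub R p hR γ hx)
  have hb := hR.ntv.base γ x.1 hxE.1 x.2 hxE.2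
  have hV : ‖kbV (R.F.co γ x.1)‖ ≤ R.K0 := by
    have := norm_nonneg (kbY (R.F.co γ x.1) x.2)
    linarith
  have hK0 : 0 ≤ R.K0 := (norm_nonneg _).trans hV
  have hmv : ∀ i, |(R.Oi γ).mulVec (kbV (R.F.co γ x.1)) i| ≤ R.Kc * R.K0 := by
    intro i
    simp only [Matrix.mulVec, dotProduct]
    calc |∑ k, R.Oi γ i k * kbV (R.F.co γ x.1) k| ≤ ∑ k, |R.Oi γ i k * kbV (R.F.co γ x.1) k| := Finset.abs_sum_le_sum_abs _ _
      _ ≤ ∑ k, |R.Oi γ i k| * R.K0 := by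
          refine Finset.sum_le_sum fun k _ => ?_
          rw [abs_mul]
          refine mul_le_mul_of_nonneg_left ?_ (abs_nonneg _)
          exact (norm_le_pi_norm (kbV (R.F.co γ x.1)) k).trans hV
      _ = (∑ k, |R.Oi γ i k|) * R.K0 := by rw [Finset.sum_mul]
      _ ≤ R.Kc * R.K0 := by
          refine mul_le_mul_of_nonneg_right ?_ hK0
          refine le_trans ?_ (hR.Oi_le γ)
          unfold kbMn
          exact Finset.single_le_sum (f := fun i => ∑ k, |R.Oi γ i k|) (fun i _ => Finset.sum_nonneg fun k _ => abs_nonneg _) (Finset.mem_univ i)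
  have h0 : 0 ≤ R.Kc * R.K0 := (abs_nonneg _).trans (hmv j)
  unfold K4cRaw.pv kpPv
  split_ifs with h
  · by_cases hi : (j : ℕ) = 0
    · simp only [if_pos hi]
      exact hmv j
    · simp only [if_neg hi, abs_zero]
      exact h0
  · exact hmv j

/-- on the final path the finest bins are in the range where `kpClamp` is injective -/
theorem k4c_vb_range (hR : R.Ok p) (hN : R.Num τ) (γ : R.F.W) (x : R.F.Lam × ℝ) (hx : x ∈ R.Pth γ) (j : Fin v.j) : |R.vb p R.I0 γ x j| ≤ R.nb :=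
  hR.rng γ x hx j

theorem k4c_clamp_inj (M : ℕ) (z z' : ℤ) (hz : |z| ≤ M) (hz' : |z'| ≤ M) (h : kpClamp M z = kpClamp M z') : z = z' := by
  have h1 := congrArg Fin.val h
  simp only [kpClamp] at h1
  rw [abs_le] at hz hz'
  omega

/-! ## PREP-2 : the accounting of masses (~350 l.) -/

theorem k4c_mass_biUnion {P : KbPb v} {ι : Type} (s : Finset ι) (A : ι → P.W → Set (P.Lam × ℝ)) :
    P.mass (fun γ => ⋃ i ∈ s, A i γ) ≤ ∑ i ∈ s, P.mass (A i) := by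
  unfold KbPb.mass
  rw [Finset.sum_comm]
  refine Finset.sum_le_sum fun γ _ => ?_
  rw [← Finset.mul_sum]
  exact mul_le_mul_right (measure_biUnion_finset_le _ _) _

open Classical in
theorem k4c_mass_lab {P : KbPb v} (Y : KbSys P) (g : Set Y.C) :
    P.mass (fun γ => ⋃ c : Y.C, ⋃ (_ : Y.wd c = γ ∧ c ∉ g), Y.S c) ≤ ∑ c, if c ∈ g then 0 else P.om (Y.wd c) * Y.mC c := by
  unfold KbPb.mass
  calc ∑ γ, P.om γ * P.mu γ (⋃ c : Y.C, ⋃ (_ : Y.wd c = γ ∧ c ∉ g), Y.S c)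
      ≤ ∑ γ, ∑ c, (if Y.wd c = γ then (if c ∈ g then 0 else P.om (Y.wd c) * Y.mC c) else 0) := by
        refine Finset.sum_le_sum fun γ _ => ?_
        calc P.om γ * P.mu γ (⋃ c : Y.C, ⋃ (_ : Y.wd c = γ ∧ c ∉ g), Y.S c)
            ≤ P.om γ * ∑ c, P.mu γ (⋃ (_ : Y.wd c = γ ∧ c ∉ g), Y.S c) :=
              mul_le_mul_right (measure_iUnion_fintype_le _ _) _
          _ = ∑ c, P.om γ * P.mu γ (⋃ (_ : Y.wd c = γ ∧ c ∉ g), Y.S c) := Finset.mul_sum _ _ _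
          _ ≤ _ := by
              refine Finset.sum_le_sum fun c _ => ?_
              by_cases h1 : Y.wd c = γ
              · subst h1
                by_cases h2 : c ∈ g
                · simp [h2]
                · simp [h2, KbSys.mC]
              · simp [h1]
    _ = ∑ c, ∑ γ, (if Y.wd c = γ then (if c ∈ g then 0 else P.om (Y.wd c) * Y.mC c) else 0) := Finset.sum_comm
    _ = _ := by simp

/-- step 1 -/
theorem k4c_loss_mask (hR : R.Ok p) (hN : R.Num τ) :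
    R.F.mass (fun γ => R.Pth γ \ R.Msk p γ) ≤ ENNReal.ofReal ((2 * (R.I0 : ℝ) + R.G + 4) * R.σ) * R.F.mass R.Pth := by
  set M := R.F.mass R.Pth with hM
  set s := ENNReal.ofReal R.σ with hs
  have h1 : R.F.mass (fun γ => R.Pth γ \ R.Msk p γ) ≤ R.F.mass (fun γ =>
      (⋃ i ∈ Finset.range (R.I0 + 1), R.F.above (R.F.hid (R.wg i)) (R.hiW p i) γ) ∪ (R.F.below (R.F.hid R.aL) R.lo γ ∪
      ((⋃ i ∈ Finset.range (R.I0 + 1), R.F.above (R.F.lpair (R.F.hid R.aL) (R.vb p i)) (R.hiV p i) γ) ∪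
        ⋃ m ∈ Finset.range (R.G + 1), ⋃ c : (R.T.Q m).C, ⋃ (_ : (R.T.Q m).wd c = γ ∧ c ∉ R.gd p m), (R.T.Q m).S c))) := by
    refine k2a_mass_mono fun γ x hx => ?_
    have hx2 : x ∈ R.exc p γ := by
      by_contra hne
      exact hx.2 ⟨hx.1, hne⟩
    simp only [K4cRaw.exc, K4cRaw.bdl, Set.mem_ofPred_eq] at hx2
    simp only [Set.mem_union, Set.mem_iUnion, Finset.mem_range, Nat.lt_succ_iff, exists_prop]
    rcases hx2 with h | h | h | h
    · exact Or.inl h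
    · exact Or.inr (Or.inl h)
    · exact Or.inr (Or.inr (Or.inl h))
    · obtain ⟨m, hm, c, h1, h2, h3⟩ := h
      exact Or.inr (Or.inr (Or.inr ⟨m, hm, c, ⟨h1, h2⟩, h3⟩))
  have a1 : R.F.mass (fun γ => ⋃ i ∈ Finset.range (R.I0 + 1), R.F.above (R.F.hid (R.wg i)) (R.hiW p i) γ) ≤ ((R.I0 + 1 : ℕ) : ℝ≥0∞) * (s * M) := by
    refine (k4c_mass_biUnion _ _).trans ?_
    refine (Finset.sum_le_card_nsmul _ _ (s * M) fun i hi => hR.ex_w i (Nat.lt_succ_iff.1 (Finset.mem_range.1 hi))).trans ?_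
    rw [Finset.card_range, nsmul_eq_mul]
  have a2 : R.F.mass (fun γ => ⋃ i ∈ Finset.range (R.I0 + 1), R.F.above (R.F.lpair (R.F.hid R.aL) (R.vb p i)) (R.hiV p i) γ) ≤ ((R.I0 + 1 : ℕ) : ℝ≥0∞) * (s * M) := by
    refine (k4c_mass_biUnion _ _).trans ?_
    refine (Finset.sum_le_card_nsmul _ _ (s * M) fun i hi => hR.ex_v i (Nat.lt_succ_iff.1 (Finset.mem_range.1 hi))).trans ?_
    rw [Finset.card_range, nsmul_eq_mul]
  have a3 : R.F.mass (fun γ => ⋃ m ∈ Finset.range (R.G + 1), ⋃ c : (R.T.Q m).C, ⋃ (_ : (R.T.Q m).wd c = γ ∧ c ∉ R.gd p m), (R.T.Q m).S c)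
      ≤ ((R.G + 1 : ℕ) : ℝ≥0∞) * (s * M) := by
    refine (k4c_mass_biUnion _ _).trans ?_
    refine (Finset.sum_le_card_nsmul _ _ (s * M) fun m hm =>
      (k4c_mass_lab (R.T.Q m) (R.gd p m)).trans (hR.ex_gd m (Nat.lt_succ_iff.1 (Finset.mem_range.1 hm)))).trans ?_
    rw [Finset.card_range, nsmul_eq_mul]
  have e : ENNReal.ofReal ((2 * (R.I0 : ℝ) + R.G + 4) * R.σ) = ((2 * R.I0 + R.G + 4 : ℕ) : ℝ≥0∞) * s := by
    rw [ENNReal.ofReal_mul (by positivity), hs]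
    congr 1
    rw [← ENNReal.ofReal_natCast]
    congr 1
    push_cast
    ring
  rw [e]
  refine h1.trans ((k2a_mass_union _ _).trans ?_)
  refine (add_le_add a1 ((k2a_mass_union _ _).trans (add_le_add hR.ex_lo ((k2a_mass_union _ _).trans (add_le_add a2 a3))))).trans ?_
  refine le_of_eq ?_
  push_cast
  ring

/-- step 2 -/
theorem k4c_loss_par (hR : R.Ok p) (hN : R.Num τ) :
    R.F.mass (fun γ => {x | γ ∉ R.kW1 p ∧ x ∈ R.Msk p γ}) ≤ ENNReal.ofReal R.σ * R.F.mass R.Pth := by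
  have h1 : R.F.mass (fun γ => {x | γ ∉ R.kW1 p ∧ x ∈ R.Msk p γ}) ≤ ENNReal.ofReal R.θ := by
    refine k2a_mass_le_of_forall hR.wf fun γ => ?_
    by_cases hγ : γ ∈ R.kW1 p
    · simp [hγ]
    · have e : {x | γ ∉ R.kW1 p ∧ x ∈ R.Msk p γ} = R.Msk p γ := by
        ext x
        simp [hγ]
      rw [e]
      exact (not_le.1 hγ).le
  refine h1.trans ?_
  calc ENNReal.ofReal R.θ = ENNReal.ofReal R.θ * 1 := (mul_one _).symm
    _ ≤ ENNReal.ofReal R.θ * (ENNReal.ofReal R.K0 * R.F.mass R.Pth) := mul_le_mul_right hR.pth_mass _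
    _ = ENNReal.ofReal (R.K0 * R.θ) * R.F.mass R.Pth := by
        rw [← mul_assoc, ← ENNReal.ofReal_mul hN.θ_pos.le, mul_comm R.θ]
    _ ≤ _ := mul_le_mul_left (ENNReal.ofReal_le_ofReal hN.θ_le) _

/-- step 4: a parent of `kW1` which is not retained has lost half of its mass in step 3 -/
theorem k4c_loss_par2 (hR : R.Ok p) (hN : R.Num τ) :
    R.F.mass (fun γ => {x | γ ∈ R.kW1 p ∧ γ ∉ R.kW p ∧ x ∈ R.Ev2 p γ}) ≤ R.F.mass (fun γ => {x | γ ∈ R.kW1 p ∧ x ∈ R.Msk p γ ∧ x ∉ R.Ev2 p γ}) := by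
  unfold KbPb.mass
  refine Finset.sum_le_sum fun γ _ => mul_le_mul_right ?_ _
  beta_reduce
  by_cases h1 : γ ∈ R.kW1 p
  · by_cases h2 : γ ∈ R.kW p
    · simp [h2]
    · have e1 : {x | γ ∈ R.kW1 p ∧ γ ∉ R.kW p ∧ x ∈ R.Ev2 p γ} = R.Ev2 p γ := by
        ext x
        simp [h1, h2]
      have e2 : {x | γ ∈ R.kW1 p ∧ x ∈ R.Msk p γ ∧ x ∉ R.Ev2 p γ} = R.Msk p γ \ R.Ev2 p γ := by
        ext x
        simp [h1]
      rw [e1, e2]
      have h3 : R.F.mu γ (R.Ev2 p γ) < ENNReal.ofReal (R.θ / 2) := by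
        by_contra hne
        exact h2 ⟨h1, not_lt.1 hne⟩
      have h4 : ENNReal.ofReal R.θ ≤ R.F.mu γ (R.Msk p γ) := h1
      have h5 : R.F.mu γ (R.Msk p γ) ≤ R.F.mu γ (R.Ev2 p γ) + R.F.mu γ (R.Msk p γ \ R.Ev2 p γ) := by
        refine (measure_mono ?_).trans (measure_union_le _ _)
        intro x hx
        by_cases hx2 : x ∈ R.Ev2 p γ
        · exact Or.inl hx2
        · exact Or.inr ⟨hx, hx2⟩
      by_contra hne
      have h6 := not_le.1 hne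
      have h7 : R.F.mu γ (R.Ev2 p γ) + R.F.mu γ (R.Msk p γ \ R.Ev2 p γ) < ENNReal.ofReal (R.θ / 2) + ENNReal.ofReal (R.θ / 2) :=
        ENNReal.add_lt_add h3 (h6.trans h3)
      rw [← ENNReal.ofReal_add (by linarith [hN.θ_pos]) (by linarith [hN.θ_pos]), add_halves] at h7
      exact absurd (h4.trans h5) (not_le.2 h7)
  · simp [h1]

/-! ## PREP-3 : the likelihood truncation (~500 l.; may be cut in two: (a) the tagged law and its label masses, (b) `k4c_info_cond` + `k4_trunc`) -/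

/-- the finite code of the finest bins is a measurable label -/
theorem k4c_vbc_meas (hR : R.Ok p) (γ : R.F.W) : KsLab (R.vbc p γ) := by
  intro b
  have h : R.vbc p γ ⁻¹' {b} = ⋃ d ∈ {d : Fin v.j → ℤ | (fun j => kpClamp R.nb (d j)) = b}, R.vb p R.I0 γ ⁻¹' {d} := by
    ext x
    simp only [Set.mem_preimage, Set.mem_singleton_iff, Set.mem_iUnion, Set.mem_ofPred_eq, exists_prop, exists_eq_right']
    rfl
  rw [h]
  exact MeasurableSet.biUnion (Set.to_countable _) fun d _ => k4c_vb_meas R p hR R.I0 γ d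

/-- the code is injective on the final path -/
theorem k4c_vbc_inj (hR : R.Ok p) (hN : R.Num τ) (γ : R.F.W) {x y : R.F.Lam × ℝ} (hx : x ∈ R.Pth γ) (hy : y ∈ R.Pth γ)
    (h : R.vbc p γ y = R.vbc p γ x) : R.vb p R.I0 γ y = R.vb p R.I0 γ x := by
  funext j
  exact k4c_clamp_inj R.nb _ _ (k4c_vb_range R p hR hN γ y hy j) (k4c_vb_range R p hR hN γ x hx j) (congrFun h j)

/-- **step 3.**   PROOF.  `Ω := C × (Lam × ℝ)` (`C = (R.T.Q R.G).C` with `⊤`), `μ := (mass Pth)⁻¹ • ∑ e, om (wd e) • ((mu (wd e)).restrict (Pth (wd e) ∩ S e)).map (Prod.mk e)`: a probability (`pth_sub`, disjointness of the `S e`),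
labels `A (e,x) = wd e`, `E (e,x) = e`, `V (e,x) = vbc (wd e) x`; `k4cP μ A = R.pW`, `k4cR μ A E V = R.Rw p`, so `k4cInfo μ A E V ≤ ι`.   `Gd := {(e,x) | wd e ∈ kW1 ∧ x ∈ Msk (wd e)}`; if `μ Gd = 0` the claim is trivial.
`k4c_info_cond`: `μ.real Gd * k4cInfo μ_Gd A E V ≤ ι + log 2`.   `k4_trunc` for `(k4cP μ_Gd A, k4cR μ_Gd A E V)`, `M = Mt`.   For `γ ∈ kW1`: `R' γ e b = mu (Msk ∩ S e ∩ {vbc = b}) / mu Msk`, `pre' = ref e / mu Msk`, `π' = pal (cube)`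
(`k4c_cube_vb`, `k4c_vb_range`: `vbc` is injective on the bins which occur), so "`R' > Mt pre' π'`" is `R.Bad p e b`, and the deleted mixture mass times `μ.real Gd * mass Pth` is the left side. -/
theorem k4c_loss_trunc (hR : R.Ok p) (hN : R.Num τ) :
    R.F.mass (fun γ => {x | γ ∈ R.kW1 p ∧ x ∈ R.Msk p γ ∧ x ∉ R.Ev2 p γ}) ≤ ENNReal.ofReal ((R.ι + Real.log 2 + 1) / Real.log R.Mt) * R.F.mass R.Pth := by
  classical
  have hY := hR.sys_wf R.G le_rfl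
  have hfin : ∀ γ, IsFiniteMeasure (R.F.mu γ) := fun γ => k2s_mu_finite R.F hR.wf γ
  have hom : ∀ γ, R.F.om γ ≠ ∞ := fun γ => by
    have h1 : R.F.om γ ≤ ∑ γ', R.F.om γ' := Finset.single_le_sum (f := R.F.om) (fun _ _ => zero_le) (Finset.mem_univ γ)
    rw [hR.wf.om_sum] at h1
    exact ne_top_of_le_ne_top ENNReal.one_ne_top h1
  have hZ : ∑ γ, R.F.om γ * R.F.mu γ (R.Pth γ) ≠ 0 := by
    intro h0
    have h1 := hR.pth_mass
    unfold KbPb.mass at h1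
    rw [h0, mul_zero] at h1
    exact absurd h1 (by norm_num)
  have key := k4c_trunc_meas (R.T.Q R.G).wd R.F.om R.F.mu R.Pth (R.Msk p) (R.T.Q R.G).S (R.vbc p) (R.kW1 p) hom (k4c_Msk_sub R p) hY.S_meas
    (fun e e' hne hw => k2s_S_disj (R.T.Q R.G) hY hne hw)
    (fun γ x hx => by
      have h1 := hR.pth_sub R.G le_rfl γ hx
      simp only [KbSys.sel, Set.mem_iUnion, exists_prop] at h1
      exact h1)
    (k4c_vbc_meas R p hR) hZ hN.Mt_one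
  have hlog : 0 < Real.log R.Mt := Real.log_pos hN.Mt_one
  have hinfo : k4Info (fun γ => (R.F.om γ * R.F.mu γ (R.Pth γ) / ∑ γ', R.F.om γ' * R.F.mu γ' (R.Pth γ')).toReal)
      (fun γ e b => if (R.T.Q R.G).wd e = γ then (R.F.mu γ (R.Pth γ ∩ (R.T.Q R.G).S e ∩ R.vbc p γ ⁻¹' {b}) / R.F.mu γ (R.Pth γ)).toReal else 0) ≤ R.ι :=
    hR.info
  refine le_trans ?_ (key.trans (mul_le_mul' (ENNReal.ofReal_le_ofReal (div_le_div_of_nonneg_right (by linarith) hlog.le)) le_rfl))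
  unfold KbPb.mass
  refine Finset.sum_le_sum fun γ _ => mul_le_mul' le_rfl (measure_mono ?_)
  rintro x ⟨hγ, hxM, hxE⟩
  refine ⟨hγ, hxM, ?_⟩
  have h1 : ∃ e, (R.T.Q R.G).wd e = γ ∧ x ∈ (R.T.Q R.G).S e ∧ R.Bad p e (R.vb p R.I0 γ x) := by
    by_contra hn
    push Not at hn
    exact hxE ⟨hxM, hn⟩
  obtain ⟨e, he, hxS, hbad⟩ := h1
  refine ⟨e, he, hxS, ?_⟩
  subst he
  unfold K4cRaw.Bad at hbad
  have hxP := k4c_Msk_sub R p _ hxM
  -- the palette of the cube dominates the conditional mass of the code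
  have hpal : R.F.mu ((R.T.Q R.G).wd e) (R.Msk p ((R.T.Q R.G).wd e) ∩ R.vbc p ((R.T.Q R.G).wd e) ⁻¹' {R.vbc p ((R.T.Q R.G).wd e) x})
        / R.F.mu ((R.T.Q R.G).wd e) (R.Msk p ((R.T.Q R.G).wd e))
      ≤ R.pal p ((R.T.Q R.G).wd e) (kpCube (R.wg R.I0) (R.vb p R.I0 ((R.T.Q R.G).wd e) x)) := by
    unfold K4cRaw.pal
    rw [Measure.smul_apply, smul_eq_mul, div_eq_mul_inv, mul_comm]
    refine mul_le_mul' le_rfl ?_
    refine le_trans ?_ (Measure.le_map_apply (k4c_pv_meas R p hR _).aemeasurable _)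
    rw [k4c_cube_vb, Measure.restrict_apply' (k4c_Msk_meas R p hR _)]
    refine measure_mono ?_
    rintro y ⟨hyM, hy⟩
    exact ⟨k4c_vbc_inj R p hR hN _ hxP (k4c_Msk_sub R p _ hyM) hy, hyM⟩
  refine lt_of_le_of_lt (mul_le_mul' (mul_le_mul' le_rfl hpal) le_rfl) (lt_of_lt_of_le hbad (measure_mono ?_))
  rintro y ⟨hy1, hy2⟩
  refine ⟨hy1, ?_⟩
  funext j
  show kpClamp R.nb (R.vb p R.I0 ((R.T.Q R.G).wd e) y j) = kpClamp R.nb (R.vb p R.I0 ((R.T.Q R.G).wd e) x j)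
  rw [show R.vb p R.I0 ((R.T.Q R.G).wd e) y = R.vb p R.I0 ((R.T.Q R.G).wd e) x from hy2]

/-! ## PREP-4 : the prepared path is substantial; admissible parameters (~200 l., from PREP-1,2,3) -/

theorem k4c_half_aux {M A : ℝ≥0∞} {c : ℝ} (hM : M ≠ ⊤) (hc : c ≤ 1 / 2) (h : M ≤ ENNReal.ofReal c * M + A) : M ≤ 2 * A := by
  rcases eq_or_ne A ⊤ with hA | hA
  · rw [hA]
    simp
  have h1 := ENNReal.toReal_mono (ENNReal.add_ne_top.2 ⟨ENNReal.mul_ne_top ENNReal.ofReal_ne_top hM, hA⟩) h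
  rw [ENNReal.toReal_add (ENNReal.mul_ne_top ENNReal.ofReal_ne_top hM) hA, ENNReal.toReal_mul, ENNReal.toReal_ofReal'] at h1
  have h2 : max c 0 ≤ 1 / 2 := max_le hc (by norm_num)
  have h3 : 0 ≤ M.toReal := ENNReal.toReal_nonneg
  have h4 : max c 0 * M.toReal ≤ 1 / 2 * M.toReal := mul_le_mul_of_nonneg_right h2 h3
  have h5 : M.toReal ≤ 2 * A.toReal := by linarith
  calc M = ENNReal.ofReal M.toReal := (ENNReal.ofReal_toReal hM).symm
    _ ≤ ENNReal.ofReal (2 * A.toReal) := ENNReal.ofReal_le_ofReal h5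
    _ = 2 * A := by
        rw [ENNReal.ofReal_mul (by norm_num), ENNReal.ofReal_toReal hA]
        norm_num

theorem k4c_mass_ne_top {P : KbPb v} (hP : P.WF) (A : P.W → Set (P.Lam × ℝ)) : P.mass A ≠ ⊤ :=
  ne_top_of_le_ne_top ENNReal.one_ne_top ((k2a_mass_mono fun γ => Set.subset_univ (A γ)).trans (k2a_tot_le hP))

/-- at least half of the final path survives -/
theorem k4c_mass_half (hR : R.Ok p) (hN : R.Num τ) : R.F.mass R.Pth ≤ 2 * R.F.mass (fun γ => {x | γ ∈ R.kW p ∧ x ∈ R.Ev2 p γ}) := by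
  have hM : R.F.mass R.Pth ≠ ⊤ := k4c_mass_ne_top hR.wf _
  refine k4c_half_aux (c := 1 / 4) hM (by norm_num) ?_
  have hcov : ∀ γ, R.Pth γ ⊆ ((((R.Pth γ \ R.Msk p γ) ∪ {x | γ ∉ R.kW1 p ∧ x ∈ R.Msk p γ}) ∪ {x | γ ∈ R.kW1 p ∧ x ∈ R.Msk p γ ∧ x ∉ R.Ev2 p γ}) ∪
      {x | γ ∈ R.kW1 p ∧ γ ∉ R.kW p ∧ x ∈ R.Ev2 p γ}) ∪ {x | γ ∈ R.kW p ∧ x ∈ R.Ev2 p γ} := by
    intro γ x hx
    simp only [Set.mem_union, Set.mem_sdiff, Set.mem_ofPred_eq]
    by_cases h1 : x ∈ R.Msk p γ <;> by_cases h2 : γ ∈ R.kW1 p <;> by_cases h3 : x ∈ R.Ev2 p γ <;> by_cases h4 : γ ∈ R.kW p <;> simp [hx, h1, h2, h3, h4]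
  have hlog : 0 < Real.log R.Mt := Real.log_pos hN.Mt_one
  have a3 : (R.ι + Real.log 2 + 1) / Real.log R.Mt ≤ 1 / 16 := by
    rw [div_le_iff₀ hlog]
    linarith [hN.ι_le]
  have hσ := hN.σ_pos
  have a1 : 0 ≤ (2 * (R.I0 : ℝ) + R.G + 4) * R.σ := by positivity
  have l1 := k4c_loss_mask R p hR hN
  have l2 := k4c_loss_par R p hR hN
  have l3 := k4c_loss_trunc R p hR hN
  have l4 := (k4c_loss_par2 R p hR hN).trans l3
  have l3' := l3.trans (mul_le_mul' (ENNReal.ofReal_le_ofReal a3) le_rfl)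
  have l4' := l4.trans (mul_le_mul' (ENNReal.ofReal_le_ofReal a3) le_rfl)
  have l12 : R.F.mass (fun γ => R.Pth γ \ R.Msk p γ) + R.F.mass (fun γ => {x | γ ∉ R.kW1 p ∧ x ∈ R.Msk p γ})
      ≤ ENNReal.ofReal (1 / 8) * R.F.mass R.Pth := by
    refine (add_le_add l1 l2).trans ?_
    rw [← add_mul, ← ENNReal.ofReal_add a1 hσ.le]
    refine mul_le_mul' (ENNReal.ofReal_le_ofReal ?_) le_rfl
    linarith [hN.σ_le]
  calc R.F.mass R.Pth ≤ _ := k2a_mass_mono hcov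
    _ ≤ _ := k2a_mass_union _ _
    _ ≤ _ := add_le_add (k2a_mass_union _ _) le_rfl
    _ ≤ _ := add_le_add (add_le_add (k2a_mass_union _ _) le_rfl) le_rfl
    _ ≤ _ := add_le_add (add_le_add (add_le_add (k2a_mass_union _ _) le_rfl) le_rfl) le_rfl
    _ ≤ ENNReal.ofReal (1 / 8) * R.F.mass R.Pth + ENNReal.ofReal (1 / 16) * R.F.mass R.Pth + ENNReal.ofReal (1 / 16) * R.F.mass R.Pth
        + R.F.mass (fun γ => {x | γ ∈ R.kW p ∧ x ∈ R.Ev2 p γ}) := add_le_add (add_le_add (add_le_add l12 l3') l4') le_rfl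
    _ = _ := by
        rw [← add_mul, ← add_mul, ← ENNReal.ofReal_add (by norm_num) (by norm_num), ← ENNReal.ofReal_add (by norm_num) (by norm_num)]
        norm_num

theorem k4c_aL_pos (hN : R.Num τ) : 0 < R.aL := by
  unfold K4cRaw.aL
  exact Real.rpow_pos_of_pos (by linarith [hN.N0_two]) _

theorem k4c_kept_ne_zero (hR : R.Ok p) (hN : R.Num τ) : R.F.mass (fun γ => {x | γ ∈ R.kW p ∧ x ∈ R.Ev2 p γ}) ≠ 0 := by
  intro h0
  have h1 := k4c_mass_half R p hR hN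
  rw [h0, mul_zero] at h1
  have h2 := hR.pth_mass
  rw [le_zero_iff.1 h1, mul_zero] at h2
  exact absurd h2 (by norm_num)

theorem k4c_par_ok (hR : R.Ok p) (hN : R.Num τ) : (R.par p).Ok R.Kc R.aL := by
  have haL := k4c_aL_pos R hN
  have hB : ∀ γ, 0 < R.F.B γ := hR.wf.B_pos
  refine
  { inv := hR.inv
    O_le := hR.O_le
    Oi_le := hR.Oi_le
    det_le := hR.det_le
    det_ge := hR.det_ge
    b_pos := fun γ => (k4c_B_ok R.F R.aL haL γ (hB γ)).1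
    b_le := fun γ => (k4c_B_ok R.F R.aL haL γ (hB γ)).2.1
    b_ge := fun γ => (k4c_B_ok R.F R.aL haL γ (hB γ)).2.2.1
    b_dy := fun γ => (k4c_B_ok R.F R.aL haL γ (hB γ)).2.2.2.1
    v1 := fun hv γ => (k4c_B_ok R.F R.aL haL γ (hB γ)).2.2.2.2 (hR.wf.v1 hv γ).1
    Ev_meas := fun γ => k4c_Ev2_meas R p hR γ
    Ev_sub := fun γ => (k4c_Ev2_sub R p γ).trans ((k4c_Msk_sub R p γ).trans (k4c_Pth_sub R p hR γ))
    Zw_pos := ?_ }
  intro h0
  apply k4c_kept_ne_zero R p hR hN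
  have h1 : ∀ γ, (R.kW p).indicator R.F.om γ = 0 := by
    intro γ
    have : ∑ γ, (R.kW p).indicator R.F.om γ = 0 := h0
    exact (Finset.sum_eq_zero_iff.1 this) γ (Finset.mem_univ γ)
  unfold KbPb.mass
  refine Finset.sum_eq_zero fun γ _ => ?_
  by_cases hγ : γ ∈ R.kW p
  · have := h1 γ
    rw [Set.indicator_of_mem hγ] at this
    rw [this, zero_mul]
  · have : {x | γ ∈ R.kW p ∧ x ∈ R.Ev2 p γ} = ∅ := by
      ext x
      simp [hγ]
    change R.F.om γ * R.F.mu γ {x | γ ∈ R.kW p ∧ x ∈ R.Ev2 p γ} = 0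
    rw [this, measure_empty, mul_zero]

theorem k4c_sam_tot (hR : R.Ok p) (hN : R.Num τ) :
    (R.sam p).P.tot = R.F.mass (fun γ => {x | γ ∈ R.kW p ∧ x ∈ R.Ev2 p γ}) / (R.par p).Zw :=
  k4c_chg_tot (k4c_par_ok R p hR hN)

theorem k4c_kept_ge (hR : R.Ok p) (hN : R.Num τ) : 1 ≤ ENNReal.ofReal (2 * R.K0) * R.F.mass (fun γ => {x | γ ∈ R.kW p ∧ x ∈ R.Ev2 p γ}) := by
  have h1 := k4c_mass_half R p hR hN
  have h2 := hR.pth_mass
  calc (1 : ℝ≥0∞) ≤ _ := h2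
    _ ≤ ENNReal.ofReal R.K0 * (2 * R.F.mass (fun γ => {x | γ ∈ R.kW p ∧ x ∈ R.Ev2 p γ})) := mul_le_mul' le_rfl h1
    _ = _ := by
        rw [ENNReal.ofReal_mul (by norm_num), ← mul_assoc, mul_comm (ENNReal.ofReal R.K0)]
        norm_num

theorem k4c_tot_ge (hR : R.Ok p) (hN : R.Num τ) : 1 ≤ ENNReal.ofReal (2 * R.K0) * (R.sam p).P.tot := by
  rw [k4c_sam_tot R p hR hN]
  refine (k4c_kept_ge R p hR hN).trans (mul_le_mul' le_rfl ?_)
  have hZ : (R.par p).Zw ≤ 1 := k4c_Zw_le hR.wf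
  exact ENNReal.le_div_iff_mul_le (Or.inl (k4c_par_ok R p hR hN).Zw_pos) (Or.inl (ne_top_of_le_ne_top ENNReal.one_ne_top hZ)) |>.2
    ((mul_le_mul' le_rfl hZ).trans (by rw [mul_one]))

/-- the mass of the prepared problem in the units of `F` (for the guard) -/
theorem k4c_tot_F (hR : R.Ok p) (hN : R.Num τ) : 1 ≤ ENNReal.ofReal (2 * R.K0) * ((R.par p).Zw * (R.sam p).P.tot) := by
  rw [k4c_sam_tot R p hR hN]
  have hZ : (R.par p).Zw ≤ 1 := k4c_Zw_le hR.wf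
  rw [ENNReal.mul_div_cancel (k4c_par_ok R p hR hN).Zw_pos (ne_top_of_le_ne_top ENNReal.one_ne_top hZ)]
  exact k4c_kept_ge R p hR hN

/-! ## PREP-5 : pure caps (~350 l.; `k4c_ceil_mask`, `k4c_ceil_mono`, `k4c_ceil_offset`, `k4c_ceil_test`) -/

/-- a width of the grid just below `w` -/
theorem k4c_grid (hN : R.Num τ) (w : ℝ) (hw : R.N ^ (-1 / τ) ≤ w) (hw1 : w ≤ 1) : ∃ i ≤ R.I0, R.wg i ≤ w ∧ w ≤ R.wg i * R.N ^ R.t2 := by
  have hN1 : 1 < R.N := by linarith [hN.N_two]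
  have hN0 : 0 < R.N := by linarith
  have hw0 : 0 < w := lt_of_lt_of_le (Real.rpow_pos_of_pos hN0 _) hw
  have ht2 := hN.t2_pos
  obtain ⟨r, hr⟩ : ∃ r, r = - Real.logb R.N w := ⟨_, rfl⟩
  have hwr : w = R.N ^ (-r) := by rw [hr, neg_neg, Real.rpow_logb hN0 hN1.ne' hw0]
  have hr0 : 0 ≤ r := by
    rw [hr]
    have := Real.logb_nonpos hN1 hw0.le hw1
    linarith
  have hr1 : r ≤ 1 / τ := by
    rw [hwr] at hw
    have h1 := (Real.rpow_le_rpow_left_iff hN1).1 hw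
    have e : -1 / τ = -(1 / τ) := by ring
    linarith
  have c1 := Nat.le_ceil (r / R.t2)
  have c2 := Nat.ceil_lt_add_one (div_nonneg hr0 ht2.le)
  rw [div_le_iff₀ ht2] at c1
  have c3 : ((⌈r / R.t2⌉₊ : ℝ) - 1) * R.t2 < r := by
    have : (⌈r / R.t2⌉₊ : ℝ) - 1 < r / R.t2 := by linarith
    rwa [lt_div_iff₀ ht2] at this
  refine ⟨⌈r / R.t2⌉₊, ?_, ?_, ?_⟩
  · rw [Nat.ceil_le, div_le_iff₀ ht2]
    linarith [hN.I0_ge]
  · unfold K4cRaw.wg
    rw [hwr]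
    exact Real.rpow_le_rpow_of_exponent_le hN1.le (by linarith)
  · unfold K4cRaw.wg
    rw [hwr, ← Real.rpow_add hN0]
    exact Real.rpow_le_rpow_of_exponent_le hN1.le (by linarith)

/-- the masked law has the pure ceiling at every width of the grid -/
theorem k4c_ceil_w (hR : R.Ok p) (i : ℕ) (hi : i ≤ R.I0) (γ : R.F.W) :
    K4cCeil ((R.F.mu γ).restrict (R.Msk p γ)) volume (R.F.bs γ) (R.F.hid (R.wg i) γ) (ENNReal.ofReal (R.hiW p i)) := by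
  have hfr := k2a_fr hR.wf γ
  have := hfr.fin
  have h1 := k4c_ceil_mask (R.F.mu γ) volume hfr.bm (ℓ := R.F.hid (R.wg i) γ) (k2a_hid_meas hR.wf _ γ) (fun d => k2a_part_ac hfr _ d)
    (ENNReal.ofReal (R.hiW p i))
  refine k4c_ceil_mono h1 (Measure.restrict_mono ?_ le_rfl) le_rfl
  intro x hx
  by_contra hcon
  have h2 : ENNReal.ofReal (R.hiW p i) < R.F.dn (R.F.hid (R.wg i)) γ x := not_le.1 hcon
  exact hx.2 (Or.inl ⟨i, hi, h2⟩)

/-- the volume of the preimage under `(t, y) ↦ (t, M y)` -/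
theorem k4c_vol_lin {m : ℕ} (M Mi : Matrix (Fin m) (Fin m) ℝ) (h : Mi * M = 1) (U : Set (ℝ × (Fin m → ℝ))) (hU : MeasurableSet U) :
    volume ((fun o : ℝ × (Fin m → ℝ) => (o.1, M.mulVec o.2)) ⁻¹' U) = ENNReal.ofReal |Mi.det| * volume U := by
  have hdet : M.det ≠ 0 := by
    intro h0
    have := congrArg Matrix.det h
    rw [Matrix.det_mul, h0, mul_zero, Matrix.det_one] at this
    exact zero_ne_one this
  have hMi : Mi.det = (M.det)⁻¹ := by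
    have := congrArg Matrix.det h
    rw [Matrix.det_mul, Matrix.det_one] at this
    exact eq_inv_of_mul_eq_one_left this
  have hmap : Measure.map (Matrix.toLin' M) (volume : Measure (Fin m → ℝ)) = ENNReal.ofReal |(M.det)⁻¹| • volume :=
    Real.map_matrix_volume_pi_eq_smul_volume_pi hdet
  have hm : Measurable (Matrix.toLin' M) := (Matrix.toLin' M).continuous_of_finiteDimensional.measurable
  have e1 : (fun o : ℝ × (Fin m → ℝ) => (o.1, M.mulVec o.2)) = Prod.map id (Matrix.toLin' M) := by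
    funext o
    simp [Prod.map, Matrix.toLin'_apply]
  have e2 : Measure.map (Prod.map id (Matrix.toLin' M)) (volume : Measure (ℝ × (Fin m → ℝ))) = ENNReal.ofReal |(M.det)⁻¹| • volume := by
    rw [Measure.volume_eq_prod, ← Measure.map_prod_map _ _ measurable_id hm, hmap, Measure.map_id, Measure.prod_smul_right]
  rw [e1, ← Measure.map_apply (measurable_id.prodMap hm) hU, e2, Measure.smul_apply, smul_eq_mul, hMi]

/-- the volume of the preimage of a base set under the change of frame -/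
theorem k4c_bsN_vol (hR : R.Ok p) (hN : R.Num τ) (γ : R.F.W) (Bz : Set (ℝ × KbB v)) (hBz : MeasurableSet Bz) :
    MeasurableSet ((R.par p).bsN γ ⁻¹' Bz) ∧ volume ((R.par p).bsN γ ⁻¹' Bz) ≤ ENNReal.ofReal R.Kc * volume Bz := by
  refine ⟨k4c_mulVec_meas (R.Oi γ) hBz, ?_⟩
  have h1 := k4c_vol_lin (R.Oi γ) (R.O γ) (hR.inv γ) Bz hBz
  have e : (R.par p).bsN γ = fun o : ℝ × KbB v => (o.1, (R.Oi γ).mulVec o.2) := rfl
  rw [e, h1]
  exact mul_le_mul' (ENNReal.ofReal_le_ofReal (hR.det_le γ)) le_rfl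

/-- the numerical part of the two caps -/
theorem k4c_cap_num (hp : p.Ok) (hN : R.Num τ) (i : ℕ) (w : ℝ) (h1 : R.wg i ≤ w) (n : ℕ) (hn : (n : ℝ) ≤ 3 * (2 * R.K0 * R.N ^ R.t2 + 3)) :
    (n : ℝ≥0∞) * ENNReal.ofReal (R.hiW p i) * ENNReal.ofReal R.Kc ≤ ENNReal.ofReal (R.N ^ τ * w ^ p.d) := by
  have hN0 : 0 < R.N := by linarith [hN.N_two]
  have hwg : 0 < R.wg i := Real.rpow_pos_of_pos hN0 _
  have hK1 := hN.K1_one
  have hKc := hN.Kc_one
  have hd : R.wg i ^ p.d ≤ w ^ p.d := Real.rpow_le_rpow hwg.le h1 hp.d_nonneg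
  have hd0 : 0 < R.wg i ^ p.d := Real.rpow_pos_of_pos hwg _
  have e : (n : ℝ≥0∞) = ENNReal.ofReal n := (ENNReal.ofReal_natCast n).symm
  rw [e, ← ENNReal.ofReal_mul (Nat.cast_nonneg n), ← ENNReal.ofReal_mul (mul_nonneg (Nat.cast_nonneg n) (by unfold K4cRaw.hiW; positivity))]
  refine ENNReal.ofReal_le_ofReal ?_
  unfold K4cRaw.hiW
  calc (n : ℝ) * (R.K1 * R.wg i ^ p.d) * R.Kc = ((n : ℝ) * R.K1 * R.Kc) * R.wg i ^ p.d := by ring
    _ ≤ (3 * (2 * R.K0 * R.N ^ R.t2 + 3) * R.K1 * R.Kc) * R.wg i ^ p.d := by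
        refine mul_le_mul_of_nonneg_right ?_ hd0.le
        exact mul_le_mul_of_nonneg_right (mul_le_mul_of_nonneg_right hn (by linarith)) (by linarith)
    _ ≤ R.N ^ τ * R.wg i ^ p.d := mul_le_mul_of_nonneg_right hN.cap_le hd0.le
    _ ≤ R.N ^ τ * w ^ p.d := mul_le_mul_of_nonneg_left hd (Real.rpow_pos_of_pos hN0 _).le

/-- field `cap_w` -/
theorem k4c_cap_w (hp : p.Ok) (hR : R.Ok p) (hN : R.Num τ) (γ : (R.sam p).P.W) (w : ℝ) (hw : R.N ^ (-1 / τ) ≤ w) (hw1 : w ≤ 1) (x₀ : ℝ) (Bz : Set (ℝ × KbB v))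
    (hBz : MeasurableSet Bz) :
    (R.sam p).P.mu γ {x | (R.sam p).P.bs γ x ∈ Bz ∧ (R.sam p).P.hw γ x ∈ Set.Icc x₀ (x₀ + w)} ≤ ENNReal.ofReal (R.N ^ τ * w ^ p.d) * volume Bz := by
  have hπ := k4c_par_ok R p hR hN
  obtain ⟨i, hi, h1, h2⟩ := k4c_grid R hN w hw hw1
  obtain ⟨γ, hγ⟩ := γ
  have hN0 : 0 < R.N := by linarith [hN.N_two]
  have hwg : 0 < R.wg i := Real.rpow_pos_of_pos hN0 _
  have hB : 0 < R.F.B γ := hR.wf.B_pos γ
  have hb : 0 < (R.par p).b γ := hπ.b_pos γ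
  have hbB : R.F.B γ ≤ 2 * (R.par p).b γ := hπ.b_ge γ
  obtain ⟨δ, hδe⟩ : ∃ δ, δ = kbDy (R.wg i / R.F.B γ) := ⟨_, rfl⟩
  have hδ : 0 < δ := hδe ▸ k4c_dy_pos _
  have hδ1 : R.wg i / R.F.B γ ≤ δ := hδe ▸ (k4c_dy_bounds (div_pos hwg hB)).1
  obtain ⟨hUm, hUv⟩ := k4c_bsN_vol R p hR hN γ Bz hBz
  have hceil : K4cCeil ((R.F.mu γ).restrict (R.Msk p γ)) volume (R.F.bs γ) (fun x => ⌊R.F.hw γ x / δ⌋) (ENNReal.ofReal (R.hiW p i)) :=
    hδe ▸ k4c_ceil_w R p hR i hi γ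
  have hbδ : R.wg i / 2 ≤ (R.par p).b γ * δ := by
    calc R.wg i / 2 = R.F.B γ / 2 * (R.wg i / R.F.B γ) := by field_simp
      _ ≤ (R.par p).b γ * δ := mul_le_mul (by linarith) hδ1 (div_pos hwg hB).le hb.le
  have hn : 2 * (w / (2 * (R.par p).b γ)) / δ + 2 ≤ ((⌈2 * R.N ^ R.t2⌉₊ + 2 : ℕ) : ℝ) := by
    have e : 2 * (w / (2 * (R.par p).b γ)) / δ = w / ((R.par p).b γ * δ) := by field_simp
    have h3 : w / ((R.par p).b γ * δ) ≤ 2 * R.N ^ R.t2 := by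
      rw [div_le_iff₀ (mul_pos hb hδ)]
      have : 0 < R.N ^ R.t2 := Real.rpow_pos_of_pos hN0 _
      nlinarith
    have h4 := Nat.le_ceil (2 * R.N ^ R.t2)
    rw [e]
    push_cast
    linarith
  have key := k4c_ceil_offset hδ hceil (f := fun _ => (x₀ + w / 2) / (R.par p).b γ) measurable_const hn hUm
  have hmu : (R.sam p).P.mu ⟨γ, hγ⟩ = (R.F.mu γ).restrict (R.Ev2 p γ) := k4c_chg_mu hπ ⟨γ, hγ⟩
  rw [hmu]
  calc (R.F.mu γ).restrict (R.Ev2 p γ) {x | (R.sam p).P.bs ⟨γ, hγ⟩ x ∈ Bz ∧ (R.sam p).P.hw ⟨γ, hγ⟩ x ∈ Set.Icc x₀ (x₀ + w)}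
      ≤ (R.F.mu γ).restrict (R.Msk p γ) {x | (R.sam p).P.bs ⟨γ, hγ⟩ x ∈ Bz ∧ (R.sam p).P.hw ⟨γ, hγ⟩ x ∈ Set.Icc x₀ (x₀ + w)} :=
        Measure.restrict_mono (k4c_Ev2_sub R p γ) le_rfl _
    _ ≤ (R.F.mu γ).restrict (R.Msk p γ) {ω | R.F.bs γ ω ∈ (R.par p).bsN γ ⁻¹' Bz ∧ |R.F.hw γ ω - (x₀ + w / 2) / (R.par p).b γ| ≤ w / (2 * (R.par p).b γ)} := by
        refine measure_mono ?_
        rintro x ⟨hx1, hx2⟩
        have e1 : (R.sam p).P.bs ⟨γ, hγ⟩ x = (R.par p).bsN γ (R.F.bs γ x) := k4c_chg_bs (π := R.par p) ⟨γ, hγ⟩ x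
        have e2 : (R.sam p).P.hw ⟨γ, hγ⟩ x = (R.par p).b γ * R.F.hw γ x := k4c_chg_hw (π := R.par p) ⟨γ, hγ⟩ x
        rw [e1] at hx1
        rw [e2] at hx2
        refine ⟨hx1, ?_⟩
        have e3 : R.F.hw γ x - (x₀ + w / 2) / (R.par p).b γ = ((R.par p).b γ * R.F.hw γ x - (x₀ + w / 2)) / (R.par p).b γ := by field_simp
        have e4 : w / (2 * (R.par p).b γ) = (w / 2) / (R.par p).b γ := by field_simp
        rw [e3, e4, abs_div, abs_of_pos hb]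
        refine div_le_div_of_nonneg_right ?_ hb.le
        rw [abs_le]
        constructor <;> linarith [hx2.1, hx2.2]
    _ ≤ ((⌈2 * R.N ^ R.t2⌉₊ + 2 : ℕ) : ℝ≥0∞) * ENNReal.ofReal (R.hiW p i) * volume ((R.par p).bsN γ ⁻¹' Bz) := key
    _ ≤ ((⌈2 * R.N ^ R.t2⌉₊ + 2 : ℕ) : ℝ≥0∞) * ENNReal.ofReal (R.hiW p i) * (ENNReal.ofReal R.Kc * volume Bz) := mul_le_mul' le_rfl hUv
    _ = ((⌈2 * R.N ^ R.t2⌉₊ + 2 : ℕ) : ℝ≥0∞) * ENNReal.ofReal (R.hiW p i) * ENNReal.ofReal R.Kc * volume Bz := by ring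
    _ ≤ ENNReal.ofReal (R.N ^ τ * w ^ p.d) * volume Bz := by
        refine mul_le_mul' (k4c_cap_num R p hp hN i w h1 _ ?_) le_rfl
        have h5 := Nat.ceil_lt_add_one (a := 2 * R.N ^ R.t2) (by have := Real.rpow_pos_of_pos hN0 R.t2; positivity)
        have h6 : 0 < R.N ^ R.t2 := Real.rpow_pos_of_pos hN0 _
        have h7 := hN.K0_two
        push_cast
        nlinarith

/-- a quadratic test as a quadratic in `w` with measurable coefficients -/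
theorem k4c_quad_coef {T₀ : KbTest v} (hq : KbIsQuad T₀) : ∃ (A : ℝ) (B C : ℝ × KbB v → ℝ), Measurable B ∧ Measurable C ∧
    (∀ t y w, T₀ t y w = A * w ^ 2 + B (t, y) * w + C (t, y)) ∧ ∀ t y w, kbDw T₀ t y w = 2 * A * w + B (t, y) := by
  obtain ⟨Q, hQ⟩ := hq
  have hdot : ∀ u : KbB v, Measurable fun o : ℝ × KbB v => u ⬝ᵥ o.2 := by
    intro u
    unfold dotProduct
    exact Finset.measurable_sum _ fun i _ => measurable_const.mul ((measurable_pi_apply i).comp measurable_snd)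
  have hqq : Measurable fun o : ℝ × KbB v => o.2 ⬝ᵥ Q.cyy.mulVec o.2 := by
    unfold dotProduct Matrix.mulVec dotProduct
    exact Finset.measurable_sum _ fun i _ => ((measurable_pi_apply i).comp measurable_snd).mul
      (Finset.measurable_sum _ fun k _ => measurable_const.mul ((measurable_pi_apply k).comp measurable_snd))
  refine ⟨Q.cww, fun o => Q.cw + Q.ctw * o.1 + Q.cyw ⬝ᵥ o.2,
    fun o => Q.c0 + Q.ct * o.1 + Q.cy ⬝ᵥ o.2 + Q.ctt * o.1 ^ 2 + o.1 * (Q.cty ⬝ᵥ o.2) + o.2 ⬝ᵥ Q.cyy.mulVec o.2, ?_, ?_, ?_, ?_⟩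
  · exact (measurable_const.add (measurable_const.mul measurable_fst)).add (hdot _)
  · exact (((((measurable_const.add (measurable_const.mul measurable_fst)).add (hdot _)).add (measurable_const.mul (measurable_fst.pow_const 2))).add
      (measurable_fst.mul (hdot _)))).add hqq
  · intro t y w
    rw [hQ]
    unfold KbQuad.ev
    ring
  · intro t y w
    unfold kbDw
    rw [hQ, hQ]
    unfold KbQuad.ev
    ring

/-- field `cap_X` -/
theorem k4c_cap_X (hp : p.Ok) (hR : R.Ok p) (hN : R.Num τ) (γ : (R.sam p).P.W) (w : ℝ) (hw : R.N ^ (-1 / τ) ≤ w) (hw1 : w ≤ 1) (x₀ : ℝ) (Bz : Set (ℝ × KbB v))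
    (hBz : MeasurableSet Bz) :
    (R.sam p).P.mu γ {x | (R.sam p).P.bs γ x ∈ Bz ∧ (R.sam p).P.sig γ x ∈ Set.Icc x₀ (x₀ + w)} ≤ ENNReal.ofReal (R.N ^ τ * w ^ p.d) * volume Bz := by
  have hπ := k4c_par_ok R p hR hN
  obtain ⟨i, hi, h1, h2⟩ := k4c_grid R hN w hw hw1
  obtain ⟨γ, hγ⟩ := γ
  have hN0 : 0 < R.N := by linarith [hN.N_two]
  have hwg : 0 < R.wg i := Real.rpow_pos_of_pos hN0 _
  have hB : 0 < R.F.B γ := hR.wf.B_pos γ
  have hK0 : 0 < R.K0 := by linarith [hN.K0_two]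
  obtain ⟨δ, hδe⟩ : ∃ δ, δ = kbDy (R.wg i / R.F.B γ) := ⟨_, rfl⟩
  have hδ : 0 < δ := hδe ▸ k4c_dy_pos _
  have hδ1 : R.wg i / R.F.B γ ≤ δ := hδe ▸ (k4c_dy_bounds (div_pos hwg hB)).1
  obtain ⟨hUm, hUv⟩ := k4c_bsN_vol R p hR hN γ Bz hBz
  have hceil : K4cCeil ((R.F.mu γ).restrict (R.Msk p γ)) volume (R.F.bs γ) (fun x => ⌊R.F.hw γ x / δ⌋) (ENNReal.ofReal (R.hiW p i)) :=
    hδe ▸ k4c_ceil_w R p hR i hi γ
  obtain ⟨A, B, C, hBm, hCm, hT, hDw⟩ := k4c_quad_coef (hR.wf.Pst_adm γ).1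
  have hn : 4 * (w / 2) / (R.F.B γ / R.K0 * δ) + 2 ≤ ((⌈2 * R.K0 * R.N ^ R.t2⌉₊ + 2 : ℕ) : ℝ) := by
    have hBδ : R.wg i / R.K0 ≤ R.F.B γ / R.K0 * δ := by
      calc R.wg i / R.K0 = R.F.B γ / R.K0 * (R.wg i / R.F.B γ) := by field_simp
        _ ≤ R.F.B γ / R.K0 * δ := mul_le_mul_of_nonneg_left hδ1 (div_pos hB hK0).le
    have h3 : 4 * (w / 2) / (R.F.B γ / R.K0 * δ) ≤ 2 * R.K0 * R.N ^ R.t2 := by
      rw [div_le_iff₀ (mul_pos (div_pos hB hK0) hδ)]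
      have h4 : 0 < R.N ^ R.t2 := Real.rpow_pos_of_pos hN0 _
      calc 4 * (w / 2) = 2 * w := by ring
        _ ≤ 2 * (R.wg i * R.N ^ R.t2) := by linarith
        _ = 2 * R.K0 * R.N ^ R.t2 * (R.wg i / R.K0) := by field_simp
        _ ≤ 2 * R.K0 * R.N ^ R.t2 * (R.F.B γ / R.K0 * δ) := mul_le_mul_of_nonneg_left hBδ (by positivity)
    have h4 := Nat.le_ceil (2 * R.K0 * R.N ^ R.t2)
    push_cast
    linarith
  have key := k4c_ceil_test hδ hceil (A := fun _ => A) (B := B) (C := fun o => C o - (x₀ + w / 2)) measurable_const hBm (hCm.sub_const _)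
    (ε := w / 2) (b := R.F.B γ / R.K0) (div_pos hB hK0) hn hUm
  have hmu : (R.sam p).P.mu ⟨γ, hγ⟩ = (R.F.mu γ).restrict (R.Ev2 p γ) := k4c_chg_mu hπ ⟨γ, hγ⟩
  have hmu' : ∀ S : Set (R.F.Lam × ℝ), (R.sam p).P.mu ⟨γ, hγ⟩ S = R.F.mu γ (S ∩ R.Ev2 p γ) := fun S => by
    rw [hmu]
    exact Measure.restrict_apply' (k4c_Ev2_meas R p hR γ)
  rw [Measure.restrict_apply' (k4c_Msk_meas R p hR γ)] at key
  refine (hmu' _).le.trans ?_
  calc R.F.mu γ ({x | (R.sam p).P.bs ⟨γ, hγ⟩ x ∈ Bz ∧ (R.sam p).P.sig ⟨γ, hγ⟩ x ∈ Set.Icc x₀ (x₀ + w)} ∩ R.Ev2 p γ)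
      ≤ R.F.mu γ ({ω | R.F.bs γ ω ∈ (R.par p).bsN γ ⁻¹' Bz ∧ |A * R.F.hw γ ω ^ 2 + B (R.F.bs γ ω) * R.F.hw γ ω + (C (R.F.bs γ ω) - (x₀ + w / 2))| ≤ w / 2 ∧
          R.F.B γ / R.K0 ≤ |2 * A * R.F.hw γ ω + B (R.F.bs γ ω)|} ∩ R.Msk p γ) := by
        refine measure_mono ?_
        rintro x ⟨⟨hx1, hx2⟩, hx3⟩
        have hxM := k4c_Ev2_sub R p γ hx3
        have hxE : x ∈ R.F.Ev γ := k4c_Pth_sub R p hR γ (k4c_Msk_sub R p γ hxM)
        have e1 : (R.sam p).P.bs ⟨γ, hγ⟩ x = (R.par p).bsN γ (R.F.bs γ x) := k4c_chg_bs (π := R.par p) ⟨γ, hγ⟩ x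
        have e2 : (R.sam p).P.sig ⟨γ, hγ⟩ x = R.F.sig γ x := k4c_chg_sig hπ ⟨γ, hγ⟩ x
        have e3 : R.F.sig γ x = A * R.F.hw γ x ^ 2 + B (R.F.bs γ x) * R.F.hw γ x + C (R.F.bs γ x) := hT _ _ _
        have e4 : kbX (kbDw (R.F.Pst γ)) (R.F.co γ x.1) x.2 = 2 * A * R.F.hw γ x + B (R.F.bs γ x) := hDw _ _ _
        rw [e1] at hx1
        rw [e2, e3] at hx2
        refine ⟨⟨hx1, ?_, ?_⟩, hxM⟩
        · rw [abs_le]
          constructor <;> linarith [hx2.1, hx2.2]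
        · rw [← e4, div_le_iff₀ hK0, mul_comm]
          exact hR.ntv.dw_low γ x hxE
    _ ≤ 3 * ((⌈2 * R.K0 * R.N ^ R.t2⌉₊ + 2 : ℕ) : ℝ≥0∞) * ENNReal.ofReal (R.hiW p i) * volume ((R.par p).bsN γ ⁻¹' Bz) := key
    _ ≤ 3 * ((⌈2 * R.K0 * R.N ^ R.t2⌉₊ + 2 : ℕ) : ℝ≥0∞) * ENNReal.ofReal (R.hiW p i) * (ENNReal.ofReal R.Kc * volume Bz) := mul_le_mul' le_rfl hUv
    _ = ((3 * (⌈2 * R.K0 * R.N ^ R.t2⌉₊ + 2) : ℕ) : ℝ≥0∞) * ENNReal.ofReal (R.hiW p i) * ENNReal.ofReal R.Kc * volume Bz := by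
        push_cast
        ring
    _ ≤ ENNReal.ofReal (R.N ^ τ * w ^ p.d) * volume Bz := by
        refine mul_le_mul' (k4c_cap_num R p hp hN i w h1 _ ?_) le_rfl
        have h5 := Nat.ceil_lt_add_one (a := 2 * R.K0 * R.N ^ R.t2) (by have := Real.rpow_pos_of_pos hN0 R.t2; positivity)
        push_cast
        linarith

/-! ## PREP-6 : palettes (~350 l.; `k4c_ratio`, `k4c_bins_cube`) -/

/-- a trivial second label does not change the density -/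
theorem k4c_dn_unit {Ω X H : Type} [MeasurableSpace Ω] [MeasurableSpace X] (μ : Measure Ω) (vol : Measure X) (bs : Ω → X) (h : Ω → H) (x : Ω) :
    k4cDn μ vol bs (ksPair h (fun _ => ())) x = k4cDn μ vol bs h x := by
  unfold k4cDn k4cDen k4cPart
  have : ksPair h (fun _ => ()) ⁻¹' {ksPair h (fun _ => ()) x} = h ⁻¹' {h x} := by
    ext y
    simp [ksPair]
  rw [this]

/-- one cube of the grid `wg i` (`k4c_ratio` with `A := fun _ => ()`, `G :=` complement of the joint exceptional set) -/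
theorem k4c_cube_mass (hp : p.Ok) (hR : R.Ok p) (hN : R.Num τ) (i : ℕ) (hi : i ≤ R.I0) (γ : R.F.W) (b : Fin v.j → ℤ) :
    R.F.mu γ (R.Msk p γ ∩ {x | R.vb p i γ x = b}) ≤ ENNReal.ofReal (R.K1 * R.wg i ^ p.S) := by
  have hfr := k2a_fr hR.wf γ
  have := hfr.fin
  have hN0 : 0 < R.N := by linarith [hN.N_two]
  have hwg : 0 < R.wg i := Real.rpow_pos_of_pos hN0 _
  have hh : KsLab (R.F.hid R.aL γ) := k2a_hid_meas hR.wf _ γ
  have hβ : KsLab (R.vb p i γ) := k4c_vb_meas R p hR i γ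
  have hpair : KsLab (ksPair (R.F.hid R.aL γ) (R.vb p i γ)) := k2a_lab_pair hh hβ
  have hmask := k4c_ceil_mask (R.F.mu γ) volume hfr.bm hpair (fun d => k2a_part_ac hfr _ d) (ENNReal.ofReal (R.hiV p i))
  have key := k4c_ratio (R.F.mu γ) volume hfr.bm (h := R.F.hid R.aL γ) (A := fun _ => ()) (β := R.vb p i γ) hh
    (fun _ => by
      have : (fun _ : R.F.Lam × ℝ => ()) ⁻¹' {()} = Set.univ := by ext; simp
      rw [this]
      exact MeasurableSet.univ)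
    {x | k4cDn (R.F.mu γ) volume (R.F.bs γ) (ksPair (R.F.hid R.aL γ) (R.vb p i γ)) x ≤ ENNReal.ofReal (R.hiV p i)}
    (hi := ENNReal.ofReal (R.hiV p i)) (lo := ENNReal.ofReal R.lo)
    (fun d U hU => by
      have h1 := hmask d U hU
      rw [Measure.restrict_apply ((hpair d).inter (hfr.bm hU))] at h1
      refine le_trans (measure_mono ?_) h1
      rintro x ⟨⟨a1, a2⟩, a3⟩
      exact ⟨⟨a2, a3⟩, a1⟩) () b
  have hsub : R.Msk p γ ∩ {x | R.vb p i γ x = b} ⊆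
      {x | k4cDn (R.F.mu γ) volume (R.F.bs γ) (ksPair (R.F.hid R.aL γ) (R.vb p i γ)) x ≤ ENNReal.ofReal (R.hiV p i)} ∩
        {x | ENNReal.ofReal R.lo ≤ k4cDn (R.F.mu γ) volume (R.F.bs γ) (ksPair (R.F.hid R.aL γ) (fun _ => ())) x} ∩
        (fun _ : R.F.Lam × ℝ => ()) ⁻¹' {()} ∩ R.vb p i γ ⁻¹' {b} := by
    rintro x ⟨hx, hxb⟩
    refine ⟨⟨⟨?_, ?_⟩, rfl⟩, hxb⟩
    · by_contra hcon
      have h2 : ENNReal.ofReal (R.hiV p i) < R.F.dn (R.F.lpair (R.F.hid R.aL) (R.vb p i)) γ x := not_le.1 hcon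
      exact hx.2 (Or.inr (Or.inr (Or.inl ⟨i, hi, h2⟩)))
    · show ENNReal.ofReal R.lo ≤ k4cDn (R.F.mu γ) volume (R.F.bs γ) (ksPair (R.F.hid R.aL γ) (fun _ => ())) x
      rw [k4c_dn_unit]
      by_contra hcon
      have h2 : R.F.dn (R.F.hid R.aL) γ x < ENNReal.ofReal R.lo := not_le.1 hcon
      exact hx.2 (Or.inr (Or.inl h2))
  have h3 : ENNReal.ofReal R.lo * R.F.mu γ (R.Msk p γ ∩ {x | R.vb p i γ x = b}) ≤ ENNReal.ofReal R.lo * ENNReal.ofReal (R.K1 * R.wg i ^ p.S) := by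
    calc ENNReal.ofReal R.lo * R.F.mu γ (R.Msk p γ ∩ {x | R.vb p i γ x = b}) ≤ _ := mul_le_mul' le_rfl (measure_mono hsub)
      _ ≤ _ := key
      _ ≤ ENNReal.ofReal (R.hiV p i) * 1 := mul_le_mul' le_rfl ((measure_mono (Set.subset_univ _)).trans (k2a_mu_univ_le hR.wf γ))
      _ = ENNReal.ofReal R.lo * ENNReal.ofReal (R.K1 * R.wg i ^ p.S) := by
          rw [mul_one, ← ENNReal.ofReal_mul hN.lo_pos.le]
          unfold K4cRaw.hiV
          congr 1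
          ring
  exact (ENNReal.mul_le_mul_iff_right (ENNReal.ofReal_pos.2 hN.lo_pos).ne' ENNReal.ofReal_ne_top).1 h3

theorem k4c_Msk_pos (hR : R.Ok p) (hN : R.Num τ) (γ : R.F.W) (hγ : γ ∈ R.kW1 p) : R.F.mu γ (R.Msk p γ) ≠ 0 ∧ R.F.mu γ (R.Msk p γ) ≠ ⊤ := by
  constructor
  · intro h0
    have h1 : ENNReal.ofReal R.θ ≤ R.F.mu γ (R.Msk p γ) := hγ
    rw [h0] at h1
    exact absurd (le_antisymm h1 zero_le) (ENNReal.ofReal_pos.2 hN.θ_pos).ne'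
  · exact ne_top_of_le_ne_top ENNReal.one_ne_top ((measure_mono (Set.subset_univ _)).trans (k2a_mu_univ_le hR.wf γ))

theorem k4c_pal_apply (hR : R.Ok p) (γ : R.F.W) (S : Set (KbB v)) (hS : MeasurableSet S) :
    R.pal p γ S = (R.F.mu γ (R.Msk p γ))⁻¹ * R.F.mu γ (R.Msk p γ ∩ R.pv p γ ⁻¹' S) := by
  unfold K4cRaw.pal
  rw [Measure.smul_apply, Measure.map_apply (k4c_pv_meas R p hR γ) hS, Measure.restrict_apply (k4c_pv_meas R p hR γ hS), smul_eq_mul, Set.inter_comm]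

theorem k4c_pal_prob (hR : R.Ok p) (hN : R.Num τ) (γ : R.F.W) (hγ : γ ∈ R.kW1 p) : IsProbabilityMeasure (R.pal p γ) := by
  constructor
  obtain ⟨h0, h1⟩ := k4c_Msk_pos R p hR hN γ hγ
  rw [k4c_pal_apply R p hR γ _ MeasurableSet.univ, Set.preimage_univ, Set.inter_univ]
  exact ENNReal.inv_mul_cancel h0 h1

/-- field `pal_cap` -/
theorem k4c_pal_cap (hp : p.Ok) (hR : R.Ok p) (hN : R.Num τ) (γ : R.F.W) (hγ : γ ∈ R.kW1 p) (w : ℝ) (hw : R.N ^ (-1 / τ) ≤ w) (hw1 : w ≤ 1) (u₀ : KbB v) :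
    R.pal p γ (Metric.closedBall u₀ w) ≤ ENNReal.ofReal (R.N ^ τ * w ^ p.S) := by
  classical
  obtain ⟨i, hi, h1, h2⟩ := k4c_grid R hN w hw hw1
  have hN0 : 0 < R.N := by linarith [hN.N_two]
  have hwg : 0 < R.wg i := Real.rpow_pos_of_pos hN0 _
  have hw0 : 0 < w := lt_of_lt_of_le hwg h1
  have ht : 0 < R.N ^ R.t2 := Real.rpow_pos_of_pos hN0 _
  have hδ : 0 < kbDy (R.wg i) := k4c_dy_pos _
  have hδ1 : R.wg i ≤ kbDy (R.wg i) := (k4c_dy_bounds hwg).1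
  have hn : 2 * w / kbDy (R.wg i) + 2 ≤ ((⌈2 * R.N ^ R.t2⌉₊ + 2 : ℕ) : ℝ) := by
    have h3 : 2 * w / kbDy (R.wg i) ≤ 2 * R.N ^ R.t2 := by
      rw [div_le_iff₀ hδ]
      nlinarith
    have h4 := Nat.le_ceil (2 * R.N ^ R.t2)
    push_cast
    linarith
  obtain ⟨hmem, hcard⟩ := k4c_bins_cube hδ hn u₀
  obtain ⟨Fs, hFs⟩ : ∃ Fs : Finset (Fin v.j → ℤ), Fs = Fintype.piFinset fun k => Finset.Icc ⌊(u₀ k - w) / kbDy (R.wg i)⌋ ⌊(u₀ k + w) / kbDy (R.wg i)⌋ := ⟨_, rfl⟩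
  rw [← hFs] at hmem hcard
  have hsub : R.Msk p γ ∩ R.pv p γ ⁻¹' Metric.closedBall u₀ w ⊆ ⋃ b ∈ Fs, (R.Msk p γ ∩ {x | R.vb p i γ x = b}) := by
    rintro x ⟨hx, hxb⟩
    have h3 : ∀ k, |R.pv p γ x k - u₀ k| ≤ w := by
      intro k
      have h4 : dist (R.pv p γ x) u₀ ≤ w := hxb
      exact (dist_le_pi_dist (R.pv p γ x) u₀ k).trans h4
    exact Set.mem_iUnion₂.2 ⟨_, hmem _ h3, hx, rfl⟩
  have hmass : R.F.mu γ (R.Msk p γ ∩ R.pv p γ ⁻¹' Metric.closedBall u₀ w) ≤ (Fs.card : ℝ≥0∞) * ENNReal.ofReal (R.K1 * R.wg i ^ p.S) := by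
    calc R.F.mu γ (R.Msk p γ ∩ R.pv p γ ⁻¹' Metric.closedBall u₀ w) ≤ R.F.mu γ (⋃ b ∈ Fs, (R.Msk p γ ∩ {x | R.vb p i γ x = b})) := measure_mono hsub
      _ ≤ ∑ b ∈ Fs, R.F.mu γ (R.Msk p γ ∩ {x | R.vb p i γ x = b}) := measure_biUnion_finset_le _ _
      _ ≤ ∑ _b ∈ Fs, ENNReal.ofReal (R.K1 * R.wg i ^ p.S) := Finset.sum_le_sum fun b _ => k4c_cube_mass R p hp hR hN i hi γ b
      _ = (Fs.card : ℝ≥0∞) * ENNReal.ofReal (R.K1 * R.wg i ^ p.S) := by rw [Finset.sum_const, nsmul_eq_mul]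
  have hθ : (R.F.mu γ (R.Msk p γ))⁻¹ ≤ ENNReal.ofReal R.θ⁻¹ := by
    rw [ENNReal.ofReal_inv_of_pos hN.θ_pos]
    exact ENNReal.inv_le_inv.2 hγ
  rw [k4c_pal_apply R p hR γ _ Metric.isClosed_closedBall.measurableSet]
  have hK1 := hN.K1_one
  have hS0 : 0 < R.wg i ^ p.S := Real.rpow_pos_of_pos hwg _
  have hSw : R.wg i ^ p.S ≤ w ^ p.S := Real.rpow_le_rpow hwg.le h1 hp.S_pos.le
  have hcardR : (Fs.card : ℝ) ≤ (2 * R.N ^ R.t2 + 3) ^ 2 := by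
    have h5 := Nat.ceil_lt_add_one (a := 2 * R.N ^ R.t2) (by positivity)
    have h6 : ((⌈2 * R.N ^ R.t2⌉₊ + 2 : ℕ) : ℝ) ≤ 2 * R.N ^ R.t2 + 3 := by
      push_cast
      linarith
    have h7 : (1 : ℝ) ≤ 2 * R.N ^ R.t2 + 3 := by linarith
    have hj : v.j ≤ 2 := by cases v <;> simp [KbVer.j]
    calc (Fs.card : ℝ) ≤ (((⌈2 * R.N ^ R.t2⌉₊ + 2) ^ v.j : ℕ) : ℝ) := by exact_mod_cast hcard
      _ = ((⌈2 * R.N ^ R.t2⌉₊ + 2 : ℕ) : ℝ) ^ v.j := by push_cast; ring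
      _ ≤ (2 * R.N ^ R.t2 + 3) ^ v.j := pow_le_pow_left₀ (Nat.cast_nonneg _) h6 _
      _ ≤ (2 * R.N ^ R.t2 + 3) ^ 2 := pow_le_pow_right₀ h7 hj
  calc (R.F.mu γ (R.Msk p γ))⁻¹ * R.F.mu γ (R.Msk p γ ∩ R.pv p γ ⁻¹' Metric.closedBall u₀ w)
      ≤ ENNReal.ofReal R.θ⁻¹ * ((Fs.card : ℝ≥0∞) * ENNReal.ofReal (R.K1 * R.wg i ^ p.S)) := mul_le_mul' hθ hmass
    _ = ENNReal.ofReal (R.θ⁻¹ * ((Fs.card : ℝ) * (R.K1 * R.wg i ^ p.S))) := by
        rw [← ENNReal.ofReal_natCast Fs.card, ← ENNReal.ofReal_mul (Nat.cast_nonneg _), ← ENNReal.ofReal_mul (inv_pos.2 hN.θ_pos).le]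
    _ ≤ ENNReal.ofReal (R.N ^ τ * w ^ p.S) := by
        refine ENNReal.ofReal_le_ofReal ?_
        rw [inv_mul_le_iff₀ hN.θ_pos]
        calc (Fs.card : ℝ) * (R.K1 * R.wg i ^ p.S) ≤ (2 * R.N ^ R.t2 + 3) ^ 2 * (R.K1 * R.wg i ^ p.S) :=
              mul_le_mul_of_nonneg_right hcardR (by positivity)
          _ = ((2 * R.N ^ R.t2 + 3) ^ 2 * R.K1) * R.wg i ^ p.S := by ring
          _ ≤ (R.θ * R.N ^ τ) * R.wg i ^ p.S := mul_le_mul_of_nonneg_right hN.pal_le hS0.le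
          _ ≤ (R.θ * R.N ^ τ) * w ^ p.S := mul_le_mul_of_nonneg_left hSw (mul_pos hN.θ_pos (Real.rpow_pos_of_pos hN0 _)).le
          _ = R.θ * (R.N ^ τ * w ^ p.S) := by ring

/-! ## PREP-7 : reference weights and the joint ceiling (~350 l.; `k2a_bin_nest`, `k2a_bin_fibre`) -/

/-- the labels of one world at the last node carry disjoint parts of the masked path -/
theorem k4c_p7_sum (hR : R.Ok p) (γ : R.F.W) (s : Finset (R.T.Q R.G).C) (hs : ∀ e ∈ s, (R.T.Q R.G).wd e = γ) :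
    ∑ e ∈ s, R.F.mu γ (R.Msk p γ ∩ (R.T.Q R.G).S e) ≤ 1 := by
  have hY := hR.sys_wf R.G le_rfl
  have hd : Set.PairwiseDisjoint (s : Set (R.T.Q R.G).C) fun e => R.Msk p γ ∩ (R.T.Q R.G).S e := by
    intro e he e' he' hne
    exact (k2s_S_disj _ hY hne ((hs e he).trans (hs e' he').symm)).mono Set.inter_subset_right Set.inter_subset_right
  rw [← measure_biUnion_finset hd fun e _ => (k4c_Msk_meas R p hR γ).inter (hY.S_meas e)]
  exact (measure_mono (Set.subset_univ _)).trans (k2s_mu_univ _ hR.wf γ)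

theorem k4c_p7_ref_sum (hR : R.Ok p) (inst : Fintype {c : (R.T.Q R.G).C // R.T.keep (R.par p) R.G c}) (γ : R.kW p)
    (dec : DecidablePred fun e : {c : (R.T.Q R.G).C // R.T.keep (R.par p) R.G c} => (⟨(R.T.Q R.G).wd e.1, R.T.keep_wd (R.par p) R.G e.1 e.2⟩ : R.kW p) = γ) :
    ∑ e : {c : (R.T.Q R.G).C // R.T.keep (R.par p) R.G c},
      (@ite _ ((⟨(R.T.Q R.G).wd e.1, R.T.keep_wd (R.par p) R.G e.1 e.2⟩ : R.kW p) = γ) (dec e) (R.ref p e.1) 0) ≤ 1 := by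
  classical
  rw [← Finset.sum_filter]
  have h1 := k4c_p7_sum R p hR γ.1 ((Finset.univ.filter fun e : {c : (R.T.Q R.G).C // R.T.keep (R.par p) R.G c} =>
    (⟨(R.T.Q R.G).wd e.1, R.T.keep_wd (R.par p) R.G e.1 e.2⟩ : R.kW p) = γ).image Subtype.val) (by
      intro e he
      obtain ⟨e', he', rfl⟩ := Finset.mem_image.1 he
      exact congrArg Subtype.val (Finset.mem_filter.1 he').2)
  rw [Finset.sum_image (fun a _ b _ h => Subtype.ext h)] at h1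
  refine le_trans (Finset.sum_le_sum fun e he => ?_) h1
  have hw : (R.T.Q R.G).wd e.1 = γ.1 := congrArg Subtype.val (Finset.mem_filter.1 he).2
  unfold K4cRaw.ref
  rw [hw]

open Classical in
/-- field `ref_sum` -/
theorem k4c_ref_sum (hR : R.Ok p) (hN : R.Num τ) (γ : (R.sam p).P.W) :
    ∑ e, (if ((R.sam p).Q (R.sam p).G).wd e = γ then (R.sam p).ref e else 0) ≤ 1 :=
  k4c_p7_ref_sum R p hR _ γ _

/-- the prepared path inside the box of a label of the last node -/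
theorem k4c_p7_box (hR : R.Ok p) (e : (R.T.Q R.G).C) :
    R.Ev2 p ((R.T.Q R.G).wd e) ∩ (R.T.Q R.G).A e ×ˢ (R.T.Q R.G).I e ⊆ R.Ev2 p ((R.T.Q R.G).wd e) ∩ (R.T.Q R.G).S e := fun x hx =>
  ⟨hx.1, k4c_Q_S_sub (π := R.par p) R.G (hR.sys_wf R.G le_rfl)
    (fun γ => (k4c_Ev2_sub R p γ).trans ((k4c_Msk_sub R p γ).trans (hR.pth_sub R.G le_rfl γ))) e hx⟩

/-- field `ref_ge` -/
theorem k4c_ref_ge (hR : R.Ok p) (hN : R.Num τ) (e : ((R.sam p).Q (R.sam p).G).C) : ((R.sam p).Q (R.sam p).G).mC e ≤ (R.sam p).ref e := by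
  refine (k4c_Q_mC (k4c_par_ok R p hR hN) R.G e).le.trans ?_
  refine measure_mono ((k4c_p7_box R p hR e.1).trans ?_)
  exact Set.inter_subset_inter_left _ (k4c_Ev2_sub R p _)

/-- field `ref_le` (helper31): `ref e ≤ mu (A e ×ˢ I e) ≤ q ν_e` (as `k2s_mC_le`), `1 ≤ N^τ` -/
theorem k4c_ref_le (hR : R.Ok p) (hN : R.Num τ) (e : ((R.sam p).Q (R.sam p).G).C) :
    (R.sam p).ref e ≤ ENNReal.ofReal (R.N ^ τ * ((R.sam p).Q (R.sam p).G).q) * ((R.sam p).Q (R.sam p).G).nuC e := by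
  have hY := hR.sys_wf R.G le_rfl
  have h1 : R.ref p e.1 ≤ ENNReal.ofReal (R.T.Q R.G).q * (R.T.Q R.G).nuC e.1 :=
    (measure_mono Set.inter_subset_right).trans (k2s_mC_le _ hR.wf hY e.1)
  refine h1.trans (mul_le_mul_left (ENNReal.ofReal_le_ofReal ?_) _)
  have hq : 0 ≤ (R.T.Q R.G).q := (k2s_q_pos _).le
  have h2 : 1 ≤ R.N ^ τ := Real.one_le_rpow (by linarith [hN.N_two]) hN.tau_pos.le
  exact le_mul_of_one_le_left hq h2

/-- the joint ceiling at the finest width: by the definition of `Ev2` -/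
theorem k4c_joint_fine (hR : R.Ok p) (e : (R.T.Q R.G).C) (b : Fin v.j → ℤ) :
    R.F.mu ((R.T.Q R.G).wd e) (R.Ev2 p ((R.T.Q R.G).wd e) ∩ (R.T.Q R.G).S e ∩ {x | R.vb p R.I0 ((R.T.Q R.G).wd e) x = b})
      ≤ ENNReal.ofReal R.Mt * R.pal p ((R.T.Q R.G).wd e) (kpCube (R.wg R.I0) b) * R.ref p e := by
  by_cases hB : R.Bad p e b
  · have h0 : R.Ev2 p ((R.T.Q R.G).wd e) ∩ (R.T.Q R.G).S e ∩ {x | R.vb p R.I0 ((R.T.Q R.G).wd e) x = b} = ∅ := by
      refine Set.eq_empty_of_forall_notMem ?_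
      rintro x ⟨⟨h1, h2⟩, h3⟩
      have h4 := h1.2 e rfl h2
      have h5 : R.vb p R.I0 ((R.T.Q R.G).wd e) x = b := h3
      rw [h5] at h4
      exact h4 hB
    rw [h0, measure_empty]
    exact zero_le
  · refine le_trans (measure_mono ?_) (not_lt.1 hB)
    exact Set.inter_subset_inter_left _ (Set.inter_subset_inter_left _ (k4c_Ev2_sub R p _))

theorem k4c_p7_N_pos (hN : R.Num τ) : 0 < R.N := by linarith [hN.N_two]

theorem k4c_p7_wg_pos (hN : R.Num τ) (i : ℕ) : 0 < R.wg i := Real.rpow_pos_of_pos (k4c_p7_N_pos R hN) _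

theorem k4c_p7_wg_le (hN : R.Num τ) : R.wg R.I0 ≤ R.N ^ (-1 / τ) := by
  unfold K4cRaw.wg
  refine Real.rpow_le_rpow_of_exponent_le (by linarith [hN.N_two]) ?_
  have := hN.I0_ge
  rw [neg_div]
  linarith

/-- a cube of a coarser dyadic grid is a countable disjoint union of cubes of the finest grid -/
theorem k4c_cube_split (hN : R.Num τ) (β : ℝ) (hβ : R.N ^ (-1 / τ) ≤ β) (b : Fin v.j → ℤ) :
    ∃ Bs : Set (Fin v.j → ℤ), kpCube (v := v) β b = ⋃ b' ∈ Bs, kpCube (R.wg R.I0) b' := by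
  obtain ⟨φ, hφ⟩ := k2s_bin_nested (k4c_p7_wg_pos R hN R.I0) ((k4c_p7_wg_le R hN).trans hβ)
  refine ⟨{b' | ∀ i, φ (b' i) = b i}, ?_⟩
  ext u
  simp only [kpCube, Set.mem_ofPred_eq, Set.mem_iUnion, exists_prop]
  constructor
  · intro h
    exact ⟨fun i => kbBin (R.wg R.I0) (u i), fun i => by rw [← hφ]; exact h i, fun i => rfl⟩
  · rintro ⟨b', h1, h2⟩ i
    rw [hφ, h2 i]
    exact h1 i

theorem k4c_p7_cube_meas (β : ℝ) (b : Fin v.j → ℤ) : MeasurableSet (kpCube β b : Set (KbB v)) := by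
  have e : (kpCube β b : Set (KbB v)) = ⋂ i, (fun u : KbB v => kbBin β (u i)) ⁻¹' {b i} := by
    ext u
    simp [kpCube]
  rw [e]
  exact MeasurableSet.iInter fun i => ((k2s_bin_meas β).comp (measurable_pi_apply i)) (measurableSet_singleton _)

theorem k4c_p7_cube_disj (β : ℝ) {b b' : Fin v.j → ℤ} (hb : b ≠ b') : Disjoint (kpCube β b : Set (KbB v)) (kpCube β b') := by
  refine Set.disjoint_left.2 fun u h1 h2 => hb ?_
  funext i
  rw [← h1 i, ← h2 i]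

/-- the joint ceiling at every coarser dyadic width, in the coordinates of `F` -/
theorem k4c_p7_joint (hR : R.Ok p) (hN : R.Num τ) (β : ℝ) (hβ : R.N ^ (-1 / τ) ≤ β) (e : (R.T.Q R.G).C) (b : Fin v.j → ℤ) :
    R.F.mu ((R.T.Q R.G).wd e) (R.Ev2 p ((R.T.Q R.G).wd e) ∩ (R.T.Q R.G).S e ∩ R.pv p ((R.T.Q R.G).wd e) ⁻¹' kpCube β b)
      ≤ ENNReal.ofReal R.Mt * R.pal p ((R.T.Q R.G).wd e) (kpCube β b) * R.ref p e := by
  obtain ⟨Bs, hBs⟩ := k4c_cube_split R hN β hβ b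
  rw [hBs, Set.preimage_iUnion₂, Set.inter_iUnion₂]
  have hc : Bs.Countable := Set.to_countable Bs
  rw [measure_biUnion hc (fun b₁ _ b₂ _ hne => k4c_p7_cube_disj _ hne) fun b' _ => k4c_p7_cube_meas _ _]
  refine (measure_biUnion_le _ hc _).trans ?_
  rw [← ENNReal.tsum_mul_left, ← ENNReal.tsum_mul_right]
  refine ENNReal.tsum_le_tsum fun b' => ?_
  rw [k4c_cube_vb]
  exact k4c_joint_fine R p hR e b'.1

/-- field `joint` -/
theorem k4c_joint (hR : R.Ok p) (hN : R.Num τ) (β : ℝ) (hβ : R.N ^ (-1 / τ) ≤ β) (hβ1 : β ≤ 1) (e : ((R.sam p).Q (R.sam p).G).C) (b : Fin v.j → ℤ) :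
    (R.sam p).P.mu (((R.sam p).Q (R.sam p).G).wd e) (((R.sam p).Q (R.sam p).G).S e ∩ {x | kpPv p ((R.sam p).tan.vl (((R.sam p).Q (R.sam p).G).wd e) x) ∈ kpCube β b})
      ≤ ENNReal.ofReal (R.N ^ τ) * (R.sam p).pal (((R.sam p).Q (R.sam p).G).wd e) (kpCube β b) * (R.sam p).ref e := by
  have hπ := k4c_par_ok R p hR hN
  have h1 : (R.sam p).P.mu (((R.sam p).Q (R.sam p).G).wd e) (((R.sam p).Q (R.sam p).G).S e ∩ {x | kpPv p ((R.sam p).tan.vl (((R.sam p).Q (R.sam p).G).wd e) x) ∈ kpCube β b})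
      ≤ R.F.mu ((R.T.Q R.G).wd e.1) (R.Ev2 p ((R.T.Q R.G).wd e.1) ∩ (R.T.Q R.G).S e.1 ∩ R.pv p ((R.T.Q R.G).wd e.1) ⁻¹' kpCube β b) := by
    have e1 := congrArg (fun μ : Measure (R.F.Lam × ℝ) => μ ((R.Ev2 p ((R.T.Q R.G).wd e.1) ∩ (R.T.Q R.G).A e.1 ×ˢ (R.T.Q R.G).I e.1) ∩ R.pv p ((R.T.Q R.G).wd e.1) ⁻¹' kpCube β b))
      (k4c_chg_mu hπ ⟨(R.T.Q R.G).wd e.1, R.T.keep_wd (R.par p) R.G e.1 e.2⟩)
    refine (le_of_eq e1).trans ?_
    refine (Measure.restrict_apply_le _ _).trans (measure_mono ?_)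
    exact Set.inter_subset_inter_left _ (k4c_p7_box R p hR e.1)
  refine h1.trans ((k4c_p7_joint R p hR hN β hβ e.1 b).trans ?_)
  exact mul_le_mul_left (mul_le_mul_left (ENNReal.ofReal_le_ofReal hN.Mt_le) _) _

/-! ## PREP-8 : the nodes (~350 l.; `k4c_Q_*` of `ChgContract`, exponent arithmetic) -/

theorem k4c_keep_gd (m : ℕ) (hm : m ≤ R.G) (c : (R.T.Q m).C) (x : R.F.Lam × ℝ) (hx : x ∈ (R.T.Q m).S c) (hx2 : x ∈ R.Ev2 p ((R.T.Q m).wd c)) :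
    c ∈ R.gd p m := by
  by_contra hc
  have h1 : x ∉ R.exc p ((R.T.Q m).wd c) := hx2.1.2
  apply h1
  exact Or.inr (Or.inr (Or.inr ⟨m, hm, c, rfl, hc, hx⟩))

theorem k4c_keep_aux (hR : R.Ok p) : ∀ (m : ℕ), m ≤ R.G → ∀ (c : (R.T.Q m).C), (R.T.Q m).wd c ∈ R.kW p → ∀ x : R.F.Lam × ℝ,
    x ∈ (R.T.Q m).S c → x ∈ R.Ev2 p ((R.T.Q m).wd c) → R.T.keep (R.par p) m c
  | 0, hm, c, hw, x, hx, hx2 => ⟨k4c_keep_gd R p 0 hm c x hx hx2, hw⟩
  | m + 1, hm, c, hw, x, hx, hx2 => by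
    refine ⟨k4c_keep_gd R p (m + 1) hm c x hx hx2, ?_⟩
    have e := R.T.wd_up m c
    refine k4c_keep_aux hR m (by omega) (R.T.up m c) (by rw [e]; exact hw) x ((hR.nest m (by omega) c).2.2 hx) (by rw [e]; exact hx2)

/-- the prepared path only meets kept labels -/
theorem k4c_keep (hR : R.Ok p) (m : ℕ) (hm : m ≤ R.G) (c : (R.T.Q m).C) (hw : (R.T.Q m).wd c ∈ R.kW p)
    (hne : ((R.T.Q m).S c ∩ R.Ev2 p ((R.T.Q m).wd c)).Nonempty) : R.T.keep (R.par p) m c := by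
  obtain ⟨x, hx, hx2⟩ := hne
  exact k4c_keep_aux R p hR m hm c hw x hx hx2

/-- monotonicity of the one-scale predicates in the slack -/
theorem k4c_Ntv_mono {P : KbPb v} {K K' : ℝ} (h : P.Ntv K) (hK : K ≤ K') : P.Ntv K' := by
  have hK0 : 0 < K := k2a_ntv_pos h
  exact
  { base := fun γ l hl t ht => (h.base γ l hl t ht).trans hK
    sig := fun γ l hl t ht => (h.sig γ l hl t ht).trans hK
    dw := fun γ l hl t ht => by
      have h1 := h.dw γ l hl t ht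
      have h2 : 0 ≤ K * P.B γ := (abs_nonneg _).trans h1
      have h3 : 0 ≤ P.B γ := by
        by_contra hc
        rw [not_le] at hc
        nlinarith
      exact h1.trans (mul_le_mul_of_nonneg_right hK h3)
    dw_low := fun γ x hx => (h.dw_low γ x hx).trans (mul_le_mul_of_nonneg_right hK (abs_nonneg _))
    dww := fun γ t y w => (h.dww γ t y w).trans (mul_le_mul_of_nonneg_right hK (by positivity))
    mass := h.mass.trans (mul_le_mul' (ENNReal.ofReal_le_ofReal hK) le_rfl) }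

theorem k4c_Geo_mono {P : KbPb v} {Y : KbSys P} {K K' a : ℝ} (hB : ∀ γ, 0 ≤ P.B γ) (ha : 0 ≤ a) (h : Y.Geo K a) (hK : K ≤ K') : Y.Geo K' a := by
  have hq : 0 ≤ Y.q := by unfold KbSys.q kbQ; positivity
  exact
  { size := fun c => (h.size c).trans (mul_le_mul_of_nonneg_left hK hq)
    box := fun c l hl t ht => (h.box c l hl t ht).trans hK
    val := fun c l hl t ht => (h.val c l hl t ht).trans (mul_le_mul_of_nonneg_right hK ha)
    dw := fun c l hl t ht => (h.dw c l hl t ht).trans (mul_le_mul_of_nonneg_right hK (hB _))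
    dw_low := fun c x hx => (h.dw_low c x hx).trans (mul_le_mul_of_nonneg_right hK (abs_nonneg _))
    dww := fun c t y w => (h.dww c t y w).trans (mul_le_mul_of_nonneg_right hK (by positivity)) }

theorem k4c_Known_mono {P : KbPb v} {Y : KbSys P} {D : Type} {ℓ : P.Lab D} {K K' : ℝ} (h : Y.Known ℓ K) (hK : K ≤ K') : Y.Known ℓ K' := by
  obtain ⟨Lst, h1, h2, h3⟩ := h
  exact ⟨Lst, fun γ d o => (h1 γ d o).trans hK, h2, h3⟩

theorem k4c_PTmp_mono {P : KbPb v} {Q Q' : ℝ} (hB : ∀ γ, 0 ≤ P.B γ) (h : P.Tmp Q) (hQ : Q ≤ Q') : P.Tmp Q' := by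
  exact
  { card := h.card.trans hQ
    B_le := fun γ => ⟨(h.B_le γ).1.trans hQ, (h.B_le γ).2.trans (mul_le_mul_of_nonneg_right hQ (hB γ))⟩
    co_le := fun γ l hl => (h.co_le γ l hl).trans hQ
    dens := fun γ => (h.dens γ).trans (Measure.le_iff'.2 fun s => by
      simp only [Measure.smul_apply, smul_eq_mul]
      exact mul_le_mul' (ENNReal.ofReal_le_ofReal hQ) le_rfl) }

theorem k4c_STmp_mono {P : KbPb v} {Y : KbSys P} {Q Q' : ℝ} (h : Y.Tmp Q) (hQ : Q ≤ Q') : Y.Tmp Q' := by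
  have hq : 0 ≤ Y.q := by unfold KbSys.q kbQ; positivity
  exact
  { card := h.card.trans hQ
    q_low := h.q_low.trans (mul_le_mul_of_nonneg_right hQ hq)
    J_low := fun c => (h.J_low c).trans (mul_le_mul_of_nonneg_right hQ (abs_nonneg _))
    cen := fun c => (h.cen c).trans hQ }

theorem k4c_scales_q {N τ K1 e q : ℝ} (hN : 0 < N) (hK1 : K1 ≤ N ^ τ) (hq : 0 ≤ q) (h1 : N ^ e ≤ K1 * q) (h2 : q ≤ K1 * N ^ e) :
    N ^ (e - τ) ≤ q ∧ q ≤ N ^ (e + τ) := by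
  have hτ : 0 < N ^ τ := Real.rpow_pos_of_pos hN _
  have he : 0 < N ^ e := Real.rpow_pos_of_pos hN _
  rw [Real.rpow_sub hN, Real.rpow_add hN]
  constructor
  · rw [div_le_iff₀ hτ]
    exact h1.trans (by nlinarith [mul_le_mul_of_nonneg_right hK1 hq])
  · exact h2.trans (by nlinarith [mul_le_mul_of_nonneg_right hK1 he.le])

theorem k4c_scales_J {N τ Kc K1 e J J' dO x : ℝ} (hN : 0 < N) (hKc : 1 ≤ Kc) (hK1 : 1 ≤ K1) (hKK : Kc * K1 ≤ N ^ τ) (hJ' : 0 ≤ J')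
    (hJ : J' * dO = J) (hd1 : dO ≤ Kc) (hd2 : 1 ≤ Kc * dO) (hx : 0 ≤ x) (h1 : x * N ^ e ≤ K1 * J) (h2 : J ≤ K1 * (x * N ^ e)) :
    x * N ^ (e - τ) ≤ J' ∧ J' ≤ x * N ^ (e + τ) := by
  have hτ : 0 < N ^ τ := Real.rpow_pos_of_pos hN _
  have he : 0 < N ^ e := Real.rpow_pos_of_pos hN _
  rw [Real.rpow_sub hN, Real.rpow_add hN]
  constructor
  · rw [← mul_div_assoc, div_le_iff₀ hτ]
    calc x * N ^ e ≤ K1 * J := h1
      _ = K1 * (J' * dO) := by rw [hJ]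
      _ ≤ K1 * (J' * Kc) := by gcongr
      _ = (Kc * K1) * J' := by ring
      _ ≤ N ^ τ * J' := mul_le_mul_of_nonneg_right hKK hJ'
      _ = J' * N ^ τ := by ring
  · calc J' = 1 * J' := by ring
      _ ≤ (Kc * dO) * J' := mul_le_mul_of_nonneg_right hd2 hJ'
      _ = Kc * J := by rw [← hJ]; ring
      _ ≤ Kc * (K1 * (x * N ^ e)) := by gcongr
      _ = (Kc * K1) * (x * N ^ e) := by ring
      _ ≤ N ^ τ * (x * N ^ e) := mul_le_mul_of_nonneg_right hKK (by positivity)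
      _ = x * (N ^ e * N ^ τ) := by ring

theorem k4c_scales_nu {N τ Kc K1 e J J' dO : ℝ} {ν : ℝ≥0∞} (hN : 0 < N) (hKc : 1 ≤ Kc) (hK1 : 1 ≤ K1) (hKK : Kc * K1 ≤ N ^ τ) (hJ' : 0 ≤ J')
    (hJ : J' * dO = J) (hd1 : dO ≤ Kc) (hd2 : 1 ≤ Kc * dO) (h1 : ENNReal.ofReal (N ^ e * J) ≤ ENNReal.ofReal K1 * ν)
    (h2 : ν ≤ ENNReal.ofReal (K1 * (N ^ e * J))) :
    ENNReal.ofReal (N ^ (e - τ) * J') ≤ ν ∧ ν ≤ ENNReal.ofReal (N ^ (e + τ) * J') := by
  have hτ : 0 < N ^ τ := Real.rpow_pos_of_pos hN _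
  have he : 0 < N ^ e := Real.rpow_pos_of_pos hN _
  have hJJ : J' ≤ Kc * J := by
    calc J' = 1 * J' := by ring
      _ ≤ (Kc * dO) * J' := mul_le_mul_of_nonneg_right hd2 hJ'
      _ = Kc * J := by rw [← hJ]; ring
  rw [Real.rpow_sub hN, Real.rpow_add hN]
  constructor
  · calc ENNReal.ofReal (N ^ e / N ^ τ * J') ≤ ENNReal.ofReal ((Kc / N ^ τ) * (N ^ e * J)) := by
          refine ENNReal.ofReal_le_ofReal ?_
          have : N ^ e / N ^ τ * J' ≤ N ^ e / N ^ τ * (Kc * J) := mul_le_mul_of_nonneg_left hJJ (by positivity)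
          refine this.trans (le_of_eq ?_)
          ring
      _ = ENNReal.ofReal (Kc / N ^ τ) * ENNReal.ofReal (N ^ e * J) := ENNReal.ofReal_mul (by positivity)
      _ ≤ ENNReal.ofReal (Kc / N ^ τ) * (ENNReal.ofReal K1 * ν) := mul_le_mul' le_rfl h1
      _ = ENNReal.ofReal (Kc / N ^ τ * K1) * ν := by rw [← mul_assoc, ← ENNReal.ofReal_mul (by positivity)]
      _ ≤ 1 * ν := by
          refine mul_le_mul' ?_ le_rfl
          rw [← ENNReal.ofReal_one]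
          refine ENNReal.ofReal_le_ofReal ?_
          rw [div_mul_eq_mul_div, div_le_one hτ]
          exact hKK
      _ = ν := one_mul ν
  · refine h2.trans (ENNReal.ofReal_le_ofReal ?_)
    calc K1 * (N ^ e * J) = K1 * (N ^ e * (J' * dO)) := by rw [hJ]
      _ ≤ K1 * (N ^ e * (J' * Kc)) := by gcongr
      _ = (Kc * K1) * (N ^ e * J') := by ring
      _ ≤ N ^ τ * (N ^ e * J') := mul_le_mul_of_nonneg_right hKK (by positivity)
      _ = N ^ e * N ^ τ * J' := by ring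

/-- fields `q_lo, q_hi, J_lo, J_hi, nu_lo, nu_hi` -/
theorem k4c_scales (hp : p.Ok) (hR : R.Ok p) (hN : R.Num τ) (m : ℕ) (hm : m ≤ R.G) :
    R.N ^ (-p.k * R.u.dep m - τ) ≤ ((R.sam p).Q m).q ∧ ((R.sam p).Q m).q ≤ R.N ^ (-p.k * R.u.dep m + τ) ∧
    ∀ c, ((R.sam p).Q m).q ^ v.j * R.N ^ (-p.ell * R.u.dep m - τ) ≤ (((R.sam p).Q m).ch c).J ∧
      (((R.sam p).Q m).ch c).J ≤ ((R.sam p).Q m).q ^ v.j * R.N ^ (-p.ell * R.u.dep m + τ) ∧
      ENNReal.ofReal (R.N ^ (-p.d * R.u.dep m - τ) * (((R.sam p).Q m).ch c).J) ≤ ((R.sam p).Q m).nuC c ∧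
      ((R.sam p).Q m).nuC c ≤ ENNReal.ofReal (R.N ^ (-p.d * R.u.dep m + τ) * (((R.sam p).Q m).ch c).J) := by
  have hN0 : 0 < R.N := by linarith [hN.N_two]
  have hKK := hN.K1_le
  have hKc := hN.Kc_one
  have hK1 := hN.K1_one
  have hK1' : R.K1 ≤ R.N ^ τ := by
    refine le_trans ?_ hKK
    nlinarith
  have hq : 0 ≤ (R.T.Q m).q := by unfold KbSys.q kbQ; positivity
  have hπ := k4c_par_ok R p hR hN
  have hq2 := k4c_scales_q hN0 hK1' hq (hR.q_lo m hm) (hR.q_hi m hm)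
  refine ⟨hq2.1, hq2.2, fun c => ?_⟩
  have hJ : (((R.sam p).Q m).ch c).J * |(R.O ((R.T.Q m).wd c.1)).det| = ((R.T.Q m).ch c.1).J := k4c_Q_J hπ m c
  have hJ' : 0 ≤ (((R.sam p).Q m).ch c).J := abs_nonneg _
  have j := k4c_scales_J hN0 hKc hK1 hKK hJ' hJ (hR.det_le _) (hR.det_ge _) (pow_nonneg hq v.j) (hR.J_lo m hm c.1) (hR.J_hi m hm c.1)
  have n := k4c_scales_nu hN0 hKc hK1 hKK hJ' hJ (hR.det_le _) (hR.det_ge _) (hR.nu_lo m hm c.1) (hR.nu_hi m hm c.1)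
  exact ⟨j.1, j.2, n.1, n.2⟩

/-- fields `full`, `major` with the ACTUAL slack -/
theorem k4c_full (hR : R.Ok p) (hN : R.Num τ) (m : ℕ) (c : ((R.sam p).Q m).C) :
    ((R.sam p).Q m).q ≤ R.u.Kp * kbMn (((R.sam p).Q m).ch c).D ∧
    (0 < p.ell → ((R.sam p).Q m).q ≤ R.u.Kp * ∑ i : Fin v.j, ∑ k : Fin v.j, if (i : ℕ) = 0 then |(((R.sam p).Q m).ch c).D i k| else 0) := by
  have a : ∀ c : (R.T.Q m).C, c ∈ R.gd p m → (R.T.Q m).q ≤ R.u.Kp * kbMn (R.Dn m c) ∧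
      (0 < p.ell → (R.T.Q m).q ≤ R.u.Kp * ∑ i : Fin v.j, ∑ k : Fin v.j, if (i : ℕ) = 0 then |R.Dn m c i k| else 0) := by
    intro c hc
    refine ⟨hc.1.trans (mul_le_mul_of_nonneg_right hN.Kp_ge' (k4c_kbMn_nonneg _)), fun hl => (hc.2 hl).trans (mul_le_mul_of_nonneg_right hN.Kp_ge' ?_)⟩
    refine Finset.sum_nonneg fun i _ => Finset.sum_nonneg fun k _ => ?_
    split_ifs
    · exact abs_nonneg _
    · exact le_rfl
  exact a c.1 (R.T.keep_gd (R.par p) m c.1 c.2)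

/-! ## PREP-9 : list knowledge (~450 l., generic in the sample) -/

section Act

variable {P : KbPb v} {D₀ : Type} (ℓ₀ : P.Lab D₀)

theorem k4c_kn_mono {D : Type} (ℓ : P.Lab D) {K K' : ℝ} (hK : K ≤ K') (h : kpKnown P ℓ₀ ℓ K) : kpKnown P ℓ₀ ℓ K' := by
  obtain ⟨Lst, h1, h2, h3⟩ := h
  exact ⟨Lst, fun γ d o => (h1 γ d o).trans hK, h2, h3⟩

/-- lists: `Lst ×ˢ Lst'` -/
theorem k4c_kn_pair {D D' : Type} (ℓ : P.Lab D) (ℓ' : P.Lab D') {K K' : ℝ} (hK : 0 ≤ K) (h : kpKnown P ℓ₀ ℓ K) (h' : kpKnown P ℓ₀ ℓ' K') :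
    kpKnown P ℓ₀ (P.lpair ℓ ℓ') (K * K') := by
  obtain ⟨L, h1, h2, h3⟩ := h
  obtain ⟨L', h1', h2', h3'⟩ := h'
  refine ⟨fun γ d o => L γ d o ×ˢ L' γ d o, fun γ d o => ?_, fun γ d c => ?_, fun γ x hx => ?_⟩
  · rw [Finset.card_product]
    push_cast
    calc ((L γ d o).card : ℝ) * ((L' γ d o).card : ℝ) ≤ K * ((L' γ d o).card : ℝ) := mul_le_mul_of_nonneg_right (h1 γ d o) (Nat.cast_nonneg _)
      _ ≤ K * K' := mul_le_mul_of_nonneg_left (h1' γ d o) hK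
  · have e : {o | c ∈ L γ d o ×ˢ L' γ d o} = {o | c.1 ∈ L γ d o} ∩ {o | c.2 ∈ L' γ d o} := by
      ext o
      simp only [Set.mem_ofPred_eq, Finset.mem_product, Set.mem_inter_iff]
    rw [e]
    exact (h2 γ d c.1).inter (h2' γ d c.2)
  · exact Finset.mem_product.2 ⟨h3 γ x hx, h3' γ x hx⟩

/-- lists: `Lst.image g`; `{o | c ∈ (Lst ..).image g} = ⋃ d ∈ g⁻¹{c}, {o | d ∈ Lst ..}` is a countable union -/
theorem k4c_kn_map {D D' : Type} (ℓ : P.Lab D) (g : D → D') (hD : Countable D) {K : ℝ} (h : kpKnown P ℓ₀ ℓ K) : kpKnown P ℓ₀ (fun γ x => g (ℓ γ x)) K := by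
  classical
  obtain ⟨L, h1, h2, h3⟩ := h
  refine ⟨fun γ d o => (L γ d o).image g, fun γ d o => ?_, fun γ d c => ?_, fun γ x hx => ?_⟩
  · have : (((L γ d o).image g).card : ℝ) ≤ ((L γ d o).card : ℝ) := by exact_mod_cast Finset.card_image_le
    exact this.trans (h1 γ d o)
  · have e : {o | c ∈ (L γ d o).image g} = ⋃ d' ∈ g ⁻¹' {c}, {o | d' ∈ L γ d o} := by
      ext o
      simp only [Set.mem_ofPred_eq, Finset.mem_image, Set.mem_iUnion, Set.mem_preimage, Set.mem_singleton_iff, exists_prop]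
      constructor
      · rintro ⟨a, ha, hg⟩
        exact ⟨a, hg, ha⟩
      · rintro ⟨a, hg, ha⟩
        exact ⟨a, ha, hg⟩
    rw [e]
    exact MeasurableSet.biUnion (Set.to_countable _) fun d' _ => h2 γ d d'
  · exact Finset.mem_image_of_mem g (h3 γ x hx)

theorem k4c_kn_base {D : Type} (g : P.W → ℝ × KbB v → D) (hg : ∀ γ d, MeasurableSet (g γ ⁻¹' {d})) {K : ℝ} (hK : 1 ≤ K) : kpKnown P ℓ₀ (fun γ x => g γ (P.bs γ x)) K := by
  refine ⟨fun γ _ o => {g γ o}, fun γ d o => ?_, fun γ d c => ?_, fun γ x hx => ?_⟩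
  · rw [Finset.card_singleton]
    exact_mod_cast hK
  · have e : {o | c ∈ ({g γ o} : Finset D)} = g γ ⁻¹' {c} := by
      ext o
      simp only [Set.mem_ofPred_eq, Finset.mem_singleton, Set.mem_preimage, Set.mem_singleton_iff]
      exact eq_comm
    rw [e]
    exact hg γ c
  · exact Finset.mem_singleton_self _

theorem k4c_kn_two (ℓ : P.Lab Bool) {K : ℝ} (hK : 2 ≤ K) : kpKnown P ℓ₀ ℓ K := by
  refine ⟨fun _ _ _ => Finset.univ, fun γ d o => ?_, fun γ d c => ?_, fun γ x hx => Finset.mem_univ _⟩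
  · rw [Finset.card_univ, Fintype.card_bool]
    exact_mod_cast hK
  · have e : {o : ℝ × KbB v | c ∈ (Finset.univ : Finset Bool)} = Set.univ := by
      ext o
      simp
    rw [e]
    exact MeasurableSet.univ

end Act

/-- path labels: `(Lst ..).image some`; on the event the label exists (`cover`) and is unique (`k2s_S_disj`) -/
theorem k4c_kn_path (X : KpTan v) (m : ℕ) {D₀ : Type} (ℓ₀ : X.P.Lab D₀) {K : ℝ} (hwf : (X.Q m).WF) (hcov : ∀ γ, X.P.Ev γ ⊆ (X.Q m).sel γ) (h : (X.Q m).Known ℓ₀ K) :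
    kpKnown X.P ℓ₀ (X.lab m) K := by
  classical
  obtain ⟨L, h1, h2, h3⟩ := h
  refine ⟨fun γ d o => (L γ d o).image some, fun γ d o => ?_, fun γ d c => ?_, fun γ x hx => ?_⟩
  · have : (((L γ d o).image some).card : ℝ) ≤ ((L γ d o).card : ℝ) := by exact_mod_cast Finset.card_image_le
    exact this.trans (h1 γ d o)
  · cases c with
    | none =>
      have e : {o | (none : Option (X.Q m).C) ∈ (L γ d o).image some} = ∅ := by
        ext o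
        simp
      rw [e]
      exact MeasurableSet.empty
    | some c0 =>
      have e : {o | some c0 ∈ (L γ d o).image some} = {o | c0 ∈ L γ d o} := by
        ext o
        simp
      rw [e]
      exact h2 γ d c0
  · have hex : ∃ c, (X.Q m).wd c = γ ∧ x ∈ (X.Q m).S c := by
      have := hcov γ hx
      simp only [KbSys.sel, Set.mem_iUnion] at this
      obtain ⟨c, hc, hxc⟩ := this
      exact ⟨c, hc, hxc⟩
    have e : X.lab m γ x = some hex.choose := by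
      unfold KpTan.lab
      exact dif_pos hex
    rw [e]
    refine Finset.mem_image_of_mem some ?_
    obtain ⟨hw, hxS⟩ := hex.choose_spec
    have := h3 hex.choose x hxS
    rw [hw] at this
    exact this

theorem k4c_bin_near {β s s0 : ℝ} (hβ : 0 < β) (h : |s - s0| ≤ β / 2) : kbBin β s - kbBin β s0 ∈ ({-1, 0, 1} : Finset ℤ) := by
  have hD : β ≤ kbDy β := (k2a_dy_bounds hβ).1
  have hD0 : 0 < kbDy β := k2a_dy_pos β
  unfold kbBin
  have h1 : |s / kbDy β - s0 / kbDy β| ≤ 1 / 2 := by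
    rw [← sub_div, abs_div, abs_of_pos hD0, div_le_iff₀ hD0]
    linarith
  have h1' := abs_le.1 h1
  have a1 := Int.floor_le (s / kbDy β)
  have a2 := Int.lt_floor_add_one (s / kbDy β)
  have b1 := Int.floor_le (s0 / kbDy β)
  have b2 := Int.lt_floor_add_one (s0 / kbDy β)
  have c1 : ((⌊s / kbDy β⌋ - ⌊s0 / kbDy β⌋ : ℤ) : ℝ) < 2 := by
    push_cast
    linarith [h1'.2]
  have c2 : (-2 : ℝ) < ((⌊s / kbDy β⌋ - ⌊s0 / kbDy β⌋ : ℤ) : ℝ) := by
    push_cast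
    linarith [h1'.1]
  have d1 : ⌊s / kbDy β⌋ - ⌊s0 / kbDy β⌋ < 2 := by exact_mod_cast c1
  have d2 : -2 < ⌊s / kbDy β⌋ - ⌊s0 / kbDy β⌋ := by exact_mod_cast c2
  simp only [Finset.mem_insert, Finset.mem_singleton]
  omega

theorem k4c_quad_w {T : KbTest v} (hq : KbIsQuad T) (t : ℝ) (y : KbB v) : ∃ A B C : ℝ, ∀ w, T t y w = A * w ^ 2 + B * w + C := by
  obtain ⟨Q, hQ⟩ := hq
  refine ⟨Q.cww, Q.cw + Q.ctw * t + Q.cyw ⬝ᵥ y, Q.c0 + Q.ct * t + Q.cy ⬝ᵥ y + Q.ctt * t ^ 2 + t * (Q.cty ⬝ᵥ y) + y ⬝ᵥ Q.cyy.mulVec y, fun w => ?_⟩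
  rw [hQ]
  unfold KbQuad.ev
  ring

theorem k4c_quad_meas {T : KbTest v} (hq : KbIsQuad T) (w : ℝ) : Measurable fun o : ℝ × KbB v => T o.1 o.2 w := by
  obtain ⟨Q, hQ⟩ := hq
  have e : (fun o : ℝ × KbB v => T o.1 o.2 w) = fun o => Q.ev o.1 o.2 w := by
    funext o
    exact hQ _ _ _
  rw [e]
  unfold KbQuad.ev
  simp only [dotProduct, Matrix.mulVec]
  fun_prop

/-- the increment of a quadratic test in the hidden variable -/
theorem k4c_test_incr {T : KbTest v} (hq : KbIsQuad T) (t : ℝ) (y : KbB v) {w w' b c r : ℝ} (h1 : |kbDw T t y w| ≤ b) (h2 : |kbDww T t y w| ≤ c)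
    (h3 : |w' - w| ≤ r) : |T t y w' - T t y w| ≤ b * r + c * r ^ 2 / 2 := by
  obtain ⟨A, B, C, hT⟩ := k4c_quad_w hq t y
  have e1 : kbDw T t y w = 2 * A * w + B := by
    unfold kbDw
    rw [hT, hT]
    ring
  have e2 : kbDww T t y w = 2 * A := by
    unfold kbDww
    rw [hT, hT, hT]
    ring
  rw [e1] at h1
  rw [e2] at h2
  rw [hT, hT]
  exact k4c_quad_incr h1 h2 h3

/-- finite-mesh point states: `t`- and `y`-bins are functions of the exact base; inside one terminal hidden bin (width `< 2 aL`, `B = 1`) the native signal varies by `≤ K 2aL + K (2aL)² ≤ β / 2`  (`k4c_quad_incr`, `Ntv.dw`, `Ntv.dww`):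
list `{kbBin β (P_* (o, d δ)) + i | i ∈ {-1, 0, 1}}`, `δ = kbDy aL` -/
theorem k4c_kn_mesh (X : KpTan v) {K aL β : ℝ} (hwf : X.P.WF) (hB : ∀ γ, X.P.B γ = 1) (hK : 1 ≤ K) (hntv : X.P.Ntv K) (haL : 0 < aL) (haL1 : aL ≤ 1) (hβ : 8 * K * aL ≤ β) :
    kpKnown X.P (X.P.hid aL) (X.pt β) 3 := by
  classical
  have hβ0 : 0 < β := lt_of_lt_of_le (by positivity) hβ
  obtain ⟨δ, hδ⟩ : ∃ δ : ℝ, δ = kbDy aL := ⟨_, rfl⟩
  have hδ0 : 0 < δ := by rw [hδ]; exact k2a_dy_pos aL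
  have hδ2 : δ < 2 * aL := by rw [hδ]; exact (k2a_dy_bounds haL).2
  obtain ⟨f, hf⟩ : ∃ f : X.P.W → ℤ → ℤ → ℝ × KbB v → ℤ × (Fin v.j → ℤ) × ℤ,
      f = fun (γ : X.P.W) (d i : ℤ) (o : ℝ × KbB v) => (kbBin β o.1, (fun j => kbBin β (o.2 j)), kbBin β (X.P.Pst γ o.1 o.2 ((d : ℝ) * δ)) + i) := ⟨_, rfl⟩
  have hfm : ∀ γ d i, Measurable (f γ d i) := by
    intro γ d i
    have h1 := k4c_quad_meas (hwf.Pst_adm γ).1 ((d : ℝ) * δ)
    rw [hf]
    unfold kbBin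
    fun_prop
  refine ⟨fun γ d o => ({-1, 0, 1} : Finset ℤ).image fun i => f γ d i o, fun γ d o => ?_, fun γ d c => ?_, fun γ x hx => ?_⟩
  · have h1 : ((({-1, 0, 1} : Finset ℤ).image fun i => f γ d i o).card : ℝ) ≤ ((({-1, 0, 1} : Finset ℤ)).card : ℝ) := by
      exact_mod_cast Finset.card_image_le
    refine h1.trans ?_
    norm_num
  · have e : {o | c ∈ ({-1, 0, 1} : Finset ℤ).image fun i => f γ d i o} = ⋃ i ∈ ({-1, 0, 1} : Finset ℤ), f γ d i ⁻¹' {c} := by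
      ext o
      simp only [Set.mem_ofPred_eq, Finset.mem_image, Set.mem_iUnion, Set.mem_preimage, Set.mem_singleton_iff, exists_prop]
    rw [e]
    exact Finset.measurableSet_biUnion _ fun i _ => hfm γ d i (measurableSet_singleton c)
  · have hxE := hwf.Ev_sub γ hx
    have hd : X.P.hid aL γ x = ⌊X.P.hw γ x / δ⌋ := by
      unfold KbPb.hid kbBin
      rw [hB γ, div_one, hδ]
    have w1 := Int.floor_le (X.P.hw γ x / δ)
    have w2 := Int.lt_floor_add_one (X.P.hw γ x / δ)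
    rw [← hd] at w1 w2
    rw [le_div_iff₀ hδ0] at w1
    rw [div_lt_iff₀ hδ0] at w2
    have hw : |(X.P.hid aL γ x : ℝ) * δ - X.P.hw γ x| ≤ 2 * aL := by
      rw [abs_le]
      constructor <;> nlinarith
    have d1 : |kbDw (X.P.Pst γ) x.2 (kbY (X.P.co γ x.1) x.2) (X.P.hw γ x)| ≤ K := by
      have := hntv.dw γ x.1 hxE.1 x.2 hxE.2
      rw [hB γ, mul_one] at this
      exact this
    have d2 : |kbDww (X.P.Pst γ) x.2 (kbY (X.P.co γ x.1) x.2) (X.P.hw γ x)| ≤ K := by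
      have := hntv.dww γ x.2 (kbY (X.P.co γ x.1) x.2) (X.P.hw γ x)
      rw [hB γ] at this
      linarith
    have hinc := k4c_test_incr (hwf.Pst_adm γ).1 x.2 (kbY (X.P.co γ x.1) x.2) d1 d2 hw
    have hs : |X.P.sig γ x - X.P.Pst γ x.2 (kbY (X.P.co γ x.1) x.2) ((X.P.hid aL γ x : ℝ) * δ)| ≤ β / 2 := by
      rw [abs_sub_comm]
      refine hinc.trans ?_
      have : aL ^ 2 ≤ aL := by nlinarith
      nlinarith
    have hnear := k4c_bin_near hβ0 hs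
    refine Finset.mem_image.2 ⟨_, hnear, ?_⟩
    rw [hf]
    simp only [KpTan.pt, KbPb.bs]
    congr 2
    ring

theorem k4c_Ev2_sel (hR : R.Ok p) (m : ℕ) (hm : m ≤ R.G) (γ : R.F.W) : (R.par p).Ev γ ⊆ (R.T.Q m).sel γ :=
  (k4c_Ev2_sub R p γ).trans ((k4c_Msk_sub R p γ).trans (hR.pth_sub m hm γ))

theorem k4c_sam_ntv (hR : R.Ok p) (hN : R.Num τ) : (R.sam p).P.Ntv (4 * R.Kc * R.K0) := by
  have hK0 : 1 ≤ R.K0 := by linarith [hN.K0_two]
  refine k4c_chg_Ntv hR.wf (k4c_par_ok R p hR hN) hN.Kc_one hK0 hR.ntv ?_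
  refine (k4c_tot_ge R p hR hN).trans (mul_le_mul' (ENNReal.ofReal_le_ofReal ?_) le_rfl)
  nlinarith [hN.Kc_one]

/-- field `act` -/
theorem k4c_act (hR : R.Ok p) (hN : R.Num τ) : (R.sam p).tan.ActOk (R.N ^ (-1 / τ)) := by
  have hπ := k4c_par_ok R p hR hN
  have hK0 := hN.K0_two
  have hKc := hN.Kc_one
  have hKp : 4 * R.Kc * R.K0 ≤ R.u.Kp := hN.Kp_ge
  have hKK : R.K0 ≤ 4 * R.Kc * R.K0 := by nlinarith
  have hKp8 : 8 ≤ R.u.Kp := by nlinarith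
  have hlog := hN.log_one
  have hΛ : R.u.Kp ≤ R.u.Kp * Real.log R.u.N0 := by nlinarith
  have hΛ8 : 8 ≤ R.u.Kp * Real.log R.u.N0 := by linarith
  have haL := k4c_aL_pos R hN
  have haL1 : R.aL ≤ 1 := by
    unfold K4cRaw.aL
    exact Real.rpow_le_one_of_one_le_of_nonpos (by linarith [hN.N0_two]) (by linarith [hN.Lr_lo])
  refine
  { mono := fun r r' D ℓ hr h => k4c_kn_mono _ ℓ (pow_le_pow_right₀ (a := R.u.Kp * Real.log R.u.N0) (by linarith) hr) h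
    pair := fun r r' D D' ℓ ℓ' h h' => ?_
    map := fun r D D' ℓ g hD h => k4c_kn_map _ ℓ g hD h
    base := fun D g hg => k4c_kn_base _ g hg ?_
    two := fun ℓ _ => k4c_kn_two _ ℓ ?_
    path := fun m hm => ?_
    mesh := fun β hβ hβ1 => ?_ }
  · have h0 : kpKnown (R.sam p).P ((R.sam p).P.hid (R.sam p).aL) ℓ ((R.u.Kp * Real.log R.u.N0) ^ r) := h
    have h0' : kpKnown (R.sam p).P ((R.sam p).P.hid (R.sam p).aL) ℓ' ((R.u.Kp * Real.log R.u.N0) ^ r') := h'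
    have := k4c_kn_pair _ ℓ ℓ' (pow_nonneg (by linarith : 0 ≤ R.u.Kp * Real.log R.u.N0) r) h0 h0'
    rw [← pow_add] at this
    exact this
  · change 1 ≤ (R.u.Kp * Real.log R.u.N0) ^ 1
    rw [pow_one]
    linarith
  · change 2 ≤ (R.u.Kp * Real.log R.u.N0) ^ 1
    rw [pow_one]
    linarith
  · have hY := hR.sys_wf m hm
    have hsel := k4c_Ev2_sel R p hR m hm
    have h1 : ((R.sam p).tan.Q m).WF := k4c_Q_WF hπ m hY
    have h2 : ∀ γ, (R.sam p).tan.P.Ev γ ⊆ ((R.sam p).tan.Q m).sel γ :=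
      k4c_Q_cover m hY hsel fun c hw hne => k4c_keep R p hR m hm c hw hne
    have h3 : ((R.sam p).tan.Q m).Known ((R.sam p).P.hid (R.sam p).aL) R.K0 := k4c_Q_Known hπ m hY hsel (hR.known m hm)
    refine k4c_kn_mono _ _ ?_ (k4c_kn_path (R.sam p).tan m _ h1 h2 h3)
    change R.K0 ≤ (R.u.Kp * Real.log R.u.N0) ^ 1
    rw [pow_one]
    linarith
  · have h1 : (R.sam p).tan.P.WF := k4c_chg_WF hR.wf hπ
    have h2 : (R.sam p).tan.P.Ntv (4 * R.Kc * R.K0) := k4c_sam_ntv R p hR hN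
    have h3 : 8 * (4 * R.Kc * R.K0) * R.aL ≤ β := by
      have e1 : 8 * (4 * R.Kc * R.K0) * R.aL ≤ 8 * R.u.Kp * R.aL := by
        have := mul_le_mul_of_nonneg_right hKp haL.le
        linarith
      exact e1.trans (hN.mesh.trans hβ)
    refine k4c_kn_mono _ _ ?_ (k4c_kn_mesh (R.sam p).tan h1 (fun _ => rfl) (by linarith) h2 haL haL1 h3)
    change 3 ≤ (R.u.Kp * Real.log R.u.N0) ^ 1
    rw [pow_one]
    linarith

/-! ## PREP-10 : assembly -/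

theorem k4c_a10_sel (hR : R.Ok p) (m : ℕ) (hm : m ≤ R.G) (γ : R.F.W) : (R.par p).Ev γ ⊆ (R.T.Q m).sel γ :=
  fun _ hx => hR.pth_sub m hm γ (k4c_Msk_sub R p γ (k4c_Ev2_sub R p γ hx))

theorem k4c_a10_N0_pos (hN : R.Num τ) : 0 < R.u.N0 := by linarith [hN.N0_two]

/-- `N^x = N₀^{ε x}` -/
theorem k4c_a10_N_rpow (hN : R.Num τ) (x : ℝ) : R.N ^ x = R.u.N0 ^ (R.u.eps * x) := by
  rw [K4cRaw.N, ← Real.rpow_mul (k4c_a10_N0_pos R hN).le]

theorem k4c_a10_geo (hR : R.Ok p) (hN : R.Num τ) (m : ℕ) (hm : m ≤ R.G) : ((R.sam p).Q m).Geo R.u.Kp (R.u.N0 ^ (-(R.u.eps * R.u.dep m))) := by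
  have h := k4c_Q_Geo (k4c_par_ok R p hR hN) hN.Kc_one (by linarith [hN.K0_two]) m (hR.sys_wf m hm) (k4c_a10_sel R p hR m hm) (hR.geo m hm)
  exact k4c_Geo_mono (fun _ => zero_le_one) (Real.rpow_nonneg (k4c_a10_N0_pos R hN).le _) h hN.Kp_ge

theorem k4c_a10_ntv (hR : R.Ok p) (hN : R.Num τ) : (R.sam p).P.Ntv R.u.Kp := by
  have hK0 : (1 : ℝ) ≤ R.K0 := by linarith [hN.K0_two]
  have h := k4c_chg_Ntv hR.wf (k4c_par_ok R p hR hN) hN.Kc_one hK0 hR.ntv (by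
    refine (k4c_tot_ge R p hR hN).trans (mul_le_mul_left (ENNReal.ofReal_le_ofReal ?_) _)
    nlinarith [hN.Kc_one])
  exact k4c_Ntv_mono h hN.Kp_ge

theorem k4c_a10_tan_geo (hp : p.Ok) (hR : R.Ok p) (hN : R.Num τ) : (R.sam p).tan.GeoOk p τ := by
  have hπ := k4c_par_ok R p hR hN
  have hN0 := k4c_a10_N0_pos R hN
  have hNp : 0 < R.N := by linarith [hN.N_two]
  refine
    { N_two := hN.N_two
      wf := k4c_chg_WF hR.wf hπ
      ntv := k4c_Ntv_mono (k4c_a10_ntv R p hR hN) hN.Kp_le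
      B_one := fun _ => rfl
      dep_zero := hN.dep_zero
      dep_step := hN.dep_step
      dep_end := hN.dep_end
      sys_wf := fun m hm => k4c_Q_WF hπ m (hR.sys_wf m hm)
      geo := fun m hm => ?_
      q_lo := fun m hm => (k4c_scales R p hp hR hN m hm).1
      q_hi := fun m hm => (k4c_scales R p hp hR hN m hm).2.1
      J_lo := fun m hm c => ((k4c_scales R p hp hR hN m hm).2.2 c).1
      J_hi := fun m hm c => ((k4c_scales R p hp hR hN m hm).2.2 c).2.1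
      full := fun m hm c => ?_
      major := fun hl m hm c => ?_
      nu_lo := fun m hm c => ((k4c_scales R p hp hR hN m hm).2.2 c).2.2.1
      nu_hi := fun m hm c => ((k4c_scales R p hp hR hN m hm).2.2 c).2.2.2
      nest := fun m hm c => k4c_Q_nest m (fun c => (hR.nest m hm c).1) (fun c => (hR.nest m hm c).2.1) c
      path := fun m hm c => k4c_Q_path m c
      cover := fun m hm γ => k4c_Q_cover m (hR.sys_wf m hm) (k4c_a10_sel R p hR m hm) (fun c hw hne => k4c_keep R p hR m hm c hw hne) γ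
      act := k4c_act R p hR hN }
  · have h := k4c_a10_geo R p hR hN m hm
    have e : (R.sam p).tan.a m = R.u.N0 ^ (-(R.u.eps * R.u.dep m)) := by
      show R.N ^ (-R.u.dep m) = _
      rw [k4c_a10_N_rpow R hN, mul_neg]
    rw [e]
    exact k4c_Geo_mono (fun _ => zero_le_one) (Real.rpow_nonneg hN0.le _) h hN.Kp_le
  · exact (k4c_full R p hR hN m c).1.trans (mul_le_mul_of_nonneg_right hN.Kp_le (k4c_kbMn_nonneg _))
  · refine ((k4c_full R p hR hN m c).2 hl).trans (mul_le_mul_of_nonneg_right hN.Kp_le ?_)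
    refine Finset.sum_nonneg fun i _ => Finset.sum_nonneg fun k _ => ?_
    split_ifs
    · exact abs_nonneg _
    · exact le_rfl

theorem k4c_a10_mu_univ (hR : R.Ok p) (hN : R.Num τ) (γ : (R.par p).kW) : (R.F.k4cChg (R.par p)).mu γ Set.univ = R.F.mu γ.1 (R.Ev2 p γ.1) := by
  have h := congrArg (fun μ : Measure (R.F.Lam × ℝ) => μ Set.univ) (k4c_chg_mu (k4c_par_ok R p hR hN) γ)
  refine h.trans ?_
  show ((R.F.mu γ.1).restrict (R.Ev2 p γ.1)) Set.univ = _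
  rw [Measure.restrict_apply MeasurableSet.univ, Set.univ_inter]

theorem k4c_a10_tan_ana (hp : p.Ok) (hR : R.Ok p) (hN : R.Num τ) : (R.sam p).tan.Ana p τ := by
  have hπ := k4c_par_ok R p hR hN
  have hNp : 0 < R.N := by linarith [hN.N_two]
  refine
    { succ := fun γ => Or.inr ?_
      cap_w := fun γ w hw hw1 x₀ Bz hBz => k4c_cap_w R p hp hR hN γ w hw hw1 x₀ Bz hBz
      cap_X := fun γ w hw hw1 x₀ Bz hBz => k4c_cap_X R p hp hR hN γ w hw hw1 x₀ Bz hBz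
      pal_prob := fun γ => k4c_pal_prob R p hR hN γ.1 γ.2.1
      pal_cap := fun γ w hw hw1 u₀ => k4c_pal_cap R p hp hR hN γ.1 γ.2.1 w hw hw1 u₀
      ref_sum := fun γ => ?_
      ref_ge := fun e => k4c_ref_ge R p hR hN e
      ref_le := fun e => k4c_ref_le R p hR hN e
      joint := fun β hβ hβ1 e b => k4c_joint R p hR hN β hβ hβ1 e b }
  · have e : (R.sam p).tan.P.mu γ Set.univ = R.F.mu γ.1 (R.Ev2 p γ.1) := k4c_a10_mu_univ R p hR hN γ
    rw [e]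
    have h1 : ENNReal.ofReal (R.θ / 2) ≤ R.F.mu γ.1 (R.Ev2 p γ.1) := γ.2.2
    calc (1 : ℝ≥0∞) = ENNReal.ofReal 1 := ENNReal.ofReal_one.symm
      _ ≤ ENNReal.ofReal (R.N ^ τ * (R.θ / 2)) := ENNReal.ofReal_le_ofReal (by linarith [hN.θ_ge])
      _ = ENNReal.ofReal (R.N ^ τ) * ENNReal.ofReal (R.θ / 2) := ENNReal.ofReal_mul (Real.rpow_nonneg hNp.le _)
      _ ≤ _ := mul_le_mul_right h1 _
  · exact k4c_ref_sum R p hR hN γ

/-- **`prop:tangent-palette` at one scale** -/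
theorem k4c_prep_tan (hp : p.Ok) (hR : R.Ok p) (hN : R.Num τ) : (R.sam p).tan.Ok p τ :=
  kp_tan_ok (k4c_a10_tan_geo R p hp hR hN) (k4c_a10_tan_ana R p hp hR hN)

theorem k4c_a10_sam_geo (hp : p.Ok) (hR : R.Ok p) (hN : R.Num τ) : (R.sam p).GeoOk p τ := by
  have hπ := k4c_par_ok R p hR hN
  have hN0 := k4c_a10_N0_pos R hN
  have hN1 : (1 : ℝ) ≤ R.u.N0 := by linarith [hN.N0_two]
  have hQ1 : (1 : ℝ) ≤ R.u.N0 ^ R.M0 := Real.one_le_rpow hN1 (by linarith [hN.M0_one])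
  have hKc := hN.Kc_one
  have hK0 := hN.K0_two
  have hKK : R.K0 ≤ R.u.Kp := by nlinarith [hN.Kp_ge]
  have hKcQ : R.Kc ≤ R.u.N0 ^ R.M0 := by nlinarith [hN.Kc_le]
  have hpow : ∀ n : ℕ, (n : ℝ) ≤ 5 → (R.u.N0 ^ R.M0) ^ n ≤ R.u.N0 ^ R.u.Mp := by
    intro n hn
    rw [← Real.rpow_natCast, ← Real.rpow_mul hN0.le]
    refine Real.rpow_le_rpow_of_exponent_le hN1 ?_
    nlinarith [hN.Mp_ge, hN.M0_one]
  refine
    { tan := k4c_a10_tan_geo R p hp hR hN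
      eps_pos := hN.eps_pos
      eps_le := hN.eps_le
      Lr_lo := hN.Lr_lo
      Lr_hi := hN.Lr_hi
      win := hN.win
      th_pos := hN.th_pos
      th_le := hN.th_le
      thc_pos := hN.thc_pos
      thc_le := hN.thc_le
      stage := hN.stage
      Kp_one := ?_
      ntv := k4c_a10_ntv R p hR hN
      tmp := ?_
      geo := fun m hm => k4c_a10_geo R p hR hN m hm
      known := fun m hm => k4c_Known_mono (k4c_Q_Known hπ m (hR.sys_wf m hm) (k4c_a10_sel R p hR m hm) (hR.known m hm)) hKK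
      sys_tmp := fun m hm => ?_
      full := fun m hm c => (k4c_full R p hR hN m c).1
      major := fun hl m hm c => (k4c_full R p hR hN m c).2 hl
      cheap := fun m hm => hR.cheap m hm
      Mp_one := ?_
      Mg_ge := hN.Mg_ge }
  · show 2 ≤ R.u.Kp
    nlinarith [hN.Kp_ge]
  · refine k4c_PTmp_mono (fun _ => zero_le_one) (k4c_chg_Tmp hR.wf hπ hKc hQ1 hR.tmp) ?_
    calc 8 * R.Kc ^ 2 * (R.u.N0 ^ R.M0) ^ 4 ≤ R.u.N0 ^ R.M0 * (R.u.N0 ^ R.M0) ^ 4 := mul_le_mul_of_nonneg_right hN.Kc_le (by positivity)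
      _ = (R.u.N0 ^ R.M0) ^ 5 := by ring
      _ ≤ _ := hpow 5 (by norm_num)
  · refine k4c_STmp_mono (k4c_Q_Tmp hπ hKc hQ1 m (hR.sys_tmp m hm)) ?_
    calc R.Kc * R.u.N0 ^ R.M0 ≤ R.u.N0 ^ R.M0 * R.u.N0 ^ R.M0 := mul_le_mul_of_nonneg_right hKcQ (by positivity)
      _ = (R.u.N0 ^ R.M0) ^ 2 := by ring
      _ ≤ _ := hpow 2 (by norm_num)
  · show 1 ≤ R.u.Mp
    linarith [hN.Mp_ge, hN.M0_one]

/-- **EXIT: the prepared sample is a guarded sample** -/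
theorem k4c_prep (hp : p.Ok) (hR : R.Ok p) (hN : R.Num τ) (hG : (R.sam p).Guard p) : (R.sam p).Ok p τ :=
  kp_sam_ok (k4c_a10_sam_geo R p hp hR hN) (k4c_a10_tan_ana R p hp hR hN) hG hN.slack hN.nodes hN.small

end

end Claimed.Agent.R252
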