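import Claimed.Agent.R252.S4C.ChgDefs
import Claimed.Agent.R252.S4.Win

/-!
# ROW 252 (S0492), unit S4C (post BP-252-S4C, helper294), file 9: THE PREPARATION, EXPLICITLY.      Definitions only, no `sorry`.

Paper: 04 l.541-672 (`prop:tangent-palette`, masks, parents, palettes) + l.898-925 (likelihood truncation of `a03:finite-state-conditioning`).      ONE scale.
`R : K4cRaw v` = RAW DATA at the chosen parent node and sample: the remaining problem `F`, the nodes `T` of the window, frames `O, Oi`, the final path `Pth`, the numbers.      `R.Ok p` = what the path supplies (`S4C/SeqContract.lean`).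
THE CONSTRUCTION (every object is an explicit definition, so that every field of `KpSam.Ok` is an independent leaf of `S4C/PrepContract.lean`):
  `N = N0^eps`,  widths `wg i = N^{-i t2}` (`i ≤ I0`),  `aL = N0^{-Lr}`,  palette variable `pv γ x = kpPv p (Oi γ V)`,  its bins `vb i`;
  1. `Msk γ`   = `Pth γ` minus: high pure densities at the widths `wg i`; low terminal density; high joint densities (terminal bin, `vb i`); incidences with a label which is not good (`gd m`: full largest scale, full major row);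
  2. `kW1`     = parents with `mu γ (Msk γ) ≥ θ`;      `pal γ` = normalised law of `pv` on `Msk γ`;      `ref e = mu (Msk ∩ S e)`;
  3. `Ev2 γ`   = `Msk γ` minus the triples (parent, end label, finest bin) of likelihood ratio `> Mt`;
  4. `kW`      = parents of `kW1` with `mu γ (Ev2 γ) ≥ θ / 2`;      `R.par p`, `R.sam p`.
-/

set_option autoImplicit false

namespace Claimed.Agent.R252

open MeasureTheory
open scoped ENNReal BigOperators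

noncomputable section

variable {v : KbVer}

/-- **raw data at the chosen parent node** -/
structure K4cRaw (v : KbVer) where
  F : KbPb v
  T : K4cTree F
  G : ℕ
  O : F.W → Matrix (Fin v.j) (Fin v.j) ℝ
  Oi : F.W → Matrix (Fin v.j) (Fin v.j) ℝ
  /-- the final path -/
  Pth : F.W → Set (F.Lam × ℝ)
  /-- the numbers of the sample -/
  u : K4cNum
  /-- step of the grids of widths, in tangent exponents -/
  t2 : ℝ
  /-- index of the finest width -/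
  I0 : ℕ
  /-- ACTUAL slack of the exact problem and of its path -/
  K0 : ℝ
  /-- slack of the frames -/
  Kc : ℝ
  /-- tangent slack of the raw estimates -/
  K1 : ℝ
  /-- fullness threshold -/
  Kf : ℝ
  /-- terminal density floor -/
  lo : ℝ
  /-- success threshold -/
  θ : ℝ
  /-- likelihood level -/
  Mt : ℝ
  /-- relative size of one exceptional mass -/
  σ : ℝ
  /-- information bound -/
  ι : ℝ
  /-- range of the finest bins -/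
  nb : ℕ
  /-- complexity exponent of the exact problem and of its path -/
  M0 : ℝ

namespace K4cRaw

variable (R : K4cRaw v) (p : KpPrm)

/-- tangent resolution -/
def N : ℝ := R.u.N0 ^ R.u.eps

/-- terminal thickness -/
def aL : ℝ := R.u.N0 ^ (-R.u.Lr)

/-- the grid of widths -/
def wg (i : ℕ) : ℝ := R.N ^ (-((i : ℝ) * R.t2))

/-- the palette variable -/
def pv (γ : R.F.W) (x : R.F.Lam × ℝ) : KbB v := kpPv p ((R.Oi γ).mulVec (kbV (R.F.co γ x.1)))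

/-- its bins at the width `wg i` -/
def vb (i : ℕ) : R.F.Lab (Fin v.j → ℤ) := fun γ x j => kbBin (R.wg i) (R.pv p γ x j)

/-- the matrix of a label in the new frame -/
def Dn (m : ℕ) (c : (R.T.Q m).C) : Matrix (Fin v.j) (Fin v.j) ℝ := R.Oi ((R.T.Q m).wd c) * ((R.T.Q m).ch c).D

/-- good labels: full largest scale, full major row -/
def gd (m : ℕ) : Set (R.T.Q m).C :=
  {c | (R.T.Q m).q ≤ R.Kf * kbMn (R.Dn m c) ∧
    (0 < p.ell → (R.T.Q m).q ≤ R.Kf * ∑ i : Fin v.j, ∑ k : Fin v.j, if (i : ℕ) = 0 then |R.Dn m c i k| else 0)}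

/-- incidences with a label which is not good -/
def bdl (γ : R.F.W) : Set (R.F.Lam × ℝ) := {x | ∃ m ≤ R.G, ∃ c, (R.T.Q m).wd c = γ ∧ c ∉ R.gd p m ∧ x ∈ (R.T.Q m).S c}

/-- pure ceiling at the width `wg i` -/
def hiW (i : ℕ) : ℝ := R.K1 * R.wg i ^ p.d

/-- joint ceiling at the width `wg i` -/
def hiV (i : ℕ) : ℝ := R.K1 * R.wg i ^ p.S * R.lo

/-- the exceptional incidences -/
def exc (γ : R.F.W) : Set (R.F.Lam × ℝ) :=
  {x | (∃ i ≤ R.I0, x ∈ R.F.above (R.F.hid (R.wg i)) (R.hiW p i) γ) ∨ x ∈ R.F.below (R.F.hid R.aL) R.lo γ ∨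
    (∃ i ≤ R.I0, x ∈ R.F.above (R.F.lpair (R.F.hid R.aL) (R.vb p i)) (R.hiV p i) γ) ∨ x ∈ R.bdl p γ}

/-- **step 1: the masked path** -/
def Msk (γ : R.F.W) : Set (R.F.Lam × ℝ) := R.Pth γ \ R.exc p γ

/-- **step 2: parents with a substantial success fraction** -/
def kW1 : Set R.F.W := {γ | ENNReal.ofReal R.θ ≤ R.F.mu γ (R.Msk p γ)}

/-- the palettes -/
def pal (γ : R.F.W) : Measure (KbB v) := (R.F.mu γ (R.Msk p γ))⁻¹ • ((R.F.mu γ).restrict (R.Msk p γ)).map (R.pv p γ)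

/-- the reference weights -/
def ref (e : (R.T.Q R.G).C) : ℝ≥0∞ := R.F.mu ((R.T.Q R.G).wd e) (R.Msk p ((R.T.Q R.G).wd e) ∩ (R.T.Q R.G).S e)

/-- triples of too large likelihood ratio -/
def Bad (e : (R.T.Q R.G).C) (b : Fin v.j → ℤ) : Prop :=
  ENNReal.ofReal R.Mt * R.pal p ((R.T.Q R.G).wd e) (kpCube (R.wg R.I0) b) * R.ref p e
    < R.F.mu ((R.T.Q R.G).wd e) (R.Msk p ((R.T.Q R.G).wd e) ∩ (R.T.Q R.G).S e ∩ {x | R.vb p R.I0 ((R.T.Q R.G).wd e) x = b})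

/-- **step 3: the prepared path** -/
def Ev2 (γ : R.F.W) : Set (R.F.Lam × ℝ) :=
  {x | x ∈ R.Msk p γ ∧ ∀ e, (R.T.Q R.G).wd e = γ → x ∈ (R.T.Q R.G).S e → ¬ R.Bad p e (R.vb p R.I0 γ x)}

/-- **step 4: the retained parents** -/
def kW : Set R.F.W := {γ | γ ∈ R.kW1 p ∧ ENNReal.ofReal (R.θ / 2) ≤ R.F.mu γ (R.Ev2 p γ)}

/-- the parameters of the preparation -/
def par : K4cPar R.T where
  kW := R.kW p
  gd := R.gd p
  O := R.O
  Oi := R.Oi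
  b := R.F.k4cB R.aL
  Ev := R.Ev2 p
  pal := R.pal p
  G := R.G
  ref := R.ref p

/-- **the prepared sample** -/
def sam : KpSam v := R.T.k4cSam (R.par p) R.u

/-- finest bins in a finite type (`kpClamp` of `S4/Win.lean` is injective on `[-nb, nb]`) -/
def vbc : R.F.Lab (Fin v.j → Fin (2 * R.nb + 1)) := fun γ x j => kpClamp R.nb (R.vb p R.I0 γ x j)

/-- the parent weights of the final path:  `(om γ * mu γ (Pth γ) / mass Pth).toReal` -/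
def pW : R.F.W → ℝ := kpWt R.F R.Pth

/-- the conditional joint laws of (end label, finest bin) on the final path:  `if wd e = γ then (mu γ (Pth γ ∩ S e ∩ vbc γ ⁻¹' {b}) / mu γ (Pth γ)).toReal else 0` -/
def Rw : R.F.W → (R.T.Q R.G).C → (Fin v.j → Fin (2 * R.nb + 1)) → ℝ := kpJt R.F R.Pth (R.T.Q R.G) (R.vbc p)

open Classical in
/-- **what the path supplies** -/
structure Ok : Prop where
  -- the problem
  wf : R.F.WF
  ntv : R.F.Ntv R.K0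
  tmp : R.F.Tmp (R.u.N0 ^ R.M0)
  -- the frames
  inv : ∀ γ, R.O γ * R.Oi γ = 1
  O_le : ∀ γ, kbMn (R.O γ) ≤ R.Kc
  Oi_le : ∀ γ, kbMn (R.Oi γ) ≤ R.Kc
  det_le : ∀ γ, |(R.O γ).det| ≤ R.Kc
  det_ge : ∀ γ, 1 ≤ R.Kc * |(R.O γ).det|
  -- the nodes
  sys_wf : ∀ m ≤ R.G, (R.T.Q m).WF
  geo : ∀ m ≤ R.G, (R.T.Q m).Geo R.K0 (R.u.N0 ^ (-(R.u.eps * R.u.dep m)))
  known : ∀ m ≤ R.G, (R.T.Q m).Known (R.F.hid R.aL) R.K0
  sys_tmp : ∀ m ≤ R.G, (R.T.Q m).Tmp (R.u.N0 ^ R.M0)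
  q_lo : ∀ m ≤ R.G, R.N ^ (-p.k * R.u.dep m) ≤ R.K1 * (R.T.Q m).q
  q_hi : ∀ m ≤ R.G, (R.T.Q m).q ≤ R.K1 * R.N ^ (-p.k * R.u.dep m)
  J_lo : ∀ m ≤ R.G, ∀ c, (R.T.Q m).q ^ v.j * R.N ^ (-p.ell * R.u.dep m) ≤ R.K1 * ((R.T.Q m).ch c).J
  J_hi : ∀ m ≤ R.G, ∀ c, ((R.T.Q m).ch c).J ≤ R.K1 * ((R.T.Q m).q ^ v.j * R.N ^ (-p.ell * R.u.dep m))
  nu_lo : ∀ m ≤ R.G, ∀ c, ENNReal.ofReal (R.N ^ (-p.d * R.u.dep m) * ((R.T.Q m).ch c).J) ≤ ENNReal.ofReal R.K1 * (R.T.Q m).nuC c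
  nu_hi : ∀ m ≤ R.G, ∀ c, (R.T.Q m).nuC c ≤ ENNReal.ofReal (R.K1 * (R.N ^ (-p.d * R.u.dep m) * ((R.T.Q m).ch c).J))
  cheap : ∀ m ≤ R.G, R.u.N0 ^ (-(p.k * (R.u.eps * R.u.dep m) + R.u.thc)) ≤ (R.T.Q m).q
  nest : ∀ m < R.G, ∀ c, (R.T.Q (m + 1)).I c ⊆ (R.T.Q m).I (R.T.up m c) ∧ (R.T.Q (m + 1)).A c ⊆ (R.T.Q m).A (R.T.up m c) ∧ (R.T.Q (m + 1)).S c ⊆ (R.T.Q m).S (R.T.up m c)
  -- the final path
  pth_meas : ∀ γ, MeasurableSet (R.Pth γ)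
  pth_sub : ∀ m ≤ R.G, ∀ γ, R.Pth γ ⊆ (R.T.Q m).sel γ
  pth_mass : 1 ≤ ENNReal.ofReal R.K0 * R.F.mass R.Pth
  -- the exceptional masses, relative to the final path
  ex_w : ∀ i ≤ R.I0, R.F.mass (R.F.above (R.F.hid (R.wg i)) (R.hiW p i)) ≤ ENNReal.ofReal R.σ * R.F.mass R.Pth
  ex_lo : R.F.mass (R.F.below (R.F.hid R.aL) R.lo) ≤ ENNReal.ofReal R.σ * R.F.mass R.Pth
  ex_v : ∀ i ≤ R.I0, R.F.mass (R.F.above (R.F.lpair (R.F.hid R.aL) (R.vb p i)) (R.hiV p i)) ≤ ENNReal.ofReal R.σ * R.F.mass R.Pth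
  ex_gd : ∀ m ≤ R.G, (∑ c, if c ∈ R.gd p m then 0 else R.F.om ((R.T.Q m).wd c) * (R.T.Q m).mC c) ≤ ENNReal.ofReal R.σ * R.F.mass R.Pth
  -- the entropy window
  rng : ∀ γ, ∀ x ∈ R.Pth γ, ∀ j, |R.vb p R.I0 γ x j| ≤ (R.nb : ℤ)
  info : k4Info R.pW (R.Rw p) ≤ R.ι

/-- **the numerical requirements**, target tolerance `τ` -/
structure Num (τ : ℝ) : Prop where
  tau_pos : 0 < τ
  N0_two : 2 ≤ R.u.N0
  N_two : 2 ≤ R.N
  eps_pos : 0 < R.u.eps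
  eps_le : R.u.eps ≤ τ
  Lr_lo : 1 / 8 ≤ R.u.Lr
  Lr_hi : R.u.Lr ≤ 1
  -- the nodes
  dep_zero : 0 < R.u.dep 0 ∧ R.u.dep 0 ≤ τ
  dep_step : ∀ m < R.G, R.u.dep m < R.u.dep (m + 1) ∧ R.u.dep (m + 1) ≤ R.u.dep m + τ
  dep_end : 1 / τ ≤ R.u.dep R.G
  win : R.u.eps * R.u.dep R.G ≤ τ
  -- the grids
  t2_pos : 0 < R.t2
  I0_ge : 1 / τ ≤ (R.I0 : ℝ) * R.t2
  -- the slacks
  K0_two : 2 ≤ R.K0
  Kc_one : 1 ≤ R.Kc
  K1_one : 1 ≤ R.K1
  Kf_one : 1 ≤ R.Kf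
  lo_pos : 0 < R.lo
  Kp_ge : 4 * R.Kc * R.K0 ≤ R.u.Kp
  Kp_ge' : R.Kf ≤ R.u.Kp
  Kp_le : R.u.Kp ≤ R.N ^ τ
  K1_le : R.Kc * R.K1 ≤ R.N ^ τ
  cap_le : 3 * (2 * R.K0 * R.N ^ R.t2 + 3) * R.K1 * R.Kc ≤ R.N ^ τ
  pal_le : (2 * R.N ^ R.t2 + 3) ^ 2 * R.K1 ≤ R.θ * R.N ^ τ
  θ_pos : 0 < R.θ
  θ_le : R.K0 * R.θ ≤ R.σ
  θ_ge : 2 ≤ R.θ * R.N ^ τ
  Mt_one : 1 < R.Mt
  Mt_le : R.Mt ≤ R.N ^ τ
  -- the losses
  σ_pos : 0 < R.σ
  σ_le : (2 * (R.I0 : ℝ) + R.G + 5) * R.σ ≤ 1 / 8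
  ι_le : 2 * (R.ι + Real.log 2 + 1) ≤ Real.log R.Mt / 8
  -- the diagonal
  th_pos : 0 < R.u.th
  th_le : R.u.th ≤ τ * R.u.eps
  thc_pos : 0 < R.u.thc
  thc_le : R.u.thc ≤ τ * R.u.eps
  stage : 1 / τ ≤ (R.u.n : ℝ)
  slack : (R.u.Kp * Real.log R.u.N0) ^ R.u.n ≤ R.N ^ τ
  nodes : (R.G : ℝ) + 1 ≤ τ * Real.log R.u.N0
  small : R.u.Kp * Real.log R.u.N0 ≤ τ * R.u.N0
  log_one : 1 ≤ Real.log R.u.N0
  mesh : 8 * R.u.Kp * R.aL ≤ R.N ^ (-1 / τ)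
  M0_one : 1 ≤ R.M0
  Mp_ge : 5 * R.M0 ≤ R.u.Mp
  Mg_ge : (2 : ℝ) ^ ((R.u.Mp + R.u.n) ^ 2) ≤ R.u.Mg
  Kc_le : 8 * R.Kc ^ 2 ≤ R.u.N0 ^ R.M0

end K4cRaw

/-- Stores the on-demand equation lemmas of the definitions above in THIS module (rule 6 hygiene). -/
theorem k4c_prep_eqns_cite : True := by
  have := @K4cRaw.N.eq_1
  have := @K4cRaw.aL.eq_1
  have := @K4cRaw.wg.eq_1
  have := @K4cRaw.pv.eq_1
  have := @K4cRaw.vb.eq_1
  have := @K4cRaw.Dn.eq_1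
  have := @K4cRaw.gd.eq_1
  have := @K4cRaw.bdl.eq_1
  have := @K4cRaw.hiW.eq_1
  have := @K4cRaw.hiV.eq_1
  have := @K4cRaw.exc.eq_1
  have := @K4cRaw.Msk.eq_1
  have := @K4cRaw.kW1.eq_1
  have := @K4cRaw.pal.eq_1
  have := @K4cRaw.ref.eq_1
  have := @K4cRaw.Bad.eq_1
  have := @K4cRaw.Ev2.eq_1
  have := @K4cRaw.kW.eq_1
  have := @K4cRaw.par.eq_1
  have := @K4cRaw.sam.eq_1
  have := @K4cRaw.vbc.eq_1
  have := @K4cRaw.pW.eq_1
  have := @K4cRaw.Rw.eq_1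
  trivial

end

end Claimed.Agent.R252
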